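import Vale.Agent.P119.RB.Part
import Vale.Agent.P119.FB.Tie

/-!
# P119: partners in the system of worlds (`helper909`)

`Y_Part`: the hypothesis `FB.Sys.Part` of the tie lemma holds for the system of worlds.
-/

open MeasureTheory Filter Topology Set
open scoped NNReal

noncomputable section

namespace Vale.Agent.P119.RB

open M CTree KU FB

variable {Φ : E3 → ℝ} {ε : ℝ} {L : ℕ} {W W₁ W₂ : Finset Src} {a b : Src} {s t : ℝ}

/-- A particle which is alive before `t` has a live tree at `t`. -/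
theorem exists_live (hΦ : IsPotential Φ) (hε : 0 < ε) {W : Set Src} (hW : W.Finite)
    (ha : a ∈ W) (h0 : 0 ≤ a.1) (hd : a.2.2 ≤ L) (hb : a.1 ≤ t)
    (h : ∀ r < t, a.1 ≤ r → stat Φ ε L W a r ≠ none) :
    ∃ T : CTree, T.root = a ∧ live Φ ε L W T t := by
  classical
  rcases hb.eq_or_lt with hb | hb
  · refine ⟨leaf a, rfl, ?_, h0, hd, hb.le, fun T' r hr hh => ?_⟩
    · rintro x hx
      rw [mem_singleton_iff.1 hx]
      exact ha
    · have h1 : a.1 ≤ r := hh.1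
      linarith
  · -- the last event before `t`
    have hfin := (allTimes_finite (Φ := Φ) (ε := ε) (L := L) hW)
    obtain ⟨r₀, hr₀, hr₀t, hev⟩ : ∃ r₀, a.1 ≤ r₀ ∧ r₀ < t ∧
        ∀ u ∈ allTimes Φ ε L W, ¬(r₀ < u ∧ u < t) := by
      have h1 : (allTimes Φ ε L W ∩ Iio t).Finite := hfin.inter_of_left _
      by_cases hne : (allTimes Φ ε L W ∩ Iio t).Nonempty
      · obtain ⟨u, hu, hmax⟩ := h1.exists_maximalFor id _ hne
        refine ⟨max a.1 u, le_max_left _ _, max_lt hb hu.2, fun v hv hvv => ?_⟩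
        have h2 : u < v := (le_max_right _ _).trans_lt hvv.1
        have h3 := hmax (j := v) ⟨hv, hvv.2⟩ h2.le
        exact absurd h3 (not_le.2 h2)
      · exact ⟨a.1, le_rfl, hb, fun v hv hvv => hne ⟨v, hv, hvv.2⟩⟩
    obtain ⟨T, hT⟩ := Option.ne_none_iff_exists'.1 (h r₀ hr₀t hr₀)
    have hl := (stat_eq_some_iff hΦ hε hW).1 hT
    refine ⟨T, hl.1, live_of_lives_before (hl.2.sig_le.trans_lt hr₀t) fun r hr hrt => ?_⟩
    rcases le_total r r₀ with h1 | h1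
    · exact hl.2.anti h1 hr
    · have h2 : stat Φ ε L W a r = some T := by
        rw [← hT]
        exact stat_const hΦ hε hW h1 fun u hu huu => hev u hu ⟨huu.1, huu.2.trans_lt hrt⟩
      exact ((stat_eq_some_iff hΦ hε hW).1 h2).2

section instance_

variable (hΦ : IsPotential Φ) (hε : 0 < ε)

/-- The contacts of a particle which is not bad with a particle not exposed before. -/
theorem Y_mcon_of_con (hW : ∀ a ∈ W, 0 ≤ a.1 ∧ a.2.2 ≤ L)
    (ha : ∀ r < t, ¬(Y Φ ε L hΦ hε).Exp W a r) (hb : ∀ r < t, ¬(Y Φ ε L hΦ hε).Exp W b r)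
    (h : (Y Φ ε L hΦ hε).con W t a b) : mcon Φ ε L (W : Set Src) t a b := by
  have hW0 : ∀ a ∈ W, 0 ≤ a.1 := fun a ha => (hW a ha).1
  rcases h with h | h
  · exact h
  · obtain ⟨h1, h2, h3, h4, h5, h6, h7⟩ := h
    have key : ∀ c ∈ W, c.1 ≤ t → (∀ r < t, ¬(Y Φ ε L hΦ hε).Exp W c r) →
        ∃ T : CTree, T.root = c ∧ live Φ ε L (W : Set Src) T t := by
      intro c hc hct he
      refine exists_live hΦ hε W.finite_toSet (Finset.mem_coe.2 hc) (hW c hc).1 (hW c hc).2 hct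
        fun r hr hcr hn => he r hr (exp_of_badi ⟨Finset.mem_coe.2 hc, (hW c hc).1.trans hcr, hcr,
          Or.inl hn⟩ le_rfl)
    obtain ⟨T, e1, e2⟩ := key a h2 h5 ha
    obtain ⟨T', e3, e4⟩ := key b h3 h6 hb
    have k1 := Y_real_st hΦ hε hW0 (T := T) (by rw [e1]; exact ha) e2
    have k2 := Y_real_st hΦ hε hW0 (T := T') (by rw [e3]; exact hb) e4
    rw [e1] at k1
    rw [e3] at k2
    rw [k1, k2] at h7
    exact ⟨h1, T, T', e1, e3, e2, e4, h7⟩

theorem Y_part_of_con (hW : ∀ a ∈ W, 0 ≤ a.1 ∧ a.2.2 ≤ L)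
    (ha : ∀ r < t, ¬(Y Φ ε L hΦ hε).Exp W a r) (hb : ∀ r < t, ¬(Y Φ ε L hΦ hε).Exp W b r)
    (h : (Y Φ ε L hΦ hε).con W t a b) (ba : ¬(Y Φ ε L hΦ hε).bad W a t) :
    part Φ ε L (W : Set Src) t a b := by
  have h1 := Y_mcon_of_con hΦ hε hW ha hb h
  by_contra hcon
  exact ba ⟨t, le_rfl, h1.mem.1, h1.nonneg hΦ hε, (h1.birth_le hΦ hε).1, Or.inr ⟨b, h1, hcon⟩⟩

/-- **The hypothesis of the tie lemma.** -/
theorem Y_Part (hW : ∀ a ∈ W₁, 0 ≤ a.1 ∧ a.2.2 ≤ L) :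
    FB.Sys.Part (Y Φ ε L hΦ hε) W₁ W₂ := by
  intro t a b ha hb hc ba₁ ba₂ haD
  have hp := Y_part_of_con hΦ hε hW ha hb hc ba₁
  by_contra hcon
  exact part_not_mem_D (hΦ := hΦ) (hε := hε) (hX := XR_isFam hΦ hε) ba₁ ba₂
    ((part_comm hΦ).1 hp) hcon haD

end instance_

end Vale.Agent.P119.RB
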