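import Vale.Agent.P119.RB.Birth3
import Vale.Agent.P119.MM.RandSet

/-!
# P119: real worlds with births, measurability for random worlds (`helper178`)

* `measurable_RB_fin`: joint measurability for a finite type of labels;
* `RS.measurable_RB`: for a random finite world `W x` enumerated by measurable functions, the state
  of a measurable particle at a measurable time is measurable.
-/

open MeasureTheory Filter Topology Set
open scoped ENNReal NNReal

noncomputable section

namespace Vale.Agent.P119.RB

open KU MM

section finite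

variable {κ : Type*} [Fintype κ] {Φ : E3 → ℝ} {ε : ℝ} {X : Type*} [MeasurableSpace X]

/-- **Joint measurability** for finitely many labels. -/
theorem measurable_RB_fin (hΦ : IsPotential Φ) (hε : 0 < ε) {β : X → κ → ℝ} {ℓ : X → κ → Ph}
    (hβ : Measurable β) (hℓ : Measurable ℓ) (W : Finset κ) {t : X → ℝ} (ht : Measurable t) :
    Measurable fun x => RB Φ ε (β x) (ℓ x) W (t x) := by
  refine measurable_of_tendsto_metrizable (f := fun (n : ℕ) x =>
    bw (trunc Φ n) ε (β x) (ℓ x) W.card W (t x)) (fun n => ?_) ?_
  · exact measurable_bw (sm_trunc hΦ (Nat.cast_nonneg n)) hβ hℓ _ W ht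
  · rw [tendsto_pi_nhds]
    intro x
    obtain ⟨k₀, hk₀, h⟩ := RB_spec hΦ hε (β x) (ℓ x) W
    refine tendsto_const_nhds.congr' ?_
    filter_upwards [eventually_ge_atTop ⌈k₀⌉₊] with n hn
    have hn' : k₀ ≤ (n : ℝ) := (Nat.le_ceil k₀).trans (by exact_mod_cast hn)
    have hS := sm_trunc hΦ (Nat.cast_nonneg (α := ℝ) n)
    have h1 := (h n hn').1.unique hS hε (isBW_bw (ε := ε) hS (β x) (ℓ x) W.card W le_rfl)
    rw [h1]

end finite

/-- Countably many pieces. -/
theorem measurable_pieces {X D E : Type*} [MeasurableSpace X] [MeasurableSpace E] [Countable D]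
    {A : D → Set X} (hA : ∀ d, MeasurableSet (A d)) (hc : ∀ x, ∃ d, x ∈ A d) {F : D → X → E}
    (hF : ∀ d, Measurable (F d)) {f : X → E} (hf : ∀ d, ∀ x ∈ A d, f x = F d x) :
    Measurable f := by
  intro s hs
  have : f ⁻¹' s = ⋃ d, (A d ∩ F d ⁻¹' s) := by
    ext x
    rw [mem_iUnion, mem_preimage]
    constructor
    · intro h
      obtain ⟨d, hd⟩ := hc x
      refine ⟨d, hd, ?_⟩
      rw [mem_preimage, ← hf d x hd]
      exact h
    · rintro ⟨d, hd, h⟩
      rw [hf d x hd]
      exact h
  rw [this]
  exact MeasurableSet.iUnion fun d => (hA d).inter (hF d hs)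

section random

variable {X α : Type*} [MeasurableSpace X] [MeasurableSpace α] {Φ : E3 → ℝ} {ε : ℝ}

/-- **Measurability for random worlds.** -/
theorem measurable_RB_of (hΦ : IsPotential Φ) (hε : 0 < ε)
    (heq : ∀ f g : X → α, Measurable f → Measurable g → MeasurableSet {x | f x = g x})
    {β : α → ℝ} (hβ : Measurable β) {ℓ : α → Ph} (hℓ : Measurable ℓ) {W : X → Finset α}
    (hW : RS fun x => (W x : Set α)) {f : X → α} (hf : Measurable f) {t : X → ℝ}
    (ht : Measurable t) : Measurable fun x => RB Φ ε β ℓ (W x) (t x) (f x) := by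
  classical
  obtain ⟨ι, hι, z, I, hz, hI, hWI⟩ := hW
  obtain ⟨e, he⟩ := hι.exists_injective_nat
  -- the first indices
  set P : ι → X → Prop := fun i x => x ∈ I i ∧ ∀ j, e j < e i → x ∈ I j → z j x ≠ z i x with hP
  have hPm : ∀ i, MeasurableSet {x | P i x} := by
    intro i
    have : {x | P i x} = I i ∩ ⋂ j, {x | e j < e i → x ∈ I j → z j x ≠ z i x} := by
      ext x
      simp only [hP, Set.mem_ofPred_eq, mem_inter_iff, mem_iInter]
    rw [this]
    refine (hI i).inter (MeasurableSet.iInter fun j => ?_)
    by_cases hj : e j < e i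
    · have : {x | e j < e i → x ∈ I j → z j x ≠ z i x} = (I j)ᶜ ∪ {x | z j x = z i x}ᶜ := by
        ext x
        simp only [Set.mem_ofPred_eq, hj, true_imp_iff, mem_union, mem_compl_iff]
        tauto
      rw [this]
      exact (hI j).compl.union (heq _ _ (hz j) (hz i)).compl
    · have : {x | e j < e i → x ∈ I j → z j x ≠ z i x} = univ := by
        ext x
        simp only [Set.mem_ofPred_eq, hj, false_imp_iff, mem_univ]
      rw [this]
      exact MeasurableSet.univ
  -- every element has a first index
  have hfirst : ∀ x, ∀ a ∈ W x, ∃ i, P i x ∧ z i x = a := by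
    intro x a ha
    obtain ⟨i, hi, hia⟩ := (hWI x a).1 (Finset.mem_coe.2 ha)
    have hex : ∃ n, ∃ i, e i = n ∧ x ∈ I i ∧ z i x = a := ⟨e i, i, rfl, hi, hia⟩
    obtain ⟨j, hj, hjI, hja⟩ := Nat.find_spec hex
    refine ⟨j, ⟨hjI, fun k hk hkI hkz => ?_⟩, hja⟩
    rw [hj] at hk
    exact Nat.find_min hex hk ⟨k, rfl, hkI, hkz.trans hja⟩
  have hinj : ∀ x i j, P i x → P j x → z i x = z j x → i = j := by
    intro x i j hi hj hij
    rcases lt_trichotomy (e i) (e j) with h | h | h
    · exact absurd hij (hj.2 i h hi.1)
    · exact he h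
    · exact absurd hij.symm (hi.2 j h hj.1)
  have hPW : ∀ i x, P i x → z i x ∈ W x := fun i x h =>
    Finset.mem_coe.1 ((hWI x _).2 ⟨i, h.1, rfl⟩)
  -- the pieces
  set A : Finset ι × Option ι → Set X := fun d => {x | (∀ i, i ∈ d.1 ↔ P i x) ∧
    (match d.2 with
      | none => ∀ i ∈ d.1, z i x ≠ f x
      | some i => i ∈ d.1 ∧ z i x = f x)} with hA
  have hcov : ∀ x, ∃ d, x ∈ A d := by
    intro x
    have hfin : {i | P i x}.Finite := by
      refine Set.Finite.of_finite_image (f := fun i => z i x) ((W x).finite_toSet.subset ?_) ?_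
      · rintro _ ⟨i, hi, rfl⟩
        exact Finset.mem_coe.2 (hPW i x hi)
      · intro i hi j hj hij
        exact hinj x i j hi hj hij
    by_cases h : ∃ i, P i x ∧ z i x = f x
    · obtain ⟨i, hi, hif⟩ := h
      refine ⟨(hfin.toFinset, some i), fun j => ?_, ?_, hif⟩
      · rw [Set.Finite.mem_toFinset]
        rfl
      · rw [Set.Finite.mem_toFinset]
        exact hi
    · refine ⟨(hfin.toFinset, none), fun j => ?_, fun i hi hif => h ⟨i, ?_, hif⟩⟩
      · rw [Set.Finite.mem_toFinset]
        rfl
      · rw [Set.Finite.mem_toFinset] at hi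
        exact hi
  have hAm : ∀ d, MeasurableSet (A d) := by
    rintro ⟨V, o⟩
    have h1 : MeasurableSet {x | ∀ i, i ∈ V ↔ P i x} := by
      have : {x | ∀ i, i ∈ V ↔ P i x} = ⋂ i, {x | P i x ↔ i ∈ V} := by
        ext x
        simp only [Set.mem_ofPred_eq, mem_iInter]
        exact forall_congr' fun i => Iff.comm
      rw [this]
      exact MeasurableSet.iInter fun i => measurableSet_iff_const (hPm i) _
    cases o with
    | none =>
      have h2 : MeasurableSet {x | ∀ i ∈ V, z i x ≠ f x} := by
        have : {x | ∀ i ∈ V, z i x ≠ f x} = ⋂ i ∈ V, {x | z i x = f x}ᶜ := by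
          ext x
          simp only [Set.mem_ofPred_eq, mem_iInter, mem_compl_iff, ne_eq]
        rw [this]
        exact Finset.measurableSet_biInter _ fun i _ => (heq _ _ (hz i) hf).compl
      exact h1.inter h2
    | some i =>
      have h2 : MeasurableSet {x | i ∈ V ∧ z i x = f x} := by
        by_cases hi : i ∈ V
        · simp only [hi, true_and]
          exact heq _ _ (hz i) hf
        · simp only [hi, false_and, Set.ofPred_false]
          exact MeasurableSet.empty
      exact h1.inter h2
  -- the function on the pieces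
  set F : Finset ι × Option ι → X → Ph := fun d x =>
    match d.2 with
      | none => free (t x) (ℓ (f x))
      | some i => if h : i ∈ d.1 then
          RB Φ ε (fun j : d.1 => β (z j x)) (fun j : d.1 => ℓ (z j x)) Finset.univ (t x) ⟨i, h⟩
        else free (t x) (ℓ (f x)) with hF
  have hfree : Measurable fun x => free (t x) (ℓ (f x)) :=
    measurable_free_comp ht (hℓ.comp hf)
  refine measurable_pieces hAm hcov (F := F) ?_ ?_
  · rintro ⟨V, o⟩
    cases o with
    | none => exact hfree
    | some i =>
      by_cases h : i ∈ V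
      · have e1 : F (V, some i) = fun x => RB Φ ε (fun j : V => β (z j x))
            (fun j : V => ℓ (z j x)) Finset.univ (t x) ⟨i, h⟩ := by
          funext x
          simp only [hF, dif_pos h]
        rw [e1]
        exact (measurable_pi_apply (⟨i, h⟩ : V)).comp (measurable_RB_fin (κ := V) hΦ hε
          (β := fun x j => β (z j x)) (ℓ := fun x j => ℓ (z j x))
          (measurable_pi_lambda _ fun j => hβ.comp (hz j))
          (measurable_pi_lambda _ fun j => hℓ.comp (hz j)) Finset.univ ht)
      · have e1 : F (V, some i) = fun x => free (t x) (ℓ (f x)) := by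
          funext x
          simp only [hF, dif_neg h]
        rw [e1]
        exact hfree
  · rintro ⟨V, o⟩ x ⟨hx1, hx2⟩
    cases o with
    | none =>
      have hn : f x ∉ W x := by
        intro h
        obtain ⟨i, hi, hif⟩ := hfirst x _ h
        exact hx2 i ((hx1 i).2 hi) hif
      exact (RB_isBW hΦ hε β ℓ (W x)).off _ hn _
    | some i =>
      obtain ⟨hi, hif⟩ := hx2
      have hi' : i ∈ V := hi
      have e1 : F (V, some i) x = RB Φ ε (fun j : V => β (z j x))
          (fun j : V => ℓ (z j x)) Finset.univ (t x) ⟨i, hi'⟩ := by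
        simp only [hF, dif_pos hi']
      have hin : Function.Injective fun j : V => z j x := by
        intro j k hjk
        exact Subtype.ext (hinj x _ _ ((hx1 j).1 j.2) ((hx1 k).1 k.2) hjk)
      have e2 : W x = (Finset.univ : Finset V).map ⟨fun j : V => z j x, hin⟩ := by
        ext a
        rw [Finset.mem_map]
        constructor
        · intro ha
          obtain ⟨j, hj, hja⟩ := hfirst x a ha
          exact ⟨⟨j, (hx1 j).2 hj⟩, Finset.mem_univ _, hja⟩
        · rintro ⟨j, -, rfl⟩
          exact hPW j x ((hx1 j).1 j.2)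
      have e3 := RB_map hΦ hε ⟨fun j : V => z j x, hin⟩ β ℓ (Finset.univ : Finset V) (t x)
        ⟨i, hi'⟩
      rw [← e2] at e3
      rw [e1, ← hif]
      exact e3

end random

end Vale.Agent.P119.RB
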