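import Vale.Agent.P119.RB.Status

/-!
# P119: contacts in the real world, the system of worlds (`helper909`)

* `rcon ε X W t a b`: the real paths `X W` of the born particles `a`, `b` of `W` are in contact;
* `con`: contact in the M-world or in the real world;
* `sys`: the system of worlds (in the sense of `FB.Sys`) for a family `X` of real worlds.
-/

open MeasureTheory Filter Topology Set

noncomputable section

namespace Vale.Agent.P119.RB

open M CTree KU FB

variable {Φ : E3 → ℝ} {ε : ℝ} {L : ℕ}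

/-- Contact of the real paths. -/
def rcon (ε : ℝ) (X : Finset Src → ℝ → Src → Ph) (W : Finset Src) (t : ℝ) (a b : Src) : Prop :=
  a ≠ b ∧ a ∈ W ∧ b ∈ W ∧ 0 ≤ t ∧ a.1 ≤ t ∧ b.1 ≤ t ∧ Ctc ε (X W t a) (X W t b)

/-- Contact, in the M-world or in the real world. -/
def con (Φ : E3 → ℝ) (ε : ℝ) (L : ℕ) (X : Finset Src → ℝ → Src → Ph) (W : Finset Src) (t : ℝ)
    (a b : Src) : Prop :=
  mcon Φ ε L (W : Set Src) t a b ∨ rcon ε X W t a b

/-- The positions have the velocities as right derivatives. -/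
def IsFam (X : Finset Src → ℝ → Src → Ph) : Prop :=
  ∀ W, ∀ a ∈ W, ∀ t, HasDerivWithinAt (fun r => (X W r a).1) (X W t a).2 (Ioi t) t

variable {X : Finset Src → ℝ → Src → Ph} {W W₁ W₂ : Finset Src} {a b : Src} {s t : ℝ}

theorem rcon.symm (h : rcon ε X W t a b) : rcon ε X W t b a := by
  obtain ⟨h1, h2, h3, h4, h5, h6, h7⟩ := h
  exact ⟨h1.symm, h3, h2, h4, h6, h5, h7.symm⟩

theorem con.symm (h : con Φ ε L X W t a b) : con Φ ε L X W t b a := h.imp (·.symm) (·.symm)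

theorem con_comm : con Φ ε L X W t a b ↔ con Φ ε L X W t b a := ⟨con.symm, con.symm⟩

theorem con.ne (h : con Φ ε L X W t a b) : a ≠ b := h.elim (·.1) (·.1)

theorem con.mem (h : con Φ ε L X W t a b) : a ∈ W ∧ b ∈ W := by
  rcases h with h | h
  · have := h.mem
    exact ⟨Finset.mem_coe.1 this.1, Finset.mem_coe.1 this.2⟩
  · exact ⟨h.2.1, h.2.2.1⟩

theorem con.birth_le (hΦ : IsPotential Φ) (hε : 0 < ε) (h : con Φ ε L X W t a b) :
    a.1 ≤ t ∧ b.1 ≤ t := by
  rcases h with h | h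
  · exact h.birth_le hΦ hε
  · exact ⟨h.2.2.2.2.1, h.2.2.2.2.2.1⟩

theorem con.nonneg (hΦ : IsPotential Φ) (hε : 0 < ε) (h : con Φ ε L X W t a b) : 0 ≤ t := by
  rcases h with h | h
  · exact h.nonneg hΦ hε
  · exact h.2.2.2.1

theorem rcon_closed (hε : 0 < ε) (hX : IsFam X) (W : Finset Src) (a b : Src) :
    DClosed {t | rcon ε X W t a b} := by
  by_cases h : a ≠ b ∧ a ∈ W ∧ b ∈ W
  swap
  · convert DClosed.empty
    ext t
    simp only [mem_ofPred_eq, mem_empty_iff_false, iff_false]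
    exact fun h' => h ⟨h'.1, h'.2.1, h'.2.2.1⟩
  obtain ⟨h1, h2, h3⟩ := h
  intro x hx
  by_contra hcon
  have hne : ∀ s, rcon ε X W s a b → x ≤ s → x < s := fun s hs hxs =>
    lt_of_le_of_ne hxs fun h => hcon (h ▸ hs)
  have hle : ∀ c : ℝ, (∀ s, rcon ε X W s a b → c ≤ s) → c ≤ x := by
    intro c hc
    by_contra hcx
    obtain ⟨s, hs, -, hs2⟩ := hx (c - x) (by linarith [not_le.1 hcx])
    linarith [hc s hs]
  have h4 : 0 ≤ x := hle 0 fun s hs => hs.2.2.2.1
  have h5 : a.1 ≤ x := hle a.1 fun s hs => hs.2.2.2.2.1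
  have h6 : b.1 ≤ x := hle b.1 fun s hs => hs.2.2.2.2.2.1
  refine hcon ⟨h1, h2, h3, h4, h5, h6, ?_⟩
  refine ctc_of_frequently hε.le (X := fun r => X W r a) (Y := fun r => X W r b)
    (hX W a h2 x) (hX W b h3 x) ?_
  rw [frequently_iff]
  intro U hU
  obtain ⟨u, hu, hu'⟩ := mem_nhdsGT_iff_exists_Ioo_subset.1 hU
  have hu : x < u := hu
  obtain ⟨r, hr, hr1, hr2⟩ := hx (u - x) (by linarith)
  exact ⟨r, hu' ⟨hne r hr hr1, by linarith⟩, hr.2.2.2.2.2.2⟩

theorem con_closed (hΦ : IsPotential Φ) (hε : 0 < ε) (hX : IsFam X) (W : Finset Src)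
    (a b : Src) : DClosed {t | con Φ ε L X W t a b} :=
  (mcon_closed hΦ hε W.finite_toSet a b).union (rcon_closed hε hX W a b)

/-- The system of worlds. -/
def sys (Φ : E3 → ℝ) (ε : ℝ) (L : ℕ) (X : Finset Src → ℝ → Src → Ph) (hΦ : IsPotential Φ)
    (hε : 0 < ε) (hX : IsFam X) : FB.Sys Src (Prop × Option CTree × Prop) where
  st W a t := sta Φ ε L (W : Set Src) a t
  con W t a b := con Φ ε L X W t a b
  bad W a t := badc Φ ε L (W : Set Src) a t
  con_mem h := h.mem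
  bad_mem h := Finset.mem_coe.1 h.mem
  con_nonneg h := h.nonneg hΦ hε
  bad_nonneg h := h.nonneg
  con_closed W a b := con_closed hΦ hε hX W a b
  bad_closed W a := badc_closed hΦ hε W.finite_toSet a
  st_closed W₁ W₂ a := sta_closed hΦ hε W₁.finite_toSet W₂.finite_toSet a

section sys

variable {hΦ : IsPotential Φ} {hε : 0 < ε} {hX : IsFam X}

theorem sys_con : (sys Φ ε L X hΦ hε hX).con W t a b ↔ con Φ ε L X W t a b := Iff.rfl

theorem sys_bad : (sys Φ ε L X hΦ hε hX).bad W a t ↔ badc Φ ε L (W : Set Src) a t := Iff.rfl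

theorem sys_st : (sys Φ ε L X hΦ hε hX).st W a t = sta Φ ε L (W : Set Src) a t := rfl

/-- Exposed particles are born. -/
theorem exp_birth_le (h : (sys Φ ε L X hΦ hε hX).Exp W a t) : a.1 ≤ t := by
  cases h with
  | bad h1 h2 => exact (badc.birth_le h2).trans h1
  | con h1 _ h3 => exact (con.birth_le hΦ hε h3).1.trans h1

theorem exp_of_badi (h : badi Φ ε L (W : Set Src) a s) (hst : s ≤ t) :
    (sys Φ ε L X hΦ hε hX).Exp W a t :=
  .bad hst ⟨s, le_rfl, h⟩

theorem exp_of_con (h : (sys Φ ε L X hΦ hε hX).Exp W b t) (hc : con Φ ε L X W t a b) :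
    (sys Φ ε L X hΦ hε hX).Exp W a t := .con le_rfl h hc

/-- Unexposed particles are alive. -/
theorem stat_of_not_exp (h : ¬(sys Φ ε L X hΦ hε hX).Exp W a t) (ha : a ∈ W) (h0 : 0 ≤ t)
    (hb : a.1 ≤ t) : ∃ T, stat Φ ε L (W : Set Src) a t = some T := by
  rw [← Option.ne_none_iff_exists']
  intro hn
  exact h (exp_of_badi ⟨Finset.mem_coe.2 ha, h0, hb, Or.inl hn⟩ le_rfl)

/-- The only M-contact of an unexposed particle is its partner. -/
theorem part_of_not_exp (h : ¬(sys Φ ε L X hΦ hε hX).Exp W a t)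
    (hc : mcon Φ ε L (W : Set Src) t a b) : part Φ ε L (W : Set Src) t a b := by
  by_contra hcon
  exact h (exp_of_badi ⟨hc.mem.1, hc.nonneg hΦ hε, (hc.birth_le hΦ hε).1, Or.inr ⟨b, hc, hcon⟩⟩
    le_rfl)

/-- The first time of exposure (`t₀` if there is none before). -/
theorem exists_time (W : Finset Src) (t₀ : ℝ) : ∃ τ : Src → ℝ, ∀ a s, s ≤ t₀ →
    (s < τ a ↔ ¬(sys Φ ε L X hΦ hε hX).Exp W a s) := by
  have h : ∀ a, ∃ τ : ℝ, ∀ s, s ≤ t₀ → (s < τ ↔ ¬(sys Φ ε L X hΦ hε hX).Exp W a s) := by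
    intro a
    by_cases h : (sys Φ ε L X hΦ hε hX).Exp W a t₀
    · obtain ⟨σ, h1, h2, h3⟩ := (FB.Sys.exp_closed (Y := sys Φ ε L X hΦ hε hX) W a).first
        (m := 0) (fun s hs => FB.Sys.Exp.nonneg hs) h
      refine ⟨σ, fun s _ => ⟨fun hs => h3 s hs, fun hs => ?_⟩⟩
      by_contra hcon
      exact hs (FB.Sys.Exp.mono h2 (not_lt.1 hcon))
    · refine ⟨t₀ + 1, fun s hs => ⟨fun _ h' => h (FB.Sys.Exp.mono h' hs), fun _ => by linarith⟩⟩
  choose τ hτ using h
  exact ⟨τ, hτ⟩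

end sys

end Vale.Agent.P119.RB
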