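import Vale.Agent.P119.RB.Birth4
import Vale.Agent.P119.RB.Birth5
import Vale.Agent.P119.RB.Sys

/-!
# P119: the real worlds of sources (`helper178`)

* `XR Φ ε W t a`: the real path of the source `a` in the world `W : Finset Src`;
* `XR_isFam`, `XR_isBW`, `XR_spec`, `XR_cone`, `XR_born`, `measurable_XR`;
* `XR_world`: in ordinary worlds it is the real path `R` of `helper909`.
-/

open MeasureTheory Filter Topology Set
open scoped ENNReal NNReal

noncomputable section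

namespace Vale.Agent.P119.RB

open KU MM M

/-- The birth time. -/
def sb (a : Src) : ℝ := a.1

/-- The line. -/
def sl (a : Src) : Ph := a.2.1

/-- **The real path** of the source `a` in the world `W`. -/
def XR (Φ : E3 → ℝ) (ε : ℝ) (W : Finset Src) (t : ℝ) (a : Src) : Ph := RB Φ ε sb sl W t a

variable {Φ : E3 → ℝ} {ε : ℝ} {W W₁ W₂ : Finset Src}

theorem XR_isBW (hΦ : IsPotential Φ) (hε : 0 < ε) (W : Finset Src) :
    IsBW Φ ε sb sl W (XR Φ ε W) := RB_isBW hΦ hε sb sl W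

theorem XR_spec (hΦ : IsPotential Φ) (hε : 0 < ε) (W : Finset Src) :
    ∃ k₀ : ℝ, 0 ≤ k₀ ∧ ∀ k, k₀ ≤ k → IsBW (trunc Φ k) ε sb sl W (XR Φ ε W) ∧
      ∀ t, ∀ a ∈ W, ∀ a' ∈ nbr ε sb W (XR Φ ε W) t a,
        trunc Φ k =ᶠ[𝓝 (ε⁻¹ • ((XR Φ ε W t a).1 - (XR Φ ε W t a').1))] Φ :=
  RB_spec hΦ hε sb sl W

theorem XR_isFam (hΦ : IsPotential Φ) (hε : 0 < ε) : IsFam (XR Φ ε) := fun W a _ t =>
  ((XR_isBW hΦ hε W).hasDeriv_pos' a t).mono Ioi_subset_Ici_self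

theorem XR_before (hΦ : IsPotential Φ) (hε : 0 < ε) {a : Src} {t : ℝ} (h : t ≤ a.1) :
    XR Φ ε W t a = free t a.2.1 := (XR_isBW hΦ hε W).pre a t h

theorem XR_off (hΦ : IsPotential Φ) (hε : 0 < ε) {a : Src} (h : a ∉ W) (t : ℝ) :
    XR Φ ε W t a = free t a.2.1 := (XR_isBW hΦ hε W).off a h t

theorem XR_continuous (hΦ : IsPotential Φ) (hε : 0 < ε) (W : Finset Src) (a : Src) :
    Continuous fun t => XR Φ ε W t a := (XR_isBW hΦ hε W).cont a

theorem XR_cone (hΦ : IsPotential Φ) (hε : 0 < ε) {I : Finset Src} (h₁ : I ⊆ W₁) (h₂ : I ⊆ W₂)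
    {τ : Src → ℝ} {T : ℝ}
    (H₁ : ∀ s < T, ∀ a ∈ I, a.1 ≤ s → s < τ a → ∀ a' ∈ W₁, a'.1 ≤ s → a' ≠ a →
      (a' ∈ I → τ a' ≤ s) → ε ≤ ‖(XR Φ ε W₁ s a).1 - (XR Φ ε W₁ s a').1‖)
    (H₂ : ∀ s < T, ∀ a ∈ I, a.1 ≤ s → s < τ a → ∀ a' ∈ W₂, a'.1 ≤ s → a' ≠ a →
      (a' ∈ I → τ a' ≤ s) → ε ≤ ‖(XR Φ ε W₂ s a).1 - (XR Φ ε W₂ s a').1‖) :
    ∀ a ∈ I, ∀ s ≤ T, s ≤ τ a → XR Φ ε W₁ s a = XR Φ ε W₂ s a :=
  RB_cone hΦ hε h₁ h₂ H₁ H₂

theorem XR_born (hΦ : IsPotential Φ) (hε : 0 < ε) {T : ℝ}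
    (h : ∀ a : Src, a.1 < T → (a ∈ W₁ ↔ a ∈ W₂)) {t : ℝ} (ht : t ≤ T) (a : Src) :
    XR Φ ε W₁ t a = XR Φ ε W₂ t a := RB_born hΦ hε h ht a

/-- **Measurability** in random worlds. -/
theorem measurable_XR {X : Type*} [MeasurableSpace X] (hΦ : IsPotential Φ) (hε : 0 < ε)
    {W : X → Finset Src} (hW : RS fun x => (W x : Set Src)) {f : X → Src} (hf : Measurable f)
    {t : X → ℝ} (ht : Measurable t) : Measurable fun x => XR Φ ε (W x) (t x) (f x) :=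
  measurable_RB_of hΦ hε (fun _ _ hf hg => measurableSet_eq_fun hf hg)
    (β := sb) measurable_fst (ℓ := sl) (measurable_fst.comp measurable_snd) hW hf ht

theorem src_injective : Function.Injective src := by
  intro z z' h
  have := congrArg (fun σ : Src => σ.2.1) h
  exact this

/-- The source of an ordinary particle, as an embedding. -/
def srcEmb : Ph ↪ Src := ⟨src, src_injective⟩

/-- The ordinary world as a finite set. -/
def fworld (w : Finset Ph) : Finset Src := w.map srcEmb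

theorem coe_fworld (w : Finset Ph) : ((fworld w : Finset Src) : Set Src) = world (w : Set Ph) := by
  unfold fworld world
  rw [Finset.coe_map]
  rfl

/-- **Ordinary worlds**: the path is the real path `R`. -/
theorem XR_world (hΦ : IsPotential Φ) (hε : 0 < ε) {w : Finset Ph} (hw : RW.Excl ε w) {t : ℝ}
    (ht : 0 ≤ t) {z : Ph} (hz : z ∈ w) : XR Φ ε (fworld w) t (src z) = RW.R Φ ε w t z := by
  have h1 := RB_map hΦ hε srcEmb sb sl w t z
  have h2 := RB_eq_R hΦ hε hw ht hz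
  exact h1.trans h2

end Vale.Agent.P119.RB
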