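import Vale.Agent.P119.KU.Scat2
import Vale.Agent.P119.Real.World

/-!
# P119: real worlds with births, smooth forces (`helper178`)

* `frc`: the force exerted by a finite set of particles;
* `stop_eq`: comparison of two families of paths that are followed until stopping times (after
  `stopped_eq` of `helper909`);
* `IsBW`: the real world with births.  The particle `a` is born at the time `β a` on the line
  `ℓ a`; the force between `a` and `a'` acts from `max (β a) (β a')` on if the distance is `≥ ε`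
  at that time, and otherwise never;
* `IsBW.cone`: locality; `IsBW.unique`: uniqueness.
-/

open MeasureTheory Filter Topology Set
open scoped ENNReal NNReal

noncomputable section

namespace Vale.Agent.P119.RB

open KU

variable {α : Type*}

/-- The force exerted on `a` by the particles of `S`. -/
def frc (Ψ : E3 → ℝ) (ε : ℝ) (S : Finset α) (x : α → Ph) (a : α) : E3 :=
  -(ε⁻¹ • ∑ a' ∈ S, gradient Ψ (ε⁻¹ • ((x a).1 - (x a').1)))

theorem frc_congr {Ψ : E3 → ℝ} {ε : ℝ} {S : Finset α} {x y : α → Ph} {a : α} (ha : x a = y a)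
    (h : ∀ a' ∈ S, x a' = y a') : frc Ψ ε S x a = frc Ψ ε S y a := by
  unfold frc
  congr 2
  exact Finset.sum_congr rfl fun a' ha' => by rw [ha, h a' ha']

/-- Particles at distance `≥ ε` may be left out. -/
theorem frc_subset {Ψ : E3 → ℝ} (hΨ : Sm Ψ) {ε : ℝ} (hε : 0 < ε) {S S' : Finset α} (h : S' ⊆ S)
    {x : α → Ph} {a : α}
    (hf : ∀ a' ∈ S, a' ∉ S' → a' ≠ a → ε ≤ ‖(x a).1 - (x a').1‖) :
    frc Ψ ε S x a = frc Ψ ε S' x a := by
  classical
  unfold frc
  congr 2
  symm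
  refine Finset.sum_subset h fun a' ha' hn => ?_
  by_cases hne : a' = a
  · rw [hne, sub_self, smul_zero, RW.gradient_zero hΨ.radial]
  · refine hΨ.gradient_eq_zero ?_
    rw [norm_smul, norm_inv, Real.norm_eq_abs, abs_of_pos hε, inv_mul_eq_div, le_div_iff₀ hε,
      one_mul]
    exact hf a' ha' hn hne

theorem frc_empty (Ψ : E3 → ℝ) (ε : ℝ) (x : α → Ph) (a : α) : frc Ψ ε ∅ x a = 0 := by
  unfold frc
  rw [Finset.sum_empty, smul_zero, neg_zero]

theorem frc_diff {Ψ : E3 → ℝ} {K : ℝ≥0} (hK : LipschitzWith K (gradient Ψ)) (ε : ℝ) {S : Finset α}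
    {x y : α → Ph} {a : α} {D : ℝ} {n : ℕ} (hn : S.card ≤ n) (hD : 0 ≤ D)
    (ha : ‖(x a).1 - (y a).1‖ ≤ D) (h : ∀ a' ∈ S, ‖(x a').1 - (y a').1‖ ≤ D) :
    ‖frc Ψ ε S x a - frc Ψ ε S y a‖ ≤ |ε⁻¹| * (n * (K * (|ε⁻¹| * (2 * D)))) := by
  unfold frc
  rw [neg_sub_neg, ← smul_sub, norm_smul, Real.norm_eq_abs, ← Finset.sum_sub_distrib]
  refine mul_le_mul_of_nonneg_left ?_ (abs_nonneg _)
  have h1 : ∀ a' ∈ S,
      ‖gradient Ψ (ε⁻¹ • ((y a).1 - (y a').1)) - gradient Ψ (ε⁻¹ • ((x a).1 - (x a').1))‖ ≤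
        K * (|ε⁻¹| * (2 * D)) := by
    intro a' ha'
    have h2 := hK.dist_le_mul (ε⁻¹ • ((y a).1 - (y a').1)) (ε⁻¹ • ((x a).1 - (x a').1))
    rw [dist_eq_norm, dist_eq_norm, ← smul_sub, norm_smul, Real.norm_eq_abs] at h2
    refine h2.trans (mul_le_mul_of_nonneg_left (mul_le_mul_of_nonneg_left ?_ (abs_nonneg _)) K.2)
    have h3 : (y a).1 - (y a').1 - ((x a).1 - (x a').1) =
        -((x a).1 - (y a).1) + ((x a').1 - (y a').1) := by abel
    rw [h3]
    refine (norm_add_le _ _).trans ?_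
    rw [norm_neg]
    linarith [h a' ha']
  refine (norm_sum_le_of_le _ h1).trans ?_
  rw [Finset.sum_const, nsmul_eq_mul]
  have h4 : (S.card : ℝ) ≤ n := by exact_mod_cast hn
  exact mul_le_mul_of_nonneg_right h4 (by positivity)

/-- **Stopped comparison.**  In both families the followed particle `a` feels the followed
particles `S s a`. -/
theorem stop_eq {Ψ : E3 → ℝ} {K : ℝ≥0} (hK : LipschitzWith K (gradient Ψ)) {ε : ℝ}
    {I : Finset α} {t₀ T : ℝ} {τ : α → ℝ} {x y : ℝ → α → Ph} {S : ℝ → α → Finset α}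
    (hS : ∀ s ∈ Ico t₀ T, ∀ a ∈ I, s < τ a → ∀ a' ∈ S s a, a' ∈ I ∧ s < τ a')
    (cx : ∀ a ∈ I, ContinuousOn (fun s => x s a) (Icc t₀ T))
    (cy : ∀ a ∈ I, ContinuousOn (fun s => y s a) (Icc t₀ T))
    (dx : ∀ a ∈ I, ∀ s ∈ Ico t₀ T, s < τ a →
      HasDerivWithinAt (fun s => x s a) ((x s a).2, frc Ψ ε (S s a) (x s) a) (Ici s) s)
    (dy : ∀ a ∈ I, ∀ s ∈ Ico t₀ T, s < τ a →
      HasDerivWithinAt (fun s => y s a) ((y s a).2, frc Ψ ε (S s a) (y s) a) (Ici s) s)
    (h0 : ∀ a ∈ I, x t₀ a = y t₀ a) :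
    ∀ a ∈ I, ∀ s ∈ Icc t₀ T, s ≤ τ a → x s a = y s a := by
  classical
  set st : ℝ → α → ℝ := fun s a => min s (max t₀ (τ a)) with hst
  have st0 : ∀ a, st t₀ a = t₀ := fun a => by
    simp only [hst]; exact min_eq_left (le_max_left _ _)
  have stI : ∀ s ∈ Icc t₀ T, ∀ a, st s a ∈ Icc t₀ T := by
    intro s hs a
    exact ⟨le_min hs.1 (le_max_left _ _), (min_le_left _ _).trans hs.2⟩
  have stc : ∀ a, Continuous fun s => st s a := fun a => by simp only [hst]; fun_prop
  have stlt : ∀ s a, s ≤ τ a → st s a = s := fun s a h => min_eq_left (h.trans (le_max_right _ _))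
  set U : ℝ → (I → Ph) := fun s a => x (st s a) a - y (st s a) a with hU
  set U' : ℝ → (I → Ph) := fun s a => if s < τ a then
    ((x s a).2 - (y s a).2, frc Ψ ε (S s a) (x s) a - frc Ψ ε (S s a) (y s) a) else 0 with hU'
  have hUc : ContinuousOn U (Icc t₀ T) := by
    rw [continuousOn_pi]
    intro a
    have hm : MapsTo (fun s => st s a) (Icc t₀ T) (Icc t₀ T) := fun s hs => stI s hs a
    exact (((cx a a.2).comp (stc a).continuousOn hm).sub
      ((cy a a.2).comp (stc a).continuousOn hm))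
  have hUd : ∀ s ∈ Ico t₀ T, HasDerivWithinAt U (U' s) (Ici s) s := by
    intro s hs
    rw [hasDerivWithinAt_pi]
    intro a
    by_cases ha : s < τ a
    · have h1 : HasDerivWithinAt (fun s => x s a - y s a)
          (((x s a).2, frc Ψ ε (S s a) (x s) a) - ((y s a).2, frc Ψ ε (S s a) (y s) a))
          (Ici s) s := (dx a a.2 s hs ha).sub (dy a a.2 s hs ha)
      simp only [hU', ha, if_true]
      refine h1.congr_of_eventuallyEq ?_ ?_
      · have h2 : ∀ᶠ r in 𝓝[Ici s] s, r < τ a := nhdsWithin_le_nhds (Iio_mem_nhds ha)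
        filter_upwards [h2] with r hr
        simp only [hU, stlt r a hr.le]
      · simp only [hU, stlt s a ha.le]
    · simp only [hU', ha, if_false]
      have h4 : ∀ r ∈ Ici s, st r a = max t₀ (τ a) := by
        intro r hr
        refine min_eq_right (max_le ?_ ?_)
        · exact hs.1.trans hr
        · exact (not_lt.1 ha).trans hr
      refine (hasDerivWithinAt_const s (Ici s)
        (x (max t₀ (τ a)) a - y (max t₀ (τ a)) a : Ph)).congr ?_ ?_
      · intro r hr
        simp only [hU, h4 r hr]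
      · simp only [hU, h4 s self_mem_Ici]
  set C : ℝ := 1 + |ε⁻¹| * (I.card * (K * (|ε⁻¹| * 2))) with hC
  have hC0 : 0 ≤ |ε⁻¹| * (I.card * (K * (|ε⁻¹| * 2))) := by positivity
  have hb : ∀ s ∈ Ico t₀ T, ‖U' s‖ ≤ C * ‖U s‖ + 0 := by
    intro s hs
    rw [add_zero, pi_norm_le_iff_of_nonneg (by positivity)]
    intro a
    by_cases ha : s < τ a
    · simp only [hU', ha, if_true]
      have hxs : ∀ a' : I, s < τ a' → ‖(x s a').1 - (y s a').1‖ ≤ ‖U s‖ ∧
          ‖(x s a').2 - (y s a').2‖ ≤ ‖U s‖ := by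
        intro a' ha'
        have h4 := norm_le_pi_norm (U s) a'
        simp only [hU, stlt s a' ha'.le] at h4
        exact ⟨(norm_fst_le _).trans h4, (norm_snd_le _).trans h4⟩
      rw [Prod.norm_def]
      refine max_le ?_ ?_
      · refine (hxs a ha).2.trans ?_
        nlinarith [norm_nonneg (U s)]
      · have hsub : S s a ⊆ I := fun a' ha' => (hS s hs a a.2 ha a' ha').1
        refine (frc_diff hK ε (Finset.card_le_card hsub) (norm_nonneg (U s)) (hxs a ha).1
          (fun a' ha' => ?_)).trans ?_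
        · obtain ⟨h5, h6⟩ := hS s hs a a.2 ha a' ha'
          exact (hxs ⟨a', h5⟩ h6).1
        · have : |ε⁻¹| * (I.card * (K * (|ε⁻¹| * (2 * ‖U s‖)))) =
            |ε⁻¹| * (I.card * (K * (|ε⁻¹| * 2))) * ‖U s‖ := by ring
          rw [this]
          nlinarith [norm_nonneg (U s)]
    · simp only [hU', ha, if_false, norm_zero]
      positivity
  have hU0 : ‖U t₀‖ ≤ 0 := by
    rw [pi_norm_le_iff_of_nonneg le_rfl]
    intro a
    simp only [hU, st0, h0 a a.2, sub_self, norm_zero, le_refl]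
  have key := norm_le_gronwallBound_of_norm_deriv_right_le hUc hUd hU0 hb
  intro a ha s hs hsa
  have h5 := key s hs
  rw [gronwallBound_ε0_δ0] at h5
  have h6 := (norm_le_pi_norm (U s) ⟨a, ha⟩).trans h5
  simp only [hU, stlt s a hsa] at h6
  exact sub_eq_zero.1 (norm_le_zero_iff.1 h6)

/-! ### Worlds with births -/

/-- At the time of the later birth the pair is at distance `≥ ε`. -/
def On (ε : ℝ) (β : α → ℝ) (x : ℝ → α → Ph) (a a' : α) : Prop :=
  ε ≤ ‖(x (max (β a) (β a')) a).1 - (x (max (β a) (β a')) a').1‖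

theorem on_comm {ε : ℝ} {β : α → ℝ} {x : ℝ → α → Ph} {a a' : α} :
    On ε β x a a' ↔ On ε β x a' a := by
  unfold On
  rw [max_comm (β a), norm_sub_rev]

open Classical in
/-- The particles which act on `a` at the time `t`. -/
def nbr (ε : ℝ) (β : α → ℝ) (W : Finset α) (x : ℝ → α → Ph) (t : ℝ) (a : α) : Finset α :=
  W.filter fun a' => max (β a) (β a') ≤ t ∧ On ε β x a a'

theorem mem_nbr {ε : ℝ} {β : α → ℝ} {W : Finset α} {x : ℝ → α → Ph} {t : ℝ} {a a' : α} :
    a' ∈ nbr ε β W x t a ↔ a' ∈ W ∧ max (β a) (β a') ≤ t ∧ On ε β x a a' := by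
  classical
  unfold nbr
  rw [Finset.mem_filter]

/-- **The real world with births** (smooth force): `a` is born at the time `β a` on the line `ℓ a`
(extrapolated to the time `0`). -/
structure IsBW (Ψ : E3 → ℝ) (ε : ℝ) (β : α → ℝ) (ℓ : α → Ph) (W : Finset α)
    (x : ℝ → α → Ph) : Prop where
  off : ∀ a ∉ W, ∀ t, x t a = free t (ℓ a)
  pre : ∀ a t, t ≤ β a → x t a = free t (ℓ a)
  cont : ∀ a, Continuous fun t => x t a
  deriv : ∀ a ∈ W, ∀ t, β a ≤ t → HasDerivWithinAt (fun s => x s a)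
    ((x t a).2, frc Ψ ε (nbr ε β W x t a) (x t) a) (Ici t) t

variable {Ψ : E3 → ℝ} {ε : ℝ} {β : α → ℝ} {ℓ : α → Ph} {W : Finset α} {x : ℝ → α → Ph}

theorem nbr_empty_of_lt {t : ℝ} {a : α} (h : t < β a) : nbr ε β W x t a = ∅ := by
  ext a'
  simp only [mem_nbr, Finset.notMem_empty, iff_false]
  rintro ⟨-, h1, -⟩
  exact absurd ((le_max_left _ _).trans h1) (not_le.2 h)

theorem hasDerivWithinAt_free (p : Ph) (t : ℝ) (s : Set ℝ) :
    HasDerivWithinAt (fun s => free s p) (p.2, (0 : E3)) s t :=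
  (hasDerivAt_free p t).hasDerivWithinAt

/-- The equation holds at all times. -/
theorem IsBW.deriv' (h : IsBW Ψ ε β ℓ W x) {a : α} (ha : a ∈ W) (t : ℝ) :
    HasDerivWithinAt (fun s => x s a)
      ((x t a).2, frc Ψ ε (nbr ε β W x t a) (x t) a) (Ici t) t := by
  by_cases ht : β a ≤ t
  · exact h.deriv a ha t ht
  · rw [not_le] at ht
    rw [nbr_empty_of_lt ht, frc_empty, h.pre a t ht.le]
    refine (hasDerivWithinAt_free (ℓ a) t (Ici t)).congr_of_eventuallyEq ?_ (h.pre a t ht.le)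
    have h2 : ∀ᶠ r in 𝓝[Ici t] t, r < β a := nhdsWithin_le_nhds (Iio_mem_nhds ht)
    filter_upwards [h2] with r hr using h.pre a r hr.le

/-- Only the sources born before `T` matter before `T`. -/
theorem On.congr {x y : ℝ → α → Ph} {a a' : α}
    (h : x (max (β a) (β a')) a = y (max (β a) (β a')) a)
    (h' : x (max (β a) (β a')) a' = y (max (β a) (β a')) a') :
    On ε β x a a' ↔ On ε β y a a' := by
  unfold On
  rw [h, h']

/-- **Locality** (cone lemma with births).  The particle `a ∈ I` is followed until `τ a`; as long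
as the followed particles of `I` are at distance `≥ ε` from all the other born particles of both
worlds, they have the same paths in both worlds. -/
theorem IsBW.cone (hΨ : Sm Ψ) (hε : 0 < ε) {W₁ W₂ I : Finset α} {x y : ℝ → α → Ph}
    (hx : IsBW Ψ ε β ℓ W₁ x) (hy : IsBW Ψ ε β ℓ W₂ y) (h₁ : I ⊆ W₁) (h₂ : I ⊆ W₂)
    {τ : α → ℝ} {T : ℝ}
    (H₁ : ∀ s < T, ∀ a ∈ I, β a ≤ s → s < τ a → ∀ a' ∈ W₁, β a' ≤ s → a' ≠ a →
      (a' ∈ I → τ a' ≤ s) → ε ≤ ‖(x s a).1 - (x s a').1‖)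
    (H₂ : ∀ s < T, ∀ a ∈ I, β a ≤ s → s < τ a → ∀ a' ∈ W₂, β a' ≤ s → a' ≠ a →
      (a' ∈ I → τ a' ≤ s) → ε ≤ ‖(y s a).1 - (y s a').1‖) :
    ∀ a ∈ I, ∀ s ≤ T, s ≤ τ a → x s a = y s a := by
  classical
  obtain ⟨K, M, hK, hM⟩ := gradient_lipschitz_bounded hΨ.smooth hΨ.vanishing
  set m : α × α → ℝ := fun p => max (β p.1) (β p.2) with hm
  set P : Finset (α × α) := (I ×ˢ I).filter fun p => m p < T ∧ m p < τ p.1 ∧ m p < τ p.2 ∧
    ¬(On ε β x p.1 p.2 ↔ On ε β y p.1 p.2) with hP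
  have key : ∀ N ≤ T, (∀ p ∈ P, N ≤ m p) → ∀ a ∈ I, ∀ s ≤ N, s ≤ τ a → x s a = y s a := by
    intro N hN hPN a ha s hs hsa
    obtain ⟨c, hc⟩ := (I.image β).bddBelow
    have hc' : ∀ a ∈ I, c ≤ β a := fun a ha =>
      hc (Finset.mem_coe.2 (Finset.mem_image_of_mem β ha))
    set S : ℝ → α → Finset α := fun s a =>
      (nbr ε β W₁ x s a).filter fun a' => a' ∈ I ∧ s < τ a' with hS
    have hS' : ∀ s < N, ∀ a ∈ I, s < τ a → S s a =
        (nbr ε β W₂ y s a).filter fun a' => a' ∈ I ∧ s < τ a' := by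
      intro s hs a ha hsa
      ext a'
      simp only [hS, Finset.mem_filter, mem_nbr]
      constructor
      · rintro ⟨⟨h3, h4, h5⟩, h6, h7⟩
        refine ⟨⟨h₂ h6, h4, ?_⟩, h6, h7⟩
        by_contra hcon
        have h8 : (a, a') ∈ P := by
          rw [hP, Finset.mem_filter]
          exact ⟨Finset.mk_mem_product ha h6, lt_of_le_of_lt h4 (hs.trans_le hN),
            lt_of_le_of_lt h4 hsa, lt_of_le_of_lt h4 h7, fun h => hcon (h.1 h5)⟩
        exact absurd (hPN _ h8) (not_le.2 (lt_of_le_of_lt h4 hs))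
      · rintro ⟨⟨h3, h4, h5⟩, h6, h7⟩
        refine ⟨⟨h₁ h6, h4, ?_⟩, h6, h7⟩
        by_contra hcon
        have h8 : (a, a') ∈ P := by
          rw [hP, Finset.mem_filter]
          exact ⟨Finset.mk_mem_product ha h6, lt_of_le_of_lt h4 (hs.trans_le hN),
            lt_of_le_of_lt h4 hsa, lt_of_le_of_lt h4 h7, fun h => hcon (h.2 h5)⟩
        exact absurd (hPN _ h8) (not_le.2 (lt_of_le_of_lt h4 hs))
    set t₀ := min c s with ht₀
    refine stop_eq hK (ε := ε) (I := I) (t₀ := t₀) (T := N) (τ := τ) (S := S) ?_ ?_ ?_ ?_ ?_ ?_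
      a ha s ⟨min_le_right _ _, hs⟩ hsa
    · intro s _ a _ _ a' ha'
      exact (Finset.mem_filter.1 ha').2
    · exact fun a _ => (hx.cont a).continuousOn
    · exact fun a _ => (hy.cont a).continuousOn
    · intro a ha s hs hsa
      have h3 := hx.deriv' (h₁ ha) s
      rwa [frc_subset hΨ hε (Finset.filter_subset (fun a' => a' ∈ I ∧ s < τ a') _)] at h3
      intro a' ha' hn hne
      rw [mem_nbr] at ha'
      refine H₁ s (hs.2.trans_le hN) a ha ((le_max_left _ _).trans ha'.2.1) hsa a' ha'.1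
        ((le_max_right _ _).trans ha'.2.1) hne fun h4 => ?_
      by_contra hcon
      exact hn (Finset.mem_filter.2 ⟨mem_nbr.2 ha', h4, not_le.1 hcon⟩)
    · intro a ha s hs hsa
      have h3 := hy.deriv' (h₂ ha) s
      rw [hS' s hs.2 a ha hsa]
      rwa [frc_subset hΨ hε (Finset.filter_subset (fun a' => a' ∈ I ∧ s < τ a') _)] at h3
      intro a' ha' hn hne
      rw [mem_nbr] at ha'
      refine H₂ s (hs.2.trans_le hN) a ha ((le_max_left _ _).trans ha'.2.1) hsa a' ha'.1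
        ((le_max_right _ _).trans ha'.2.1) hne fun h4 => ?_
      by_contra hcon
      exact hn (Finset.mem_filter.2 ⟨mem_nbr.2 ha', h4, not_le.1 hcon⟩)
    · intro a ha
      have h3 : t₀ ≤ β a := (min_le_left _ _).trans (hc' a ha)
      rw [hx.pre a t₀ h3, hy.pre a t₀ h3]
  have hPe : P = ∅ := by
    by_contra hne
    obtain ⟨p, hp, hmin⟩ := P.exists_min_image m (Finset.nonempty_of_ne_empty hne)
    have hp' := hp
    rw [hP, Finset.mem_filter, Finset.mem_product] at hp'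
    obtain ⟨⟨h3, h4⟩, h5, h6, h7, h8⟩ := hp'
    have h9 := key (m p) h5.le hmin
    exact h8 (On.congr (h9 _ h3 _ le_rfl h6.le) (h9 _ h4 _ le_rfl h7.le))
  refine key T le_rfl fun p hp => ?_
  rw [hPe] at hp
  exact absurd hp (Finset.notMem_empty p)

theorem IsBW.unique (hΨ : Sm Ψ) (hε : 0 < ε) {x y : ℝ → α → Ph} (hx : IsBW Ψ ε β ℓ W x)
    (hy : IsBW Ψ ε β ℓ W y) : x = y := by
  classical
  funext t a
  by_cases ha : a ∈ W
  · refine hx.cone hΨ hε hy (Finset.Subset.refl W) (Finset.Subset.refl W)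
      (τ := fun _ => t + 1) (T := t) ?_ ?_ a ha t le_rfl (by linarith)
    · intro s hs a _ _ _ a' ha' _ _ h
      have := h ha'
      linarith
    · intro s hs a _ _ _ a' ha' _ _ h
      have := h ha'
      linarith
  · rw [hx.off a ha, hy.off a ha]

/-- The paths until `T` depend only on the sources born before `T`. -/
theorem IsBW.born (hΨ : Sm Ψ) (hε : 0 < ε) {W₁ W₂ : Finset α} {x y : ℝ → α → Ph}
    (hx : IsBW Ψ ε β ℓ W₁ x) (hy : IsBW Ψ ε β ℓ W₂ y) {T : ℝ}
    (h : ∀ a, β a < T → (a ∈ W₁ ↔ a ∈ W₂)) {t : ℝ} (ht : t ≤ T) (a : α) : x t a = y t a := by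
  classical
  by_cases hb : t ≤ β a
  · rw [hx.pre a t hb, hy.pre a t hb]
  rw [not_le] at hb
  by_cases ha : a ∈ W₁
  · have ha₂ := (h a (hb.trans_le ht)).1 ha
    refine hx.cone hΨ hε hy (I := W₁.filter fun a => β a < T) (W₁ := W₁) (W₂ := W₂)
      (Finset.filter_subset _ _) ?_ (τ := fun _ => T + 1) (T := T) ?_ ?_ a ?_ t ht (by linarith)
    · intro a ha
      rw [Finset.mem_filter] at ha
      exact (h a ha.2).1 ha.1
    · intro s hs a _ _ _ a' ha' hb' _ h'
      have := h' (Finset.mem_filter.2 ⟨ha', lt_of_le_of_lt hb' hs⟩)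
      linarith
    · intro s hs a _ _ _ a' ha' hb' _ h'
      have h3 := (h a' (lt_of_le_of_lt hb' hs)).2 ha'
      have := h' (Finset.mem_filter.2 ⟨h3, lt_of_le_of_lt hb' hs⟩)
      linarith
    · exact Finset.mem_filter.2 ⟨ha, hb.trans_le ht⟩
  · have ha₂ : a ∉ W₂ := fun h' => ha ((h a (hb.trans_le ht)).2 h')
    rw [hx.off a ha, hy.off a ha₂]

end Vale.Agent.P119.RB
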