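import Vale.Agent.P119.Bdl.B1

/-!
# P119: comparison of two systems of trajectories with relevance times (`helper909`)

`cone_general`: two families of trajectories `x`, `y` labelled by a finite set; the particle `i`
matters until the time `τ i`; as long as it matters it only feels particles that still matter, with
pair forces that are active according to `Px`, `Py`; the two activities coincide for a short time
after every time up to which the two families coincide.  Then the two families coincide: for all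
`s < τ i`.
-/

open MeasureTheory Filter Topology Set
open scoped NNReal

noncomputable section

namespace Vale.Agent.P119.RB

variable {ι : Type*}

open Classical in
/-- The force on `i` exerted by the `j ∈ I` with `P i j`. -/
def gacc (Ψ : E3 → ℝ) (ε : ℝ) (I : Finset ι) (P : ι → ι → Prop) (x : ι → E3) (i : ι) : E3 :=
  -(ε⁻¹ • ∑ j ∈ I with P i j, gradient Ψ (ε⁻¹ • (x i - x j)))

theorem gacc_congr {Ψ : E3 → ℝ} {ε : ℝ} {I : Finset ι} {P Q : ι → ι → Prop} {x : ι → E3} {i : ι}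
    (h : ∀ j ∈ I, (P i j ↔ Q i j)) : gacc Ψ ε I P x i = gacc Ψ ε I Q x i := by
  classical
  unfold gacc
  congr 2
  exact Finset.sum_congr (Finset.filter_congr fun j hj => h j hj) fun _ _ => rfl

theorem gacc_diff {Ψ : E3 → ℝ} {K : ℝ≥0} (hK : LipschitzWith K (gradient Ψ)) (ε : ℝ)
    (I : Finset ι) (P : ι → ι → Prop) (x y : ι → E3) (i : ι) {D : ℝ} (hD : 0 ≤ D)
    (hi : ‖x i - y i‖ ≤ D) (h : ∀ j ∈ I, P i j → ‖x j - y j‖ ≤ D) :
    ‖gacc Ψ ε I P x i - gacc Ψ ε I P y i‖ ≤ |ε⁻¹| * (I.card * (K * (|ε⁻¹| * (2 * D)))) := by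
  classical
  unfold gacc
  rw [neg_sub_neg, ← smul_sub, norm_smul, Real.norm_eq_abs, ← Finset.sum_sub_distrib]
  refine mul_le_mul_of_nonneg_left ?_ (abs_nonneg _)
  have h1 : ∀ j ∈ I.filter (P i),
      ‖gradient Ψ (ε⁻¹ • (y i - y j)) - gradient Ψ (ε⁻¹ • (x i - x j))‖ ≤
        K * (|ε⁻¹| * (2 * D)) := by
    intro j hj
    rw [Finset.mem_filter] at hj
    have h2 := hK.dist_le_mul (ε⁻¹ • (y i - y j)) (ε⁻¹ • (x i - x j))
    rw [dist_eq_norm, dist_eq_norm, ← smul_sub, norm_smul, Real.norm_eq_abs] at h2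
    refine h2.trans (mul_le_mul_of_nonneg_left (mul_le_mul_of_nonneg_left ?_ (abs_nonneg _)) K.2)
    have h3 : y i - y j - (x i - x j) = -(x i - y i) + (x j - y j) := by abel
    rw [h3]
    refine (norm_add_le _ _).trans ?_
    rw [norm_neg]
    linarith [h j hj.1 hj.2]
  refine (norm_sum_le_of_le _ h1).trans ?_
  rw [Finset.sum_const, nsmul_eq_mul]
  have h4 : ((I.filter (P i)).card : ℝ) ≤ I.card := by
    exact_mod_cast Finset.card_filter_le _ _
  exact mul_le_mul_of_nonneg_right h4 (by positivity)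

/-- Uniqueness on an interval on which the relevant particles and the activities are fixed. -/
theorem local_eq {Ψ : E3 → ℝ} {K : ℝ≥0} (hK : LipschitzWith K (gradient Ψ)) {ε : ℝ}
    {J : Finset ι} {a b : ℝ} {P : ℝ → ι → ι → Prop} {x y v u : ℝ → ι → E3}
    (cx : ∀ i ∈ J, ContinuousOn (fun s => x s i) (Icc a b))
    (cy : ∀ i ∈ J, ContinuousOn (fun s => y s i) (Icc a b))
    (cv : ∀ i ∈ J, ContinuousOn (fun s => v s i) (Icc a b))
    (cu : ∀ i ∈ J, ContinuousOn (fun s => u s i) (Icc a b))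
    (dx : ∀ i ∈ J, ∀ s ∈ Ico a b, HasDerivWithinAt (fun s => x s i) (v s i) (Ici s) s)
    (dv : ∀ i ∈ J, ∀ s ∈ Ico a b,
      HasDerivWithinAt (fun s => v s i) (gacc Ψ ε J (P s) (x s) i) (Ici s) s)
    (dy : ∀ i ∈ J, ∀ s ∈ Ico a b, HasDerivWithinAt (fun s => y s i) (u s i) (Ici s) s)
    (du : ∀ i ∈ J, ∀ s ∈ Ico a b,
      HasDerivWithinAt (fun s => u s i) (gacc Ψ ε J (P s) (y s) i) (Ici s) s)
    (h0 : ∀ i ∈ J, x a i = y a i ∧ v a i = u a i) :
    ∀ i ∈ J, ∀ s ∈ Icc a b, x s i = y s i ∧ v s i = u s i := by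
  classical
  set U : ℝ → (J → E3 × E3) := fun s i => (x s i - y s i, v s i - u s i) with hU
  set U' : ℝ → (J → E3 × E3) := fun s i =>
    (v s i - u s i, gacc Ψ ε J (P s) (x s) i - gacc Ψ ε J (P s) (y s) i) with hU'
  have hUc : ContinuousOn U (Icc a b) := by
    rw [continuousOn_pi]
    intro i
    exact ((cx i i.2).sub (cy i i.2)).prodMk ((cv i i.2).sub (cu i i.2))
  have hUd : ∀ s ∈ Ico a b, HasDerivWithinAt U (U' s) (Ici s) s := by
    intro s hs
    rw [hasDerivWithinAt_pi]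
    intro i
    exact ((dx i i.2 s hs).sub (dy i i.2 s hs)).prodMk ((dv i i.2 s hs).sub (du i i.2 s hs))
  set C : ℝ := 1 + |ε⁻¹| * (J.card * (K * (|ε⁻¹| * 2))) with hC
  have hC0 : 0 ≤ |ε⁻¹| * (J.card * (K * (|ε⁻¹| * 2))) := by positivity
  have hb : ∀ s ∈ Ico a b, ‖U' s‖ ≤ C * ‖U s‖ + 0 := by
    intro s hs
    rw [add_zero, pi_norm_le_iff_of_nonneg (by positivity)]
    intro i
    have hxs : ∀ j : J, ‖x s j - y s j‖ ≤ ‖U s‖ ∧ ‖v s j - u s j‖ ≤ ‖U s‖ := by
      intro j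
      have h4 := norm_le_pi_norm (U s) j
      exact ⟨(norm_fst_le _).trans h4, (norm_snd_le _).trans h4⟩
    rw [Prod.norm_def]
    refine max_le ?_ ?_
    · refine (hxs i).2.trans ?_
      nlinarith [norm_nonneg (U s)]
    · refine (gacc_diff hK ε J (P s) (x s) (y s) i (norm_nonneg (U s)) (hxs i).1
        (fun j hj _ => (hxs ⟨j, hj⟩).1)).trans ?_
      have : |ε⁻¹| * (J.card * (K * (|ε⁻¹| * (2 * ‖U s‖)))) =
        |ε⁻¹| * (J.card * (K * (|ε⁻¹| * 2))) * ‖U s‖ := by ring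
      rw [this]
      nlinarith [norm_nonneg (U s)]
  have hU0 : ‖U a‖ ≤ 0 := by
    rw [pi_norm_le_iff_of_nonneg le_rfl]
    intro i
    have h1 := h0 i i.2
    simp only [hU, h1.1, h1.2, sub_self, Prod.mk_zero_zero, norm_zero, le_refl]
  have key := norm_le_gronwallBound_of_norm_deriv_right_le hUc hUd hU0 hb
  intro i hi s hs
  have h5 := key s hs
  rw [gronwallBound_ε0_δ0] at h5
  have h6 := (norm_le_pi_norm (U s) ⟨i, hi⟩).trans h5
  have h7 := norm_le_zero_iff.1 h6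
  simp only [hU] at h7
  rw [Prod.mk_eq_zero] at h7
  exact ⟨sub_eq_zero.1 h7.1, sub_eq_zero.1 h7.2⟩

/-- **Comparison with relevance times.** -/
theorem cone_general {Ψ : E3 → ℝ} {K : ℝ≥0} (hK : LipschitzWith K (gradient Ψ)) {ε : ℝ}
    {I : Finset ι} {T : ℝ} {τ : ι → ℝ} {Px Py : ℝ → ι → ι → Prop} {x y v u : ℝ → ι → E3}
    (cx : ∀ i ∈ I, ContinuousOn (fun s => x s i) (Ico 0 T ∩ Iio (τ i)))
    (cy : ∀ i ∈ I, ContinuousOn (fun s => y s i) (Ico 0 T ∩ Iio (τ i)))
    (cv : ∀ i ∈ I, ContinuousOn (fun s => v s i) (Ico 0 T ∩ Iio (τ i)))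
    (cu : ∀ i ∈ I, ContinuousOn (fun s => u s i) (Ico 0 T ∩ Iio (τ i)))
    (dx : ∀ i ∈ I, ∀ s ∈ Ico 0 T, s < τ i →
      HasDerivWithinAt (fun s => x s i) (v s i) (Ici s) s)
    (dv : ∀ i ∈ I, ∀ s ∈ Ico 0 T, s < τ i → HasDerivWithinAt (fun s => v s i)
      (gacc Ψ ε I (fun i j => s < τ j ∧ Px s i j) (x s) i) (Ici s) s)
    (dy : ∀ i ∈ I, ∀ s ∈ Ico 0 T, s < τ i →
      HasDerivWithinAt (fun s => y s i) (u s i) (Ici s) s)
    (du : ∀ i ∈ I, ∀ s ∈ Ico 0 T, s < τ i → HasDerivWithinAt (fun s => u s i)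
      (gacc Ψ ε I (fun i j => s < τ j ∧ Py s i j) (y s) i) (Ici s) s)
    (h0 : ∀ i ∈ I, 0 < τ i → x 0 i = y 0 i ∧ v 0 i = u 0 i)
    (HP : ∀ r ∈ Ico 0 T, (∀ i ∈ I, ∀ s ∈ Icc 0 r, s < τ i → x s i = y s i ∧ v s i = u s i) →
      ∃ r', r < r' ∧ ∀ s ∈ Ico r r', ∀ i ∈ I, ∀ j ∈ I, s < τ i → s < τ j →
        (Px s i j ↔ Py s i j)) :
    ∀ i ∈ I, ∀ s ∈ Ico 0 T, s < τ i → x s i = y s i ∧ v s i = u s i := by
  classical
  rcases le_or_gt T 0 with hT | hT
  · intro i hi s hs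
    exact absurd (hs.1.trans_lt hs.2) (not_lt.2 hT)
  set S : Set ℝ := {r | ∀ i ∈ I, ∀ s ∈ Icc 0 r, s < τ i → x s i = y s i ∧ v s i = u s i} with hS
  have hSd : ∀ r r', r ∈ S → r' ≤ r → r' ∈ S := fun r r' h hr i hi s hs =>
    h i hi s ⟨hs.1, hs.2.trans hr⟩
  have h0S : (0 : ℝ) ∈ S := by
    intro i hi s hs hsτ
    have : s = 0 := le_antisymm hs.2 hs.1
    subst this
    exact h0 i hi hsτ
  -- the key extension
  have key : ∀ b, b < T → Icc 0 b ⊆ S := by
    intro b hb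
    rcases lt_or_ge b 0 with hb0 | hb0
    · intro r hr
      exact absurd (hr.1.trans hr.2) (not_le.2 hb0)
    refine IsClosed.Icc_subset_of_forall_exists_gt ?_ h0S ?_
    · -- closedness
      rw [← isSeqClosed_iff_isClosed]
      intro r r₀ hr hr₀
      have hr₀b : r₀ ∈ Icc 0 b := isClosed_Icc.mem_of_tendsto hr₀ (Eventually.of_forall
        fun n => (hr n).2)
      refine ⟨fun i hi s hs hsτ => ?_, hr₀b⟩
      rcases hs.2.lt_or_eq with h | h
      · obtain ⟨n, hn⟩ := (hr₀.eventually (lt_mem_nhds h)).exists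
        exact (hr n).1 i hi s ⟨hs.1, hn.le⟩ hsτ
      · -- `s = r₀`: by continuity from the left, unless the sequence is at the right
        subst h
        by_cases hex : ∃ n, s ≤ r n
        · obtain ⟨n, hn⟩ := hex
          exact (hr n).1 i hi s ⟨hs.1, hn⟩ hsτ
        · push Not at hex
          have hmem : ∀ n, r n ∈ Ico 0 T ∩ Iio (τ i) := fun n =>
            ⟨⟨(hr n).2.1, (hex n).trans_le hs.2 |>.trans_le le_rfl |>.trans_le
              (hr₀b.2.trans hb.le)⟩, (hex n).trans hsτ⟩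
          have hsmem : s ∈ Ico 0 T ∩ Iio (τ i) := ⟨⟨hs.1, hr₀b.2.trans_lt hb⟩, hsτ⟩
          have hten : Tendsto r atTop (𝓝[Ico 0 T ∩ Iio (τ i)] s) :=
            tendsto_nhdsWithin_iff.2 ⟨hr₀, Eventually.of_forall hmem⟩
          have hx := ((cx i hi) s hsmem).tendsto.comp hten
          have hy := ((cy i hi) s hsmem).tendsto.comp hten
          have hv := ((cv i hi) s hsmem).tendsto.comp hten
          have hu := ((cu i hi) s hsmem).tendsto.comp hten
          have he : ∀ n, x (r n) i = y (r n) i ∧ v (r n) i = u (r n) i := fun n =>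
            (hr n).1 i hi (r n) ⟨(hr n).2.1, le_rfl⟩ ((hex n).trans hsτ)
          refine ⟨tendsto_nhds_unique hx (hy.congr fun n => (he n).1.symm),
            tendsto_nhds_unique hv (hu.congr fun n => (he n).2.symm)⟩
    · -- extension to the right
      rintro r ⟨hr, hrb⟩ c hc
      have hrT : r ∈ Ico 0 T := ⟨hrb.1, hrb.2.trans hb⟩
      obtain ⟨r', hr', HP'⟩ := HP r hrT hr
      -- a short interval
      have hfin : ∀ᶠ q in 𝓝[>] r, q < r' ∧ q < T ∧ q < c ∧ ∀ i ∈ I, r < τ i → q < τ i := by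
        have h1 : ∀ᶠ q in 𝓝[>] r, q < r' := nhdsWithin_le_nhds (gt_mem_nhds hr')
        have h2 : ∀ᶠ q in 𝓝[>] r, q < T := nhdsWithin_le_nhds (gt_mem_nhds hrT.2)
        have h3 : ∀ᶠ q in 𝓝[>] r, q < c := nhdsWithin_le_nhds (gt_mem_nhds hc)
        have h4 : ∀ᶠ q in 𝓝[>] r, ∀ i ∈ I, r < τ i → q < τ i := by
          rw [Filter.eventually_all_finset]
          intro i _
          by_cases h : r < τ i
          · have h5 : ∀ᶠ q in 𝓝[>] r, q < τ i := nhdsWithin_le_nhds (gt_mem_nhds h)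
            exact h5.mono fun q hq _ => hq
          · exact Eventually.of_forall fun q h' => absurd h' h
        filter_upwards [h1, h2, h3, h4] with q a1 a2 a3 a4 using ⟨a1, a2, a3, a4⟩
      obtain ⟨q, ⟨hq1, hq2, hq3, hq4⟩, hqr⟩ := (hfin.and self_mem_nhdsWithin).exists
      have hqr : r < q := hqr
      refine ⟨q, ?_, hqr, hq3.le⟩
      set J := I.filter (fun i => r < τ i) with hJ
      have hJI : ∀ i ∈ J, i ∈ I ∧ r < τ i := fun i hi => Finset.mem_filter.1 hi
      have hsub : ∀ i ∈ J, Icc r q ⊆ Ico 0 T ∩ Iio (τ i) := fun i hi s hs =>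
        ⟨⟨hrT.1.trans hs.1, hs.2.trans_lt hq2⟩, hs.2.trans_lt (hq4 i (hJI i hi).1 (hJI i hi).2)⟩
      -- the forces on `[r, q)`
      have hforce : ∀ (P : ℝ → ι → ι → Prop) (z : ι → E3) (i : ι), ∀ s ∈ Ico r q,
          gacc Ψ ε I (fun i j => s < τ j ∧ P s i j) z i = gacc Ψ ε J (P s) z i := by
        intro P z i s hs
        unfold gacc
        congr 2
        refine Finset.sum_congr ?_ fun _ _ => rfl
        ext j
        simp only [hJ, Finset.mem_filter]
        constructor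
        · rintro ⟨h1, h2, h3⟩
          exact ⟨⟨h1, hs.1.trans_lt h2⟩, h3⟩
        · rintro ⟨⟨h1, h2⟩, h3⟩
          exact ⟨h1, hs.2.trans (hq4 j h1 h2), h3⟩
      have hloc := local_eq hK (ε := ε) (J := J) (a := r) (b := q) (P := Px) (x := x) (y := y)
        (v := v) (u := u)
        (fun i hi => (cx i (hJI i hi).1).mono (hsub i hi))
        (fun i hi => (cy i (hJI i hi).1).mono (hsub i hi))
        (fun i hi => (cv i (hJI i hi).1).mono (hsub i hi))
        (fun i hi => (cu i (hJI i hi).1).mono (hsub i hi))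
        (fun i hi s hs => dx i (hJI i hi).1 s (hsub i hi (Ico_subset_Icc_self hs)).1
          (hsub i hi (Ico_subset_Icc_self hs)).2)
        (fun i hi s hs => by
          have h1 := dv i (hJI i hi).1 s (hsub i hi (Ico_subset_Icc_self hs)).1
            (hsub i hi (Ico_subset_Icc_self hs)).2
          rwa [hforce Px (x s) i s hs] at h1)
        (fun i hi s hs => dy i (hJI i hi).1 s (hsub i hi (Ico_subset_Icc_self hs)).1
          (hsub i hi (Ico_subset_Icc_self hs)).2)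
        (fun i hi s hs => by
          have h1 := du i (hJI i hi).1 s (hsub i hi (Ico_subset_Icc_self hs)).1
            (hsub i hi (Ico_subset_Icc_self hs)).2
          rw [hforce Py (y s) i s hs] at h1
          rwa [gacc_congr (P := Px s) (Q := Py s) (fun j hj => HP' s ⟨hs.1, hs.2.trans hq1⟩ i
            (hJI i hi).1 j (hJI j hj).1 (hsub i hi (Ico_subset_Icc_self hs)).2
            (hsub j hj (Ico_subset_Icc_self hs)).2)])
        (fun i hi => hr i (hJI i hi).1 r ⟨hrT.1, le_rfl⟩ (hJI i hi).2)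
      intro i hi s hs hsτ
      rcases le_or_gt s r with h | h
      · exact hr i hi s ⟨hs.1, h⟩ hsτ
      · exact hloc i (Finset.mem_filter.2 ⟨hi, h.trans hsτ⟩) s ⟨h.le, hs.2⟩
  intro i hi s hs hsτ
  exact key s hs.2 ⟨hs.1, le_rfl⟩ i hi s ⟨hs.1, le_rfl⟩ hsτ

end Vale.Agent.P119.RB
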