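import Vale.Agent.P119.RB.MPath
import Vale.Agent.P119.RB.Compare
import Vale.Agent.P119.RB.Birth1

/-!
# P119: Lemma H (`helper909`)

As long as a particle is not exposed its real path is its M-path.
-/

open MeasureTheory Filter Topology Set
open scoped NNReal

noncomputable section

namespace Vale.Agent.P119.RB

open M CTree KU FB

variable {Φ : E3 → ℝ} {ε : ℝ} {L : ℕ} {X : Finset Src → ℝ → Src → Ph} {W : Finset Src}
  {a b : Src} {s t : ℝ}

/-- The world `W` is a world with births for the potential `Φ` (through the truncations). -/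
def IsReal (Φ : E3 → ℝ) (ε : ℝ) (W : Finset Src) (x : ℝ → Src → Ph) : Prop :=
  ∃ k₀ : ℝ, ∀ k, k₀ ≤ k → IsBW (trunc Φ k) ε (fun a : Src => a.1) (fun a => a.2.1) W x

theorem gacc_eq_frc {Ψ : E3 → ℝ} {I : Finset Src} {P : Src → Src → Prop} {x : Src → Ph} {i : Src}
    {S : Finset Src} (hS : ∀ j, j ∈ S ↔ j ∈ I ∧ P i j) :
    gacc Ψ ε I P (fun b => (x b).1) i = frc Ψ ε S x i := by
  classical
  unfold gacc frc
  congr 2
  refine Finset.sum_congr ?_ fun _ _ => rfl
  ext j
  rw [Finset.mem_filter, hS]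

/-- Two paths which are at distance `< ε`, or at distance `ε` and approaching, are at distance
`< ε` just afterwards. -/
theorem dist_right {p q : ℝ → Ph} {s : ℝ}
    (hp : HasDerivWithinAt (fun r => (p r).1) (p s).2 (Ioi s) s)
    (hq : HasDerivWithinAt (fun r => (q r).1) (q s).2 (Ioi s) s) (hε : 0 < ε)
    (h : ‖(p s).1 - (q s).1‖ < ε ∨ (‖(p s).1 - (q s).1‖ = ε ∧
      (inner ℝ ((p s).1 - (q s).1) ((p s).2 - (q s).2) : ℝ) < 0)) :
    ∀ᶠ r in 𝓝[>] s, ‖(p r).1 - (q r).1‖ < ε := by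
  have hd : HasDerivWithinAt (fun r => (p r).1 - (q r).1) ((p s).2 - (q s).2) (Ioi s) s :=
    hp.sub hq
  rcases h with h | ⟨h, h'⟩
  · have h1 : Tendsto (fun r => ‖(p r).1 - (q r).1‖) (𝓝[>] s) (𝓝 ‖(p s).1 - (q s).1‖) :=
      hd.continuousWithinAt.norm
    exact h1.eventually (gt_mem_nhds h)
  · have h1 : HasDerivWithinAt (fun r => (inner ℝ ((p r).1 - (q r).1) ((p r).1 - (q r).1) : ℝ))
        (inner ℝ ((p s).1 - (q s).1) ((p s).2 - (q s).2) +
          inner ℝ ((p s).2 - (q s).2) ((p s).1 - (q s).1)) (Ioi s) s := hd.inner ℝ hd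
    have h9 : inner ℝ ((p s).1 - (q s).1) ((p s).2 - (q s).2) +
        (inner ℝ ((p s).2 - (q s).2) ((p s).1 - (q s).1) : ℝ) < 0 := by
      rw [real_inner_comm ((p s).1 - (q s).1) ((p s).2 - (q s).2)]
      linarith
    have h10 := (hasDerivWithinAt_iff_tendsto_slope' (by simp)).1 h1
    have h11 := h10.eventually (gt_mem_nhds h9)
    filter_upwards [h11, self_mem_nhdsWithin] with r hsl hr
    rw [slope_def_field] at hsl
    have h12 : 0 < r - s := sub_pos.2 hr
    have h13 : inner ℝ ((p r).1 - (q r).1) ((p r).1 - (q r).1) -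
        (inner ℝ ((p s).1 - (q s).1) ((p s).1 - (q s).1) : ℝ) < 0 := by
      by_contra hcon
      exact absurd hsl (not_lt.2 (div_nonneg (not_lt.1 hcon) h12.le))
    rw [real_inner_self_eq_norm_sq, real_inner_self_eq_norm_sq, h] at h13
    exact lt_of_pow_lt_pow_left₀ 2 hε.le (by linarith)

/-- Without contact at `s` there is no contact just afterwards. -/
theorem not_ctc_right (hε : 0 < ε) {p q : ℝ → Ph} {s : ℝ}
    (hp : HasDerivWithinAt (fun r => (p r).1) (p s).2 (Ioi s) s)
    (hq : HasDerivWithinAt (fun r => (q r).1) (q s).2 (Ioi s) s) (h : ¬Ctc ε (p s) (q s)) :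
    ∀ᶠ r in 𝓝[>] s, ¬Ctc ε (p r) (q r) := by
  by_contra hcon
  exact h (ctc_of_frequently hε.le hp hq hcon)

section lemmaH

variable {hΦ : IsPotential Φ} {hε : 0 < ε} {hX : IsFam X}

/-- The real neighbours of `i` that are in contact with it. -/
def Pr (ε : ℝ) (X : Finset Src → ℝ → Src → Ph) (W : Finset Src) (s : ℝ) (i j : Src) : Prop :=
  j ∈ nbr ε (fun a : Src => a.1) W (X W) s i ∧ j ≠ i ∧ Ctc ε (X W s i) (X W s j)

theorem eventually_nhdsGE {P : ℝ → Prop} {r : ℝ} (h : P r) (h' : ∀ᶠ s in 𝓝[>] r, P s) :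
    ∀ᶠ s in 𝓝[≥] r, P s := by
  rw [← Ioi_insert, nhdsWithin_insert]
  exact eventually_sup.2 ⟨h, h'⟩

/-- The real contacts and the collisions of two unexposed particles coincide for a short time. -/
theorem pr_iff_part (hW : ∀ a ∈ W, 0 ≤ a.1)
    (hx : ∃ Ψ, IsBW Ψ ε (fun a : Src => a.1) (fun a => a.2.1) W (X W)) {r : ℝ} (h0 : 0 ≤ r)
    {i j : Src} (hi : i ∈ W) (hj : j ∈ W)
    (ei : ¬(sys Φ ε L X hΦ hε hX).Exp W i r) (ej : ¬(sys Φ ε L X hΦ hε hX).Exp W j r)
    (H : ∀ a ∈ W, ¬(sys Φ ε L X hΦ hε hX).Exp W a r → ∀ s ∈ Icc 0 r,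
      X W s a = mpos Φ ε L (W : Set Src) a s) :
    ∀ᶠ s in 𝓝[≥] r, (Pr ε X W s i j ↔ part Φ ε L (W : Set Src) s i j) := by
  have hWf := W.finite_toSet
  obtain ⟨Ψ, hx⟩ := hx
  -- unborn
  have unborn : ∀ c, c = i ∨ c = j → r < c.1 →
      ∀ᶠ s in 𝓝[≥] r, (Pr ε X W s i j ↔ part Φ ε L (W : Set Src) s i j) := by
    intro c hc hcr
    filter_upwards [nhdsWithin_le_nhds (Iio_mem_nhds hcr)] with s hs
    have hs : s < c.1 := hs
    constructor
    · rintro ⟨h1, -, -⟩
      have h2 := (mem_nbr.1 h1).2.1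
      simp only [max_le_iff] at h2
      rcases hc with rfl | rfl <;> linarith
    · rintro ⟨T, T', h1, h2, -⟩
      rcases hc with rfl | rfl
      · rw [stat_unborn hΦ hε hs] at h1; cases h1
      · rw [stat_unborn hΦ hε hs] at h2; cases h2
  rcases lt_or_ge r i.1 with hbi | hbi
  · exact unborn i (Or.inl rfl) hbi
  rcases lt_or_ge r j.1 with hbj | hbj
  · exact unborn j (Or.inr rfl) hbj
  have hXi := hX W i hi r
  have hXj := hX W j hj r
  have si := stat_of_not_exp ei hi h0 hbi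
  have sj := stat_of_not_exp ej hj h0 hbj
  have Hi := H i hi ei r ⟨h0, le_rfl⟩
  have Hj := H j hj ej r ⟨h0, le_rfl⟩
  by_cases hp : part Φ ε L (W : Set Src) r i j
  · -- colliding
    obtain ⟨δ, hδ, h1⟩ := part_right hΦ hε hWf hp
    have h2 : ∀ᶠ s in 𝓝[≥] r, s < r + δ := nhdsWithin_le_nhds (Iio_mem_nhds (by linarith))
    have h3 : ∀ᶠ s in 𝓝[≥] r, Ctc ε (X W s i) (X W s j) := by
      refine eventually_nhdsGE ?_ ?_
      · rw [Hi, Hj]; exact part_ctc hΦ hε hWf hp
      · have h4 := part_dist hΦ hε hWf hp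
        rw [← Hi, ← Hj] at h4
        exact (dist_right (p := fun r => X W r i) (q := fun r => X W r j) hXi hXj hε h4).mono
          fun s hs => ctc_of_lt hs
    have hon : On ε (fun a : Src => a.1) (X W) i j := by
      unfold On
      set m := max i.1 j.1 with hm
      have hm0 : 0 ≤ m := (hW i hi).trans (le_max_left _ _)
      have hmr : m ≤ r := max_le hbi hbj
      have eim : ¬(sys Φ ε L X hΦ hε hX).Exp W i m := fun h => ei (h.mono hmr)
      have ejm : ¬(sys Φ ε L X hΦ hε hX).Exp W j m := fun h => ej (h.mono hmr)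
      have k1 := H i hi ei m ⟨hm0, hmr⟩
      have k2 := H j hj ej m ⟨hm0, hmr⟩
      rw [k1, k2]
      refine dist_of_not_ctc fun hc => ?_
      have sim := stat_of_not_exp eim hi hm0 (le_max_left _ _)
      have sjm := stat_of_not_exp ejm hj hm0 (le_max_right _ _)
      have h5 : mcon Φ ε L (W : Set Src) m i j :=
        (mcon_iff_mpos hΦ hε hWf sim sjm).2 ⟨part_ne hΦ hε hWf hp, hc⟩
      have h6 := part_of_not_exp eim h5
      rcases le_total i.1 j.1 with h7 | h7
      · exact not_part_birth hΦ hε hWf (by rw [hm, max_eq_right h7]) ((part_comm hΦ).1 h6)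
      · exact not_part_birth hΦ hε hWf (by rw [hm, max_eq_left h7]) h6
    filter_upwards [h2, h3, self_mem_nhdsWithin] with s hs hs' hs''
    have hs'' : r ≤ s := hs''
    refine iff_of_true ⟨mem_nbr.2 ⟨hj, (max_le hbi hbj).trans hs'', hon⟩,
      (part_ne hΦ hε hWf hp).symm, hs'⟩ (h1 s hs'' hs)
  · -- no collision
    have h1 : ∀ᶠ s in 𝓝[≥] r, ¬part Φ ε L (W : Set Src) s i j := by
      obtain ⟨δ, hδ, h3⟩ := stat_right' (L := L) hΦ hε hWf i r
      obtain ⟨δ', hδ', h4⟩ := stat_right' (L := L) hΦ hε hWf j r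
      have h5 : ∀ᶠ s in 𝓝[≥] r, s < r + δ := nhdsWithin_le_nhds (Iio_mem_nhds (by linarith))
      have h6 : ∀ᶠ s in 𝓝[≥] r, s < r + δ' := nhdsWithin_le_nhds (Iio_mem_nhds (by linarith))
      filter_upwards [h5, h6, self_mem_nhdsWithin] with s hs hs' hs''
      rintro ⟨T, T', h7, h8, x, y, rfl, rfl, h9⟩
      rw [h3 s hs'' hs] at h7
      rw [h4 s hs'' hs'] at h8
      exact hp ⟨_, _, h7, h8, x, y, rfl, rfl, lt_of_le_of_lt hs'' h9⟩
    by_cases hij : i = j
    · subst hij
      filter_upwards [h1] with s hs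
      exact iff_of_false (fun h => h.2.1 rfl) hs
    · have h2 : ¬Ctc ε (X W r i) (X W r j) := by
        rw [Hi, Hj]
        intro hc
        exact hp (part_of_not_exp ei ((mcon_iff_mpos hΦ hε hWf si sj).2 ⟨hij, hc⟩))
      have h3 : ∀ᶠ s in 𝓝[≥] r, ¬Ctc ε (X W s i) (X W s j) :=
        eventually_nhdsGE h2 (not_ctc_right hε (p := fun r => X W r i) (q := fun r => X W r j)
          hXi hXj h2)
      filter_upwards [h1, h3] with s hs hs'
      exact iff_of_false (fun h => hs' h.2.2) hs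

/-- The partner of an unexposed particle is not exposed. -/
theorem not_exp_partner (ha : ¬(sys Φ ε L X hΦ hε hX).Exp W a t)
    (h : part Φ ε L (W : Set Src) t a b) : ¬(sys Φ ε L X hΦ hε hX).Exp W b t := fun hb =>
  ha (exp_of_con hb (Or.inl (part_mcon hΦ hε W.finite_toSet h)))

/-- **Lemma H**: the real path of an unexposed particle is its M-path. -/
theorem real_eq_mpos (hW : ∀ a ∈ W, 0 ≤ a.1) (hR : IsReal Φ ε W (X W)) (ha : a ∈ W)
    (h : ¬(sys Φ ε L X hΦ hε hX).Exp W a t) (hst : s ≤ t) :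
    X W s a = mpos Φ ε L (W : Set Src) a s := by
  classical
  have hWf := W.finite_toSet
  obtain ⟨k₁, hk₁⟩ := hR
  obtain ⟨k₂, hk₂⟩ := trunc_trees hΦ hε hWf L
  set k := max 0 (max k₁ k₂) with hk
  have hk0 : 0 ≤ k := le_max_left _ _
  have hkk₁ : k₁ ≤ k := (le_max_left _ _).trans (le_max_right _ _)
  have hkk₂ : k₂ ≤ k := (le_max_right _ _).trans (le_max_right _ _)
  set Ψ := trunc Φ k with hΨ
  have hBW := hk₁ k hkk₁
  have hSm : Sm Ψ := sm_trunc hΦ hk0
  obtain ⟨K, M, hK, -⟩ := gradient_lipschitz_bounded hSm.smooth hSm.vanishing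
  -- negative times
  rcases lt_or_ge s 0 with hs0 | hs0
  · rw [hBW.pre a s (hs0.le.trans (hW a ha)), mpos_unborn hΦ hε (hs0.trans_le (hW a ha))]
  have ht0 : 0 ≤ t := hs0.trans hst
  set t₀ := t + 1 with ht₀
  obtain ⟨τ, hτ⟩ := exists_time (Φ := Φ) (ε := ε) (L := L) (X := X) (hΦ := hΦ) (hε := hε)
    (hX := hX) W t₀
  -- status of an unexposed particle
  have hst' : ∀ c ∈ W, ∀ r, 0 ≤ r → ¬(sys Φ ε L X hΦ hε hX).Exp W c r → c.1 ≤ r →
      ∃ T, stat Φ ε L (W : Set Src) c r = some T := fun c hc r hr he hb =>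
    stat_of_not_exp he hc hr hb
  -- continuity of the M-paths
  have hcont : ∀ c ∈ W, ContinuousOn (mpos Φ ε L (W : Set Src) c) (Ico 0 t₀ ∩ Iio (τ c)) := by
    intro c hc r hr
    obtain ⟨⟨hr0, hr1⟩, hr2⟩ := hr
    have hr2 : r < τ c := hr2
    obtain ⟨u, hu1, hu2⟩ := exists_between (lt_min hr1 hr2)
    refine (mpos_continuousAt hΦ hε hWf hu1 fun hb => hst' c hc u (hr0.trans hu1.le)
      ((hτ c u (hu2.le.trans (min_le_left _ _))).1 (hu2.trans_le (min_le_right _ _)))
      hb).continuousWithinAt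
  have main := cone_general (ι := Src) hK (ε := ε) (I := W) (T := t₀) (τ := τ)
    (Px := fun s i j => Pr ε X W s i j) (Py := fun s i j => part Φ ε L (W : Set Src) s i j)
    (x := fun s i => (X W s i).1) (y := fun s i => (mpos Φ ε L (W : Set Src) i s).1)
    (v := fun s i => (X W s i).2) (u := fun s i => (mpos Φ ε L (W : Set Src) i s).2)
    (fun i _ => (continuous_fst.comp (hBW.cont i)).continuousOn)
    (fun i hi => (hcont i hi).fst)
    (fun i _ => (continuous_snd.comp (hBW.cont i)).continuousOn)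
    (fun i hi => (hcont i hi).snd)
    (fun i hi s _ _ => (hBW.deriv' hi s).fst)
    ?_ ?_ ?_ ?_ ?_
  · -- conclusion
    have h1 := main a ha s ⟨hs0, by linarith⟩ ((hτ a s (by linarith)).2 fun h' =>
      h (h'.mono hst))
    exact Prod.ext h1.1 h1.2
  · -- the real force
    intro i hi s hs hsi
    have ei := (hτ i s hs.2.le).1 hsi
    have h1 := (hBW.deriv' hi s).snd
    set S' : Finset Src := (nbr ε (fun a : Src => a.1) W (X W) s i).filter
      fun j => s < τ j ∧ j ≠ i ∧ Ctc ε (X W s i) (X W s j) with hS'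
    have h2 : gacc Ψ ε W (fun i j => s < τ j ∧ Pr ε X W s i j) (fun b => (X W s b).1) i =
        frc Ψ ε S' (X W s) i := by
      apply gacc_eq_frc
      intro j
      rw [hS', Finset.mem_filter]
      constructor
      · rintro ⟨h3, h4, h5, h6⟩
        exact ⟨(mem_nbr.1 h3).1, h4, h3, h5, h6⟩
      · rintro ⟨-, h4, h3, h5, h6⟩
        exact ⟨h3, h4, h5, h6⟩
    change HasDerivWithinAt (fun s => (X W s i).2)
      (gacc Ψ ε W (fun i j => s < τ j ∧ Pr ε X W s i j) (fun b => (X W s b).1) i) (Ici s) s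
    rw [h2, ← frc_subset hSm hε (S := nbr ε (fun a : Src => a.1) W (X W) s i)
      (Finset.filter_subset _ _)]
    · exact h1
    · intro j hj hjn hji
      have hj' := mem_nbr.1 hj
      have hb := hj'.2.1
      simp only [max_le_iff] at hb
      refine dist_of_not_ctc fun hc => hjn ?_
      rw [Finset.mem_filter]
      refine ⟨hj, ?_, hji, hc⟩
      rw [hτ j s hs.2.le]
      exact fun ej => ei (exp_of_con ej (Or.inr ⟨hji.symm, hi, hj'.1, hs.1, hb.1, hb.2, hc⟩))
  · -- the M-velocity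
    intro i hi s hs hsi
    exact mpos_deriv_fst hΦ hε hWf fun hb => hst' i hi s hs.1 ((hτ i s hs.2.le).1 hsi) hb
  · -- the M-force
    intro i hi s hs hsi
    have ei := (hτ i s hs.2.le).1 hsi
    change HasDerivWithinAt (fun s => (mpos Φ ε L (W : Set Src) i s).2)
      (gacc Ψ ε W (fun i j => s < τ j ∧ part Φ ε L (W : Set Src) s i j)
        (fun b => (mpos Φ ε L (W : Set Src) b s).1) i) (Ici s) s
    by_cases hp : ∃ j, part Φ ε L (W : Set Src) s i j
    · obtain ⟨j, hp⟩ := hp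
      have ej := not_exp_partner ei hp
      have hj := (part_mcon hΦ hε hWf hp).mem.2
      have hp' := hp
      obtain ⟨T, T', h1, h2, x, y, rfl, rfl, h3⟩ := hp
      have h4 : gacc Ψ ε W (fun i j => s < τ j ∧ part Φ ε L (W : Set Src) s i j)
          (fun b => (mpos Φ ε L (W : Set Src) b s).1) i = frc Ψ ε {j}
            (fun b => mpos Φ ε L (W : Set Src) b s) i := by
        apply gacc_eq_frc (x := fun b => mpos Φ ε L (W : Set Src) b s)
        intro c
        rw [Finset.mem_singleton]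
        constructor
        · rintro rfl
          exact ⟨Finset.mem_coe.1 hj, (hτ c s hs.2.le).2 ej, hp'⟩
        · rintro ⟨-, -, U, U', h5, h6, x', y', rfl, rfl, h7⟩
          rw [h1, Option.some_inj] at h5
          cases h5
          rw [← ((stat_eq_some_iff hΦ hε hWf).1 h6).1, ← ((stat_eq_some_iff hΦ hε hWf).1 h2).1]
      have hl := ((stat_eq_some_iff hΦ hε hWf).1 h1).2
      have h5 := mpos_deriv_snd_node hΦ hε hWf h1
      have h6 := part_mpos hΦ h1 h2
      have h7 := hk₂ k hkk₂ x y hl.sub hl.depth hl.ok s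
      rw [h4]
      unfold frc
      rw [Finset.sum_singleton]
      rw [← h6] at h5 h7
      rw [← h7.gradient_eq] at h5
      exact h5
    · have h4 : gacc Ψ ε W (fun i j => s < τ j ∧ part Φ ε L (W : Set Src) s i j)
          (fun b => (mpos Φ ε L (W : Set Src) b s).1) i = 0 := by
        rw [gacc_eq_frc (x := fun b => mpos Φ ε L (W : Set Src) b s) (S := ∅), frc_empty]
        intro c
        simp only [Finset.notMem_empty, false_iff, not_and]
        exact fun _ _ h => hp ⟨c, h⟩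
      rw [h4]
      refine mpos_deriv_snd_free hΦ hε hWf fun hb => ?_
      obtain ⟨T, hT⟩ := hst' i hi s hs.1 ei hb
      refine ⟨T, hT, ?_⟩
      by_contra hcon
      rw [not_le] at hcon
      cases T with
      | leaf σ =>
        have := ((stat_eq_some_iff hΦ hε hWf).1 hT).2.sig_le
        exact absurd hcon (not_lt.2 this)
      | node x y =>
        exact hp ⟨y.root, node x y, node y x, hT, stat_partner hΦ hε hWf hT hcon, x, y, rfl, rfl,
          hcon⟩
  · -- time 0
    intro i hi h0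
    have e0 := (hτ i 0 (by linarith)).1 h0
    have h1 : X W 0 i = mpos Φ ε L (W : Set Src) i 0 := by
      rw [hBW.pre i 0 (hW i hi)]
      rcases (hW i hi).lt_or_eq with hb | hb
      · rw [mpos_unborn hΦ hε hb]
      · obtain ⟨T, hT⟩ := hst' i hi 0 le_rfl e0 hb.ge
        obtain ⟨h2, h3⟩ := (stat_eq_some_iff hΦ hε hWf).1 hT
        rw [mpos_eq hT]
        cases T with
        | leaf σ =>
          have : σ = i := h2
          rw [this]
          rfl
        | node x y =>
          have h4 := ext_nonneg hΦ hε h3.ok.1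
          have h5 := h3.ok.2.2.2.2.2.1
          have h6 := h3.sig_le
          change hitT ε (ln Φ ε x, ln Φ ε y) ≤ 0 at h6
          linarith
    change (X W 0 i).1 = (mpos Φ ε L (W : Set Src) i 0).1 ∧ _
    rw [h1]
    exact ⟨rfl, rfl⟩
  · -- the activities
    intro r hr hag
    have h1 : ∀ c ∈ W, ¬(sys Φ ε L X hΦ hε hX).Exp W c r → ∀ s ∈ Icc 0 r,
        X W s c = mpos Φ ε L (W : Set Src) c s := by
      intro c hc he s hs
      have h2 := hag c hc s hs ((hτ c s (hs.2.trans hr.2.le)).2 fun h' => he (h'.mono hs.2))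
      exact Prod.ext h2.1 h2.2
    have h2 : ∀ᶠ s in 𝓝[≥] r, ∀ i ∈ W, ∀ j ∈ W, s < τ i → s < τ j →
        (Pr ε X W s i j ↔ part Φ ε L (W : Set Src) s i j) := by
      rw [Filter.eventually_all_finset]
      intro i hi
      rw [Filter.eventually_all_finset]
      intro j hj
      by_cases hij : r < τ i ∧ r < τ j
      · have h3 := pr_iff_part (L := L) (hΦ := hΦ) (hε := hε) (hX := hX) hW ⟨Ψ, hBW⟩ hr.1 hi hj
          ((hτ i r hr.2.le).1 hij.1) ((hτ j r hr.2.le).1 hij.2) h1
        exact h3.mono fun s hs _ _ => hs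
      · filter_upwards [self_mem_nhdsWithin] with s hs hsi hsj
        exact absurd ⟨lt_of_le_of_lt hs hsi, lt_of_le_of_lt hs hsj⟩ hij
    obtain ⟨u, hu, hu'⟩ := mem_nhdsGE_iff_exists_Ico_subset.1 h2
    exact ⟨u, hu, fun s hs i hi j hj hsi hsj => hu' hs i hi j hj hsi hsj⟩

end lemmaH

end Vale.Agent.P119.RB
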