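import Vale.Agent.P119.M.Live
import Vale.Agent.P119.FB.Sys

/-!
# P119: contacts in the M-world, bad particles, the full status (`helper909`)

* `mcon W t a b`: the M-paths of `a` and `b` are in contact at time `t` (a property of the statuses
  before `t`: `mcon_congr`);
* `part W t a b`: `a` and `b` are colliding with each other at time `t`;
* `badi W a t`: `a` is dead at time `t`, or in contact with a particle which is not its partner;
  `badc`: this was so at some time `≤ t`;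
* `sta W a t = (a ∈ W, stat W a t, badc W a t)`, the full status;
* `mcon_closed`, `badc_closed`, `sta_closed`: all these sets of times are closed under decreasing
  limits.
-/

open MeasureTheory Filter Topology Set

noncomputable section

namespace Vale.Agent.P119.RB

open M CTree KU FB

variable {Φ : E3 → ℝ} {ε : ℝ} {L : ℕ} {W W₁ W₂ : Set Src} {a b c : Src} {s t : ℝ}

/-- Contact of the M-paths. -/
def mcon (Φ : E3 → ℝ) (ε : ℝ) (L : ℕ) (W : Set Src) (t : ℝ) (a b : Src) : Prop :=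
  a ≠ b ∧ ∃ T T' : CTree, T.root = a ∧ T'.root = b ∧ live Φ ε L W T t ∧ live Φ ε L W T' t ∧
    Ctc ε (st Φ ε T t) (st Φ ε T' t)

/-- `a` and `b` are colliding with each other. -/
def part (Φ : E3 → ℝ) (ε : ℝ) (L : ℕ) (W : Set Src) (t : ℝ) (a b : Src) : Prop :=
  ∃ T T' : CTree, stat Φ ε L W a t = some T ∧ stat Φ ε L W b t = some T' ∧ partner Φ ε T T' t

/-- `a` is dead or in contact with a particle which is not its partner. -/
def badi (Φ : E3 → ℝ) (ε : ℝ) (L : ℕ) (W : Set Src) (a : Src) (t : ℝ) : Prop :=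
  a ∈ W ∧ 0 ≤ t ∧ a.1 ≤ t ∧ (stat Φ ε L W a t = none ∨
    ∃ c, mcon Φ ε L W t a c ∧ ¬part Φ ε L W t a c)

/-- `a` was bad at some time `≤ t`. -/
def badc (Φ : E3 → ℝ) (ε : ℝ) (L : ℕ) (W : Set Src) (a : Src) (t : ℝ) : Prop :=
  ∃ s ≤ t, badi Φ ε L W a s

/-- The full status. -/
def sta (Φ : E3 → ℝ) (ε : ℝ) (L : ℕ) (W : Set Src) (a : Src) (t : ℝ) :
    Prop × Option CTree × Prop :=
  (a ∈ W, stat Φ ε L W a t, badc Φ ε L W a t)

/-! ### Live trees -/

theorem live.mem {T : CTree} (h : live Φ ε L W T t) : T.root ∈ W := h.sub T.root_mem_leaves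

theorem live_of_lives_before {T : CTree} (hs : sig Φ ε T < t)
    (h : ∀ r, sig Φ ε T ≤ r → r < t → lives Φ ε L W T r) : live Φ ε L W T t := by
  have h0 := h _ le_rfl hs
  refine ⟨h0.sub, h0.ok, h0.depth, hs.le, fun T' r hr hh => ?_⟩
  exact (h (max r (sig Φ ε T)) (le_max_right _ _) (max_lt hr hs)).nohit T' r (le_max_left _ _) hh

/-- The live tree which began before `t` is unique. -/
theorem live_unique (hΦ : IsPotential Φ) (hε : 0 < ε) (hW : W.Finite) {T T' : CTree}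
    (h : live Φ ε L W T t) (h' : live Φ ε L W T' t) (hr : T.root = T'.root)
    (hs : sig Φ ε T < t) (hs' : sig Φ ε T' < t) : T = T' := by
  have h1 : max (sig Φ ε T) (sig Φ ε T') < t := max_lt hs hs'
  exact lives_unique hΦ hε hW (h.lives_of_lt h1 (le_max_left _ _))
    (h'.lives_of_lt h1 (le_max_right _ _)) hr

/-- A live tree which begins at `t` is a birth or the beginning of a collision. -/
theorem live_sig (hΦ : IsPotential Φ) (hε : 0 < ε) (hW : W.Finite) {T : CTree}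
    (h : live Φ ε L W T t) : (T = leaf T.root ∧ T.root.1 = t) ∨
      ∃ T₀ : CTree, T₀.root = T.root ∧ live Φ ε L W T₀ t ∧ sig Φ ε T₀ < t ∧
        st Φ ε T₀ t = st Φ ε T t := by
  rcases h.sig_le.lt_or_eq with h1 | h1
  · exact Or.inr ⟨T, rfl, h, h1, rfl⟩
  · cases T with
    | leaf σ => exact Or.inl ⟨rfl, h1⟩
    | node x y =>
      right
      have h2 := live_left hΦ hε hW h
      rw [h1] at h2
      have h3 := ((alive_iff_live hΦ hε hW).1 h2).1
      refine ⟨x, rfl, h3, ?_, ?_⟩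
      · exact (sig_le_ext hΦ hε h.ok.1).trans_lt (h.ok.2.2.2.2.2.1.trans_eq h1)
      · have := st_sig hΦ hε h.ok
        rw [h1] at this
        exact this.symm

/-- Live trees at time `t` only depend on the statuses before `t`. -/
theorem live_congr (hΦ : IsPotential Φ) (hε : 0 < ε) (h₁ : W₁.Finite) (h₂ : W₂.Finite)
    {T : CTree} (hm : T.root ∈ W₁ → T.root ∈ W₂)
    (hs : ∀ r < t, stat Φ ε L W₁ T.root r = stat Φ ε L W₂ T.root r)
    (h : live Φ ε L W₁ T t) (hlt : sig Φ ε T < t ∨ T = leaf T.root) : live Φ ε L W₂ T t := by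
  rcases h.sig_le.lt_or_eq with h1 | h1
  · refine live_of_lives_before h1 fun r hr hrt => ?_
    have h2 : stat Φ ε L W₁ T.root r = some T :=
      (stat_eq_some_iff hΦ hε h₁).2 ⟨rfl, h.lives_of_lt hrt hr⟩
    rw [hs r hrt] at h2
    exact ((stat_eq_some_iff hΦ hε h₂).1 h2).2
  · rcases hlt with h2 | h2
    · exact absurd h1 h2.ne
    · have h3 := h.ok
      have h4 := h.depth
      have h5 := hm (live.mem h)
      rw [h2] at h1 h3 h4 ⊢
      refine ⟨?_, h3, h4, h1.le, fun T' r hr hh => ?_⟩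
      · rintro x hx
        rw [mem_singleton_iff.1 hx]
        exact h5
      · have h6 : T.root.1 ≤ r := hh.1
        have h7 : T.root.1 = t := h1
        linarith

theorem live_congr' (hΦ : IsPotential Φ) (hε : 0 < ε) (h₁ : W₁.Finite) (h₂ : W₂.Finite)
    {T : CTree} (hm : T.root ∈ W₁ → T.root ∈ W₂)
    (hs : ∀ r < t, stat Φ ε L W₁ T.root r = stat Φ ε L W₂ T.root r)
    (h : live Φ ε L W₁ T t) : ∃ T' : CTree, T'.root = T.root ∧ live Φ ε L W₂ T' t ∧
      st Φ ε T' t = st Φ ε T t := by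
  rcases live_sig hΦ hε h₁ h with h1 | ⟨T₀, h1, h2, h3, h4⟩
  · exact ⟨T, rfl, live_congr hΦ hε h₁ h₂ hm hs h (Or.inr h1.1), rfl⟩
  · refine ⟨T₀, h1, live_congr hΦ hε h₁ h₂ ?_ ?_ h2 (Or.inl h3), h4⟩
    · rw [h1]; exact hm
    · rw [h1]; exact hs

/-- Alive trees at time `t` only depend on the statuses before `t`. -/
theorem alive_congr (hΦ : IsPotential Φ) (hε : 0 < ε) (h₁ : W₁.Finite) (h₂ : W₂.Finite)
    {T : CTree} (hm : T.root ∈ W₁ → T.root ∈ W₂)
    (hs : ∀ r < t, stat Φ ε L W₁ T.root r = stat Φ ε L W₂ T.root r)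
    (h : alive Φ ε L W₁ T t) : alive Φ ε L W₂ T t := by
  rw [alive_iff_live hΦ hε h₁] at h
  rw [alive_iff_live hΦ hε h₂]
  refine ⟨live_congr hΦ hε h₁ h₂ hm hs h.1 ?_, h.2⟩
  cases T with
  | leaf σ => exact Or.inr rfl
  | node x y => exact Or.inl ((sig_lt_ext hΦ hε h.1.ok).trans_le h.2)

/-! ### Contacts -/

theorem mcon.symm (h : mcon Φ ε L W t a b) : mcon Φ ε L W t b a := by
  obtain ⟨h0, T, T', h1, h2, h3, h4, h5⟩ := h
  exact ⟨h0.symm, T', T, h2, h1, h4, h3, h5.symm⟩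

theorem mcon_comm : mcon Φ ε L W t a b ↔ mcon Φ ε L W t b a := ⟨mcon.symm, mcon.symm⟩

theorem mcon.mem (h : mcon Φ ε L W t a b) : a ∈ W ∧ b ∈ W := by
  obtain ⟨-, T, T', rfl, rfl, h3, h4, -⟩ := h
  exact ⟨live.mem h3, live.mem h4⟩

theorem live.birth_le (hΦ : IsPotential Φ) (hε : 0 < ε) {T : CTree} (h : live Φ ε L W T t) :
    T.root.1 ≤ t := (root_birth_le_sig hΦ hε h.ok).trans h.sig_le

theorem root_birth_nonneg {T : CTree} (h : ok Φ ε T) : 0 ≤ T.root.1 := by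
  induction T with
  | leaf σ => exact h
  | node x y ihx _ => exact ihx h.1

theorem mcon.birth_le (hΦ : IsPotential Φ) (hε : 0 < ε) (h : mcon Φ ε L W t a b) :
    a.1 ≤ t ∧ b.1 ≤ t := by
  obtain ⟨-, T, T', rfl, rfl, h3, h4, -⟩ := h
  exact ⟨live.birth_le hΦ hε h3, live.birth_le hΦ hε h4⟩

theorem mcon.nonneg (hΦ : IsPotential Φ) (hε : 0 < ε) (h : mcon Φ ε L W t a b) : 0 ≤ t := by
  obtain ⟨-, T, T', rfl, rfl, h3, h4, -⟩ := h
  exact (root_birth_nonneg h3.ok).trans (live.birth_le hΦ hε h3)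

/-- Contacts at time `t` only depend on the statuses before `t`. -/
theorem mcon_congr (hΦ : IsPotential Φ) (hε : 0 < ε) (h₁ : W₁.Finite) (h₂ : W₂.Finite)
    (ha : a ∈ W₁ → a ∈ W₂) (hb : b ∈ W₁ → b ∈ W₂)
    (hsa : ∀ r < t, stat Φ ε L W₁ a r = stat Φ ε L W₂ a r)
    (hsb : ∀ r < t, stat Φ ε L W₁ b r = stat Φ ε L W₂ b r)
    (h : mcon Φ ε L W₁ t a b) : mcon Φ ε L W₂ t a b := by
  obtain ⟨h0, T, T', rfl, rfl, h3, h4, h5⟩ := h
  obtain ⟨S, k1, k2, k3⟩ := live_congr' hΦ hε h₁ h₂ ha hsa h3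
  obtain ⟨S', k1', k2', k3'⟩ := live_congr' hΦ hε h₁ h₂ hb hsb h4
  exact ⟨h0, S, S', k1, k1', k2, k2', by rw [k3, k3']; exact h5⟩

theorem mcon_of_stat (hΦ : IsPotential Φ) (hε : 0 < ε) (hW : W.Finite) (hab : a ≠ b)
    {T T' : CTree} (h : stat Φ ε L W a t = some T) (h' : stat Φ ε L W b t = some T')
    (hc : Ctc ε (st Φ ε T t) (st Φ ε T' t)) : mcon Φ ε L W t a b := by
  rw [stat_eq_some_iff hΦ hε hW] at h h'
  exact ⟨hab, T, T', h.1, h'.1, h.2.live, h'.2.live, hc⟩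

/-- The position at time `t` of a live tree is the one of the status. -/
theorem st_of_live (hΦ : IsPotential Φ) (hε : 0 < ε) (hW : W.Finite) {S T : CTree}
    (h : live Φ ε L W S t) (h' : stat Φ ε L W S.root t = some T) :
    st Φ ε S t = st Φ ε T t := by
  rw [stat_eq_some_iff hΦ hε hW] at h'
  have key : ∀ S T : CTree, live Φ ε L W S t → lives Φ ε L W T t → T.root = S.root →
      sig Φ ε S < t → st Φ ε S t = st Φ ε T t := by
    intro S T h h' hr hs
    rcases live_sig hΦ hε hW h'.live with ⟨h1, h2⟩ | ⟨T₀, h1, h2, h3, h4⟩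
    · exact absurd (root_birth_le_sig hΦ hε h.ok) (not_le.2 (by rw [← hr, h2]; exact hs))
    · have := live_unique hΦ hε hW h h2 (hr.symm.trans h1.symm) hs h3
      rw [this, h4]
  rcases live_sig hΦ hε hW h with ⟨h1, h2⟩ | ⟨S₀, h1, h2, h3, h4⟩
  · -- birth
    rcases live_sig hΦ hε hW h'.2.live with ⟨h5, h6⟩ | ⟨T₀, h5, h6, h7, h8⟩
    · rw [h1, h5, h'.1]
    · exact absurd (root_birth_le_sig hΦ hε h6.ok)
        (not_le.2 (by rw [h5, h'.1, h2]; exact h7))
  · rw [← h4]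
    exact key S₀ T h2 h'.2 (h'.1.trans h1.symm) h3

/-- A contact between living particles in terms of the statuses. -/
theorem mcon_iff_stat (hΦ : IsPotential Φ) (hε : 0 < ε) (hW : W.Finite) {T T' : CTree}
    (h : stat Φ ε L W a t = some T) (h' : stat Φ ε L W b t = some T') :
    mcon Φ ε L W t a b ↔ a ≠ b ∧ Ctc ε (st Φ ε T t) (st Φ ε T' t) := by
  constructor
  · rintro ⟨h0, S, S', rfl, rfl, h3, h4, h5⟩
    rw [st_of_live hΦ hε hW h3 h, st_of_live hΦ hε hW h4 h'] at h5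
    exact ⟨h0, h5⟩
  · rintro ⟨h0, h5⟩
    exact mcon_of_stat hΦ hε hW h0 h h' h5

theorem part_comm (hΦ : IsPotential Φ) : part Φ ε L W t a b ↔ part Φ ε L W t b a := by
  constructor <;>
  · rintro ⟨T, T', h1, h2, h3⟩
    exact ⟨T', T, h2, h1, h3.symm hΦ⟩

/-! ### Right neighbourhoods -/

theorem stat_unborn (hΦ : IsPotential Φ) (hε : 0 < ε) (h : t < a.1) :
    stat Φ ε L W a t = none := by
  rw [stat_eq_none_iff]
  intro T hT hl
  have := live.birth_le hΦ hε hl.live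
  rw [hT] at this
  linarith

theorem stat_not_mem (h : a ∉ W) :
    stat Φ ε L W a t = none := by
  rw [stat_eq_none_iff]
  intro T hT hl
  exact h (hT ▸ live.mem hl.live)

/-- The status is constant on a right neighbourhood. -/
theorem stat_right' (hΦ : IsPotential Φ) (hε : 0 < ε) (hW : W.Finite) (a : Src) (t : ℝ) :
    ∃ δ > 0, ∀ r, t ≤ r → r < t + δ → stat Φ ε L W a r = stat Φ ε L W a t := by
  rcases h : stat Φ ε L W a t with _ | T
  · rcases le_or_gt a.1 t with h1 | h1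
    · exact ⟨1, one_pos, fun r hr _ => stat_none_mono hΦ hε hW h hr h1⟩
    · exact ⟨a.1 - t, by linarith, fun r _ hr => stat_unborn hΦ hε (by linarith)⟩
  · obtain ⟨s, hs, h1⟩ := stat_right hΦ hε hW h
    exact ⟨s - t, by linarith, fun r hr hr' => h1 r ⟨hr, by linarith⟩⟩

theorem not_dclosed_of {A : Set ℝ} (h : ∀ x, x ∉ A → ∃ δ > 0, ∀ r, x ≤ r → r < x + δ → r ∉ A) :
    DClosed A := by
  intro x hx
  by_contra hcon
  obtain ⟨δ, hδ, h1⟩ := h x hcon
  obtain ⟨s, hs, h2, h3⟩ := hx δ hδ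
  exact h1 s h2 h3 hs

theorem right_of_dclosed {A : Set ℝ} (h : DClosed A) {x : ℝ} (hx : x ∉ A) :
    ∃ δ > 0, ∀ r, x ≤ r → r < x + δ → r ∉ A := by
  by_contra hcon
  push Not at hcon
  refine hx (h x fun δ hδ => ?_)
  obtain ⟨r, h1, h2, h3⟩ := hcon δ hδ
  exact ⟨r, h3, h1, h2⟩

/-- The derivative of the position along a tree. -/
theorem st_hasDeriv (hΦ : IsPotential Φ) (hε : 0 < ε) {T : CTree} (h : ok Φ ε T) (t : ℝ) :
    HasDerivAt (fun r => (st Φ ε T r).1) (st Φ ε T t).2 t := by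
  cases T with
  | leaf σ => exact M.hasDerivAt_free σ.2.1 t
  | node x y => exact (hasDerivAt_pairLine hΦ hε h.2.2.2.1.1 t).1

/-- Just after `t` the live trees are the statuses at `t`. -/
theorem live_right' (hΦ : IsPotential Φ) (hε : 0 < ε) (hW : W.Finite) (a : Src) (t : ℝ) :
    ∃ δ > 0, ∀ r, t < r → r < t + δ → ∀ S : CTree, S.root = a → live Φ ε L W S r →
      ∃ T, stat Φ ε L W a t = some T ∧ st Φ ε S r = st Φ ε T r := by
  obtain ⟨δ, hδ, h1⟩ := stat_right' (L := L) hΦ hε hW a t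
  obtain ⟨δ', hδ', h2⟩ : ∃ δ' > 0, ∀ r, t < r → r < t + δ' → a.1 ≠ r := by
    rcases le_or_gt a.1 t with h | h
    · exact ⟨1, one_pos, fun r hr _ h' => by linarith⟩
    · exact ⟨a.1 - t, by linarith, fun r _ hr h' => by linarith⟩
  refine ⟨min δ δ', lt_min hδ hδ', fun r hr hr' S hS hl => ?_⟩
  have hr1 : r < t + δ := hr'.trans_le (by linarith [min_le_left δ δ'])
  have hr2 : r < t + δ' := hr'.trans_le (by linarith [min_le_right δ δ'])
  rcases live_sig hΦ hε hW hl with ⟨-, h3⟩ | ⟨T₀, h3, h4, h5, h6⟩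
  · rw [hS] at h3
    exact absurd h3 (h2 r hr hr2)
  · have h7 : max t (sig Φ ε T₀) < r := max_lt hr h5
    have h8 := h4.lives_of_lt h7 (le_max_right _ _)
    refine ⟨T₀, ?_, h6.symm⟩
    rw [← h1 _ (le_max_left t (sig Φ ε T₀)) (h7.trans hr1), stat_eq_some_iff hΦ hε hW]
    exact ⟨h3.trans hS, h8⟩

/-- Contacts just after `t` happen between the trees of the statuses at `t`. -/
theorem mcon_right (hΦ : IsPotential Φ) (hε : 0 < ε) (hW : W.Finite) (a b : Src) (t : ℝ) :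
    ∃ δ > 0, ∀ r, t < r → r < t + δ → mcon Φ ε L W r a b → ∃ T T' : CTree,
      stat Φ ε L W a t = some T ∧ stat Φ ε L W b t = some T' ∧
        Ctc ε (st Φ ε T r) (st Φ ε T' r) := by
  obtain ⟨δ, hδ, h1⟩ := live_right' (L := L) hΦ hε hW a t
  obtain ⟨δ', hδ', h2⟩ := live_right' (L := L) hΦ hε hW b t
  refine ⟨min δ δ', lt_min hδ hδ', fun r hr hr' h => ?_⟩
  obtain ⟨-, S, S', h3, h4, h5, h6, h7⟩ := h
  obtain ⟨T, h8, h9⟩ := h1 r hr (hr'.trans_le (by linarith [min_le_left δ δ'])) S h3 h5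
  obtain ⟨T', h8', h9'⟩ := h2 r hr (hr'.trans_le (by linarith [min_le_right δ δ'])) S' h4 h6
  exact ⟨T, T', h8, h8', by rw [← h9, ← h9']; exact h7⟩

theorem mcon_closed (hΦ : IsPotential Φ) (hε : 0 < ε) (hW : W.Finite) (a b : Src) :
    DClosed {t | mcon Φ ε L W t a b} := by
  intro x hx
  by_contra hcon
  obtain ⟨δ, hδ, h1⟩ := mcon_right (L := L) hΦ hε hW a b x
  have hne : ∀ s, mcon Φ ε L W s a b → x ≤ s → x < s := fun s hs hxs =>
    lt_of_le_of_ne hxs fun h => hcon (h ▸ hs)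
  obtain ⟨s, hs, hs1, hs2⟩ := hx δ hδ
  obtain ⟨T, T', h2, h3, -⟩ := h1 s (hne s hs hs1) hs2 hs
  have hab : a ≠ b := hs.1
  refine hcon (mcon_of_stat hΦ hε hW hab h2 h3 ?_)
  have h4 := ((stat_eq_some_iff hΦ hε hW).1 h2).2.ok
  have h5 := ((stat_eq_some_iff hΦ hε hW).1 h3).2.ok
  refine ctc_of_frequently hε.le (X := st Φ ε T) (Y := st Φ ε T')
    (st_hasDeriv hΦ hε h4 x).hasDerivWithinAt (st_hasDeriv hΦ hε h5 x).hasDerivWithinAt ?_
  rw [frequently_iff]
  intro U hU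
  obtain ⟨u, hu, hu'⟩ := mem_nhdsGT_iff_exists_Ioo_subset.1 hU
  have hu : x < u := hu
  obtain ⟨r, hr, hr1, hr2⟩ := hx (min δ (u - x)) (lt_min hδ (by linarith))
  have hr3 := hne r hr hr1
  have hr4 : r < x + δ := hr2.trans_le (by linarith [min_le_left δ (u - x)])
  have hr5 : r < u := hr2.trans_le (by linarith [min_le_right δ (u - x)])
  obtain ⟨S, S', h6, h7, h8⟩ := h1 r hr3 hr4 hr
  rw [h2] at h6
  rw [h3] at h7
  rw [Option.some_inj] at h6 h7
  subst h6 h7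
  exact ⟨r, hu' ⟨hr3, hr5⟩, h8⟩

/-- A colliding pair stays one for a short time. -/
theorem part_right (hΦ : IsPotential Φ) (hε : 0 < ε) (hW : W.Finite)
    (h : part Φ ε L W t a b) : ∃ δ > 0, ∀ r, t ≤ r → r < t + δ → part Φ ε L W r a b := by
  obtain ⟨T, T', h1, h2, x, y, rfl, rfl, h3⟩ := h
  obtain ⟨δ, hδ, h4⟩ := stat_right' (L := L) hΦ hε hW a t
  obtain ⟨δ', hδ', h5⟩ := stat_right' (L := L) hΦ hε hW b t
  refine ⟨min (min δ δ') (ext Φ ε (node x y) - t), lt_min (lt_min hδ hδ') (by linarith),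
    fun r hr hr' => ?_⟩
  have k1 := min_le_left (min δ δ') (ext Φ ε (node x y) - t)
  have k2 := min_le_right (min δ δ') (ext Φ ε (node x y) - t)
  have k3 := min_le_left δ δ'
  have k4 := min_le_right δ δ'
  refine ⟨node x y, node y x, ?_, ?_, x, y, rfl, rfl, by linarith⟩
  · rw [h4 r hr (by linarith), h1]
  · rw [h5 r hr (by linarith), h2]

theorem npcon_closed (hΦ : IsPotential Φ) (hε : 0 < ε) (hW : W.Finite) (a b : Src) :
    DClosed {t | mcon Φ ε L W t a b ∧ ¬part Φ ε L W t a b} := by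
  refine not_dclosed_of fun x hx => ?_
  by_cases h : mcon Φ ε L W x a b
  · have h1 : part Φ ε L W x a b := by
      by_contra hcon
      exact hx ⟨h, hcon⟩
    obtain ⟨δ, hδ, h2⟩ := part_right hΦ hε hW h1
    exact ⟨δ, hδ, fun r hr hr' hh => hh.2 (h2 r hr hr')⟩
  · obtain ⟨δ, hδ, h2⟩ := right_of_dclosed (mcon_closed (L := L) hΦ hε hW a b) h
    exact ⟨δ, hδ, fun r hr hr' hh => h2 r hr hr' hh.1⟩

theorem dclosed_le (c : ℝ) : DClosed {t : ℝ | c ≤ t} := DClosed.of_isClosed isClosed_Ici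

theorem badi_closed (hΦ : IsPotential Φ) (hε : 0 < ε) (hW : W.Finite) (a : Src) :
    DClosed {t | badi Φ ε L W a t} := by
  by_cases ha : a ∈ W
  · have h1 : DClosed {t | stat Φ ε L W a t = none} := by
      refine not_dclosed_of fun x hx => ?_
      obtain ⟨δ, hδ, h⟩ := stat_right' (L := L) hΦ hε hW a x
      refine ⟨δ, hδ, fun r hr hr' hh => hx ?_⟩
      rw [mem_ofPred_eq] at hh ⊢
      rw [← h r hr hr', hh]
    have h2 : DClosed {t | ∃ c ∈ hW.toFinset,
        t ∈ {t | mcon Φ ε L W t a c ∧ ¬part Φ ε L W t a c}} :=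
      DClosed.biUnion _ fun c _ => npcon_closed hΦ hε hW a c
    have h3 := ((dclosed_le 0).inter (dclosed_le a.1)).inter (h1.union h2)
    convert h3 using 1
    ext t
    simp only [badi, mem_ofPred_eq, mem_inter_iff, mem_union, Finite.mem_toFinset]
    constructor
    · rintro ⟨-, h4, h5, h6⟩
      refine ⟨⟨h4, h5⟩, h6.imp id ?_⟩
      rintro ⟨c, hc, h7⟩
      exact ⟨c, hc.mem.2, hc, h7⟩
    · rintro ⟨⟨h4, h5⟩, h6⟩
      refine ⟨ha, h4, h5, h6.imp id ?_⟩
      rintro ⟨c, -, h7⟩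
      exact ⟨c, h7⟩
  · convert DClosed.empty
    ext t
    simp only [mem_ofPred_eq, mem_empty_iff_false, iff_false]
    exact fun h => ha h.1

theorem badc_closed (hΦ : IsPotential Φ) (hε : 0 < ε) (hW : W.Finite) (a : Src) :
    DClosed {t | badc Φ ε L W a t} := (badi_closed hΦ hε hW a).up

theorem badc.mono (h : badc Φ ε L W a s) (hst : s ≤ t) : badc Φ ε L W a t := by
  obtain ⟨r, hr, h⟩ := h
  exact ⟨r, hr.trans hst, h⟩

theorem badc.mem (h : badc Φ ε L W a t) : a ∈ W := by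
  obtain ⟨r, -, h⟩ := h
  exact h.1

theorem badc.nonneg (h : badc Φ ε L W a t) : 0 ≤ t := by
  obtain ⟨r, hr, h⟩ := h
  exact h.2.1.trans hr

theorem badc.birth_le (h : badc Φ ε L W a t) : a.1 ≤ t := by
  obtain ⟨r, hr, h⟩ := h
  exact h.2.2.1.trans hr

/-- The full status is constant on a right neighbourhood. -/
theorem sta_right (hΦ : IsPotential Φ) (hε : 0 < ε) (hW : W.Finite) (a : Src) (t : ℝ) :
    ∃ δ > 0, ∀ r, t ≤ r → r < t + δ → sta Φ ε L W a r = sta Φ ε L W a t := by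
  obtain ⟨δ, hδ, h1⟩ := stat_right' (L := L) hΦ hε hW a t
  by_cases h : badc Φ ε L W a t
  · refine ⟨δ, hδ, fun r hr hr' => ?_⟩
    have h2 : badc Φ ε L W a r := h.mono hr
    simp only [sta, h1 r hr hr', h, h2]
  · obtain ⟨δ', hδ', h2⟩ := right_of_dclosed (badc_closed (L := L) hΦ hε hW a) h
    refine ⟨min δ δ', lt_min hδ hδ', fun r hr hr' => ?_⟩
    have h3 : ¬badc Φ ε L W a r := h2 r hr (hr'.trans_le (by linarith [min_le_right δ δ']))
    simp only [sta, h1 r hr (hr'.trans_le (by linarith [min_le_left δ δ'])), h, h3]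

theorem sta_closed (hΦ : IsPotential Φ) (hε : 0 < ε) (h₁ : W₁.Finite) (h₂ : W₂.Finite)
    (a : Src) : DClosed {s | sta Φ ε L W₁ a s ≠ sta Φ ε L W₂ a s} := by
  refine not_dclosed_of fun x hx => ?_
  obtain ⟨δ, hδ, h3⟩ := sta_right (L := L) hΦ hε h₁ a x
  obtain ⟨δ', hδ', h4⟩ := sta_right (L := L) hΦ hε h₂ a x
  refine ⟨min δ δ', lt_min hδ hδ', fun r hr hr' hh => hx fun h => hh ?_⟩
  rw [h3 r hr (hr'.trans_le (by linarith [min_le_left δ δ'])),
    h4 r hr (hr'.trans_le (by linarith [min_le_right δ δ']))]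
  exact h

end Vale.Agent.P119.RB
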