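import Vale.Agent.P119.M.Loc
import Vale.Agent.P119.RB.Status

/-!
# P119: new differences come from contacts with old ones (`helper498`)

* `mcon_of_hit`: a hit of the current tree of `a` by an alive tree is an M-contact of `a`, or of the
  partner of `a`, with the root of that tree;
* `sta_new`: if the full statuses of `a` in two worlds differ at time `t` for the first time then, in one
  of the worlds, `a` (or a particle `b` in M-contact with `a`, not different before) is in M-contact with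
  a particle which was already different before `t`.
-/

open MeasureTheory Filter Topology Set

noncomputable section

namespace Vale.Agent.P119.RB

open M CTree KU FB

variable {Φ : E3 → ℝ} {ε : ℝ} {L : ℕ} {W W₁ W₂ : Set Src} {a b c : Src} {s t : ℝ}

/-- Two partners are in contact during their collision. -/
theorem ctc_partner (hΦ : IsPotential Φ) (hε : 0 < ε) {x y : CTree} (hok : ok Φ ε (node x y))
    (h1 : sig Φ ε (node x y) ≤ t) (h2 : t < ext Φ ε (node x y)) :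
    Ctc ε (st Φ ε (node x y) t) (st Φ ε (node y x) t) := by
  rcases h1.eq_or_lt with h1 | h1
  · subst h1
    rw [st_before hΦ hε hok le_rfl, st_before hΦ hε (ok_swap hΦ hok) (sig_swap x y).ge]
    exact ctc_hitT hε hok.2.2.2.1
  · refine ctc_of_lt ?_
    rw [st_swap hΦ x y t]
    exact (dist_pairLine_lt_iff hΦ hε hok.2.2.2.2.1 hok.2.2.2.1.2 t).2 ⟨h1, h2⟩

/-- Two partners are in M-contact. -/
theorem mcon_partner (hΦ : IsPotential Φ) (hε : 0 < ε) {x y : CTree}
    (h : live Φ ε L W (node x y) t) (h2 : t < ext Φ ε (node x y)) :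
    mcon Φ ε L W t x.root y.root := by
  refine ⟨fun hr => ?_, node x y, node y x, rfl, rfl, h, live_swap hΦ h h2.le,
    ctc_partner hΦ hε h.ok h.sig_le h2⟩
  exact disjoint_left.1 h.ok.2.2.1 x.root_mem_leaves (hr ▸ y.root_mem_leaves)

/-- **A hit of the current tree is a contact of the particle or of its partner.** -/
theorem mcon_of_hit (hΦ : IsPotential Φ) (hε : 0 < ε) (hW : W.Finite) {T T' : CTree}
    (h : live Φ ε L W T t) (hs : sig Φ ε T < t ∨ T = leaf T.root) (hh : hit Φ ε T T' t)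
    (h' : alive Φ ε L W T' t) : mcon Φ ε L W t T.root T'.root ∨
      ∃ x y, T = node x y ∧ t < ext Φ ε T ∧ mcon Φ ε L W t T.root y.root ∧
        mcon Φ ε L W t y.root T'.root := by
  have hT' := (alive_iff_live hΦ hε hW).1 h'
  have hst' := st_after hΦ hε hT'.1.ok hT'.2
  cases T with
  | leaf σ =>
    obtain ⟨h1, h2, h3, h4⟩ := hh
    refine Or.inl ⟨fun hr => h3 ?_, leaf σ, T', rfl, rfl, h, hT'.1, ?_⟩
    · change σ = T'.root at hr
      rw [hr]
      exact T'.root_mem_leaves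
    · rw [hst']
      exact h4
  | node x y =>
    have hs' : sig Φ ε (node x y) < t := by
      rcases hs with hs | hs
      · exact hs
      · exact absurd hs (by rintro ⟨⟩)
    rcases hh with ⟨h1, -⟩ | ⟨-, h2, h3, h4⟩
    · exact absurd h1 (not_le.2 hs')
    · rcases h4 with h4 | ⟨h4, h5⟩
      · refine Or.inl ⟨fun hr => ?_, node x y, T', rfl, rfl, h, hT'.1, ?_⟩
        · exact disjoint_left.1 h3 (node x y).root_mem_leaves (hr ▸ T'.root_mem_leaves)
        · rw [hst']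
          exact h4
      · refine Or.inr ⟨x, y, rfl, h4, mcon_partner (x := x) hΦ hε h h4, fun hr => ?_, node y x, T',
          rfl, rfl, live_swap hΦ h h4.le, hT'.1, ?_⟩
        · exact disjoint_left.1 h3 (Or.inr y.root_mem_leaves) (hr ▸ T'.root_mem_leaves)
        · rw [hst', st_swap hΦ x y t]
          exact h5

/-- The case without partner. -/
theorem mcon_of_hit' (hΦ : IsPotential Φ) (hε : 0 < ε) (hW : W.Finite) {T T' : CTree}
    (h : live Φ ε L W T t) (hs : sig Φ ε T < t ∨ T = leaf T.root) (hh : hit Φ ε T T' t)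
    (h' : alive Φ ε L W T' t) (he : ext Φ ε T ≤ t) : mcon Φ ε L W t T.root T'.root := by
  rcases mcon_of_hit hΦ hε hW h hs hh h' with h1 | ⟨-, -, -, h1, -⟩
  · exact h1
  · exact absurd h1 (not_lt.2 he)

theorem sta_ne_of_mem (h : ¬(a ∈ W₁ ↔ a ∈ W₂)) : sta Φ ε L W₁ a t ≠ sta Φ ε L W₂ a t := by
  intro heq
  exact h (by rw [(Prod.mk.inj heq).1])

theorem sta_ne_of_stat (h : stat Φ ε L W₁ a t ≠ stat Φ ε L W₂ a t) :
    sta Φ ε L W₁ a t ≠ sta Φ ε L W₂ a t := fun heq =>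
  h (Prod.mk.inj (Prod.mk.inj heq).2).1

theorem mem_of_sta (h : sta Φ ε L W₁ a t = sta Φ ε L W₂ a t) : a ∈ W₁ ↔ a ∈ W₂ := by
  by_contra hcon
  exact sta_ne_of_mem hcon h

theorem stat_of_sta (h : sta Φ ε L W₁ a t = sta Φ ε L W₂ a t) :
    stat Φ ε L W₁ a t = stat Φ ε L W₂ a t := by
  by_contra hcon
  exact sta_ne_of_stat hcon h

theorem badc_of_sta (h : sta Φ ε L W₁ a t = sta Φ ε L W₂ a t) :
    badc Φ ε L W₁ a t ↔ badc Φ ε L W₂ a t := by
  have := (Prod.mk.inj (Prod.mk.inj h).2).2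
  rw [this]

/-- The root of a tree which is alive at `t` in one world only was already different before `t`. -/
theorem sta_ne_of_xAlive (hΦ : IsPotential Φ) (hε : 0 < ε) (h₁ : W₁.Finite) (h₂ : W₂.Finite)
    {T : CTree} (h : XAlive Φ ε L W₁ W₂ T t) :
    ∃ s < t, sta Φ ε L W₁ T.root s ≠ sta Φ ε L W₂ T.root s := by
  rcases h.diff hΦ hε h₁ h₂ with hr | ⟨r, h1, h2⟩
  · refine ⟨t - 1, by linarith, sta_ne_of_mem fun hiff => ?_⟩
    rcases h with ⟨h3, -⟩ | ⟨h3, -⟩
    · have h4 := (alive_pre h3).sub T.root_mem_leaves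
      exact hr.elim (fun h5 => h5 h4) fun h5 => h5 (hiff.1 h4)
    · have h4 := (alive_pre h3).sub T.root_mem_leaves
      exact hr.elim (fun h5 => h5 (hiff.2 h4)) fun h5 => h5 h4
  · exact ⟨r, h1, sta_ne_of_stat h2⟩

/-- **New differences come from contacts with old ones.** -/
theorem sta_new (hΦ : IsPotential Φ) (hε : 0 < ε) (h₁ : W₁.Finite) (h₂ : W₂.Finite)
    (ha₁ : a ∈ W₁) (ha₂ : a ∈ W₂) (hne : sta Φ ε L W₁ a t ≠ sta Φ ε L W₂ a t)
    (hlt : ∀ s < t, sta Φ ε L W₁ a s = sta Φ ε L W₂ a s) :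
    ∃ b z, (∀ s < t, sta Φ ε L W₁ b s = sta Φ ε L W₂ b s) ∧
      (∃ s < t, sta Φ ε L W₁ z s ≠ sta Φ ε L W₂ z s) ∧
      (((b = a ∨ mcon Φ ε L W₁ t a b) ∧ mcon Φ ε L W₁ t b z) ∨
        ((b = a ∨ mcon Φ ε L W₂ t a b) ∧ mcon Φ ε L W₂ t b z)) := by
  -- it is enough to have a chain of one or two contacts
  have two : ∀ V : Set Src, V = W₁ ∨ V = W₂ → ∀ b z, (b = a ∨ mcon Φ ε L V t a b) →
      mcon Φ ε L V t b z → (∃ s < t, sta Φ ε L W₁ z s ≠ sta Φ ε L W₂ z s) →
      ∃ b z, (∀ s < t, sta Φ ε L W₁ b s = sta Φ ε L W₂ b s) ∧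
      (∃ s < t, sta Φ ε L W₁ z s ≠ sta Φ ε L W₂ z s) ∧
      (((b = a ∨ mcon Φ ε L W₁ t a b) ∧ mcon Φ ε L W₁ t b z) ∨
        ((b = a ∨ mcon Φ ε L W₂ t a b) ∧ mcon Φ ε L W₂ t b z)) := by
    intro V hV b z hb hz hd
    by_cases hbd : ∀ s < t, sta Φ ε L W₁ b s = sta Φ ε L W₂ b s
    · refine ⟨b, z, hbd, hd, ?_⟩
      rcases hV with rfl | rfl
      · exact Or.inl ⟨hb, hz⟩
      · exact Or.inr ⟨hb, hz⟩
    · push Not at hbd
      rcases hb with rfl | hb
      · obtain ⟨r, h1, h2⟩ := hbd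
        exact absurd (hlt r h1) h2
      · refine ⟨a, b, hlt, hbd, ?_⟩
        rcases hV with rfl | rfl
        · exact Or.inl ⟨Or.inl rfl, hb⟩
        · exact Or.inr ⟨Or.inl rfl, hb⟩
  by_cases hst : stat Φ ε L W₁ a t = stat Φ ε L W₂ a t
  · -- the statuses agree, `badc` differs
    have key : ∀ V₁ V₂ : Set Src, V₁.Finite → V₂.Finite → a ∈ V₂ →
        stat Φ ε L V₁ a t = stat Φ ε L V₂ a t →
        (∀ s < t, sta Φ ε L V₁ a s = sta Φ ε L V₂ a s) → badc Φ ε L V₁ a t →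
        ¬badc Φ ε L V₂ a t → ∃ z, (∃ s < t, sta Φ ε L V₁ z s ≠ sta Φ ε L V₂ z s) ∧
          mcon Φ ε L V₁ t a z := by
      intro V₁ V₂ hV₁ hV₂ ha hs hl hb hnb
      obtain ⟨r, hr, hbr⟩ := hb
      have hrt : r = t := by
        by_contra hcon
        have h1 : r < t := lt_of_le_of_ne hr hcon
        have h2 : badc Φ ε L V₁ a r := ⟨r, le_rfl, hbr⟩
        exact hnb (((badc_of_sta (hl r h1)).1 h2).mono hr)
      subst hrt
      obtain ⟨h3, h4, h5, h6⟩ := hbr
      have h7 : stat Φ ε L V₂ a r ≠ none := fun h =>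
        hnb ⟨r, le_rfl, ha, h4, h5, Or.inl h⟩
      rcases h6 with h6 | ⟨c, h6, h8⟩
      · exact absurd (hs ▸ h6) h7
      · refine ⟨c, ?_, h6⟩
        by_contra hcon
        push Not at hcon
        have h9 : mcon Φ ε L V₂ r a c := by
          refine mcon_congr hΦ hε hV₁ hV₂ (fun _ => ha) ?_
            (fun q hq => stat_of_sta (hl q hq)) (fun q hq => stat_of_sta (hcon q hq)) h6
          exact (mem_of_sta (hcon (r - 1) (by linarith))).1
        have h10 : part Φ ε L V₂ r a c := by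
          by_contra hnp
          exact hnb ⟨r, le_rfl, ha, h4, h5, Or.inr ⟨c, h9, hnp⟩⟩
        obtain ⟨T, T', k1, k2, x, y, rfl, rfl, k3⟩ := h10
        have k4 : c = y.root := ((stat_eq_some_iff hΦ hε hV₂).1 k2).1.symm
        rw [← hs] at k1
        have k5 := stat_partner hΦ hε hV₁ k1 k3
        rw [← k4] at k5
        exact h8 ⟨_, _, k1, k5, x, y, rfl, rfl, k3⟩
    by_cases hb : badc Φ ε L W₁ a t
    · by_cases hb' : badc Φ ε L W₂ a t
      · exfalso
        refine hne ?_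
        simp only [sta, hst, hb, hb', ha₁, ha₂]
      · obtain ⟨z, h1, h2⟩ := key W₁ W₂ h₁ h₂ ha₂ hst hlt hb hb'
        exact two W₁ (Or.inl rfl) a z (Or.inl rfl) h2 h1
    · by_cases hb' : badc Φ ε L W₂ a t
      · obtain ⟨z, ⟨r, h0, h1⟩, h2⟩ := key W₂ W₁ h₂ h₁ ha₁ hst.symm
          (fun r hr => (hlt r hr).symm) hb' hb
        exact two W₂ (Or.inr rfl) a z (Or.inl rfl) h2 ⟨r, h0, h1.symm⟩
      · exfalso
        refine hne ?_
        simp only [sta, hst, hb, hb', ha₁, ha₂]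
  · -- the statuses differ
    have hfirst : IsFirst Φ ε L W₁ W₂ a t := ⟨hst, fun r hr => stat_of_sta (hlt r hr)⟩
    obtain ⟨T, S, T', rfl, hl⟩ := loc_step hΦ hε h₁ h₂ hfirst ha₁ ha₂
    have hd := sta_ne_of_xAlive hΦ hε h₁ h₂ hl.xalive
    have hsT : CTree.sig Φ ε T < t ∨ T = leaf T.root := hl.sig.imp_right And.left
    have key : ∀ V : Set Src, V = W₁ ∨ V = W₂ → V.Finite → live Φ ε L V T t →
        (S = T ∨ alive Φ ε L V S t) → alive Φ ε L V T' t →
        ∃ b, (b = T.root ∨ mcon Φ ε L V t T.root b) ∧ mcon Φ ε L V t b T'.root := by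
      intro V hV hVf hT hS hT'
      rcases hl.cases with rfl | ⟨h1, h2, h3, -, -⟩
      · rcases mcon_of_hit hΦ hε hVf hT hsT hl.hit hT' with h1 | ⟨x, y, -, -, h1, h2⟩
        · exact ⟨_, Or.inl rfl, h1⟩
        · exact ⟨_, Or.inr h1, h2⟩
      · have h4 : CTree.ext Φ ε T < t := by rw [← h2]; exact h1.2.2.2.2.2.1
        have h5 : CTree.ext Φ ε S < t := by rw [← h2]; exact h1.2.2.2.2.2.2
        have hSl : live Φ ε L V S t ∧ alive Φ ε L V S t := by
          rcases hS with rfl | hS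
          · exact absurd h1.2.2.1 (CTree.not_disjoint_self _)
          · exact ⟨((alive_iff_live hΦ hε hVf).1 hS).1, hS⟩
        have h6 : CTree.sig Φ ε S < t := (sig_le_ext hΦ hε h1.2.1).trans_lt h5
        exact ⟨S.root, Or.inr (mcon_of_hit' hΦ hε hVf hT hsT h3 hSl.2 h4.le),
          mcon_of_hit' hΦ hε hVf hSl.1 (Or.inl h6) hl.hit hT' h5.le⟩
    rcases hl.xalive with ⟨hx, -⟩ | ⟨hx, -⟩
    · obtain ⟨b, h1, h2⟩ := key W₁ (Or.inl rfl) h₁ hl.live₁
        (hl.cases.imp_right fun h => h.2.2.2.1) hx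
      exact two W₁ (Or.inl rfl) b _ h1 h2 hd
    · obtain ⟨b, h1, h2⟩ := key W₂ (Or.inr rfl) h₂ hl.live₂
        (hl.cases.imp_right fun h => h.2.2.2.2) hx
      exact two W₂ (Or.inr rfl) b _ h1 h2 hd

end Vale.Agent.P119.RB
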