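import Vale.Agent.P119.RB.LemmaH
import Vale.Agent.P119.RB.New
import Vale.Agent.P119.RB.Birth6
import Vale.Agent.P119.FB.Step

/-!
# P119: TRANSFER (`helper909`)

The system of worlds is local (`FB.Sys.Loc`): as long as no exposed particle has different histories
in the two worlds, the particles with the same histories have the same real paths and the same
contacts.
-/

open MeasureTheory Filter Topology Set
open scoped NNReal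

noncomputable section

namespace Vale.Agent.P119.RB

open M CTree KU FB

variable {Φ : E3 → ℝ} {ε : ℝ} {L : ℕ} {X : Finset Src → ℝ → Src → Ph} {W W₁ W₂ : Finset Src}
  {a b : Src} {s t : ℝ}

section transfer

variable {hΦ : IsPotential Φ} {hε : 0 < ε} {hX : IsFam X}

theorem sta_eq_of_not_mem_D (h : a ∉ (sys Φ ε L X hΦ hε hX).D W₁ W₂ t) (hst : s ≤ t) :
    sta Φ ε L (W₁ : Set Src) a s = sta Φ ε L (W₂ : Set Src) a s :=
  FB.Sys.not_mem_D.1 h s hst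

/-- The partner of a particle with the same histories has, if it is not exposed, the same
histories. -/
theorem partner_not_mem_D (hn : ¬(sys Φ ε L X hΦ hε hX).Touch W₁ W₂ s)
    (ha : a ∉ (sys Φ ε L X hΦ hε hX).D W₁ W₂ s) (hp : part Φ ε L (W₁ : Set Src) s a b) :
    b ∉ (sys Φ ε L X hΦ hε hX).D W₁ W₂ s := by
  intro hb
  have h₁ := W₁.finite_toSet
  have h₂ := W₂.finite_toSet
  have nb : ¬(sys Φ ε L X hΦ hε hX).Exp W₁ b s ∧ ¬(sys Φ ε L X hΦ hε hX).Exp W₂ b s := by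
    constructor
    · exact fun h => hn ⟨b, hb, Or.inl h⟩
    · exact fun h => hn ⟨b, hb, Or.inr h⟩
  have hst := stat_of_sta (sta_eq_of_not_mem_D ha le_rfl)
  obtain ⟨T, T', h1, h2, x, y, rfl, rfl, h3⟩ := hp
  have hby : y.root = b := ((stat_eq_some_iff hΦ hε h₁).1 h2).1
  have h4 : stat Φ ε L (W₂ : Set Src) b s = some (node y x) := by
    rw [← hby]
    exact stat_partner hΦ hε h₂ (hst ▸ h1) h3
  have hb₁ : b ∈ (W₁ : Set Src) := by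
    have := live.mem ((stat_eq_some_iff hΦ hε h₁).1 h2).2.live
    rwa [((stat_eq_some_iff hΦ hε h₁).1 h2).1] at this
  have hb₂ : b ∈ (W₂ : Set Src) := by
    have := live.mem ((stat_eq_some_iff hΦ hε h₂).1 h4).2.live
    rwa [((stat_eq_some_iff hΦ hε h₂).1 h4).1] at this
  obtain ⟨r, hr, hne⟩ := hb
  refine hne ?_
  change sta Φ ε L (W₁ : Set Src) b r = sta Φ ε L (W₂ : Set Src) b r
  have e1 : (b ∈ (W₁ : Set Src)) = (b ∈ (W₂ : Set Src)) := propext (iff_of_true hb₁ hb₂)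
  have e2 : stat Φ ε L (W₁ : Set Src) b r = stat Φ ε L (W₂ : Set Src) b r := by
    rcases le_or_gt b.1 r with h5 | h5
    · rw [stat_cur hΦ hε h₁ h2 hr h5, stat_cur hΦ hε h₂ h4 hr h5]
    · rw [stat_unborn hΦ hε h5, stat_unborn hΦ hε h5]
  have e3 : badc Φ ε L (W₁ : Set Src) b r = badc Φ ε L (W₂ : Set Src) b r := by
    refine propext (iff_of_false (fun h => ?_) (fun h => ?_))
    · exact nb.1 (.bad hr h)
    · exact nb.2 (.bad hr h)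
  unfold sta
  rw [e1, e2, e3]

/-- A particle with the same histories is not in real contact with a particle with different
histories. -/
theorem far_of_not_touch (hW₁ : ∀ a ∈ W₁, 0 ≤ a.1) (hR₁ : IsReal Φ ε W₁ (X W₁)) (h0 : 0 ≤ s)
    (hn : ¬(sys Φ ε L X hΦ hε hX).Touch W₁ W₂ s)
    (ha : a ∉ (sys Φ ε L X hΦ hε hX).D W₁ W₂ s) (hb : b ∈ (sys Φ ε L X hΦ hε hX).D W₁ W₂ s)
    (ha₁ : a ∈ W₁) (hb₁ : b ∈ W₁) (hba : a.1 ≤ s) (hbb : b.1 ≤ s) :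
    ¬Ctc ε (X W₁ s a) (X W₁ s b) := by
  intro hc
  have hab : a ≠ b := fun h => ha (h ▸ hb)
  have nb : ¬(sys Φ ε L X hΦ hε hX).Exp W₁ b s := fun h => hn ⟨b, hb, Or.inl h⟩
  have hcon : con Φ ε L X W₁ s a b := Or.inr ⟨hab, ha₁, hb₁, h0, hba, hbb, hc⟩
  have na : ¬(sys Φ ε L X hΦ hε hX).Exp W₁ a s := fun h => nb (exp_of_con h hcon.symm)
  rw [real_eq_mpos (hΦ := hΦ) (hε := hε) (hX := hX) hW₁ hR₁ ha₁ na le_rfl,
    real_eq_mpos (hΦ := hΦ) (hε := hε) (hX := hX) hW₁ hR₁ hb₁ nb le_rfl] at hc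
  have hm := (mcon_iff_mpos hΦ hε W₁.finite_toSet (stat_of_not_exp na ha₁ h0 hba)
    (stat_of_not_exp nb hb₁ h0 hbb)).2 ⟨hab, hc⟩
  exact partner_not_mem_D hn ha (part_of_not_exp na hm) hb

/-- **The real paths** of a particle with the same histories before `t` are the same up to `t`. -/
theorem real_eq (hW₁ : ∀ a ∈ W₁, 0 ≤ a.1) (hW₂ : ∀ a ∈ W₂, 0 ≤ a.1)
    (hR₁ : IsReal Φ ε W₁ (X W₁)) (hR₂ : IsReal Φ ε W₂ (X W₂))
    (hn : ∀ s < t, ¬(sys Φ ε L X hΦ hε hX).Touch W₁ W₂ s)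
    (ha : a ∉ (sys Φ ε L X hΦ hε hX).Dlt W₁ W₂ t) (hst : s ≤ t) : X W₁ s a = X W₂ s a := by
  classical
  set Y := sys Φ ε L X hΦ hε hX with hY
  obtain ⟨k₁, hk₁⟩ := hR₁
  obtain ⟨k₂, hk₂⟩ := hR₂
  set k := max 0 (max k₁ k₂) with hk
  have hk0 : 0 ≤ k := le_max_left _ _
  have B₁ := hk₁ k ((le_max_left _ _).trans (le_max_right _ _))
  have B₂ := hk₂ k ((le_max_right _ _).trans (le_max_right _ _))
  have hmem : a ∈ W₁ ↔ a ∈ W₂ := by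
    have h1 : a ∉ Y.D W₁ W₂ (t - 1) := fun h => ha ⟨t - 1, by linarith, h⟩
    have h2 := mem_of_sta (sta_eq_of_not_mem_D h1 le_rfl)
    simpa only [Finset.mem_coe] using h2
  by_cases ha₁ : a ∈ W₁
  swap
  · rw [B₁.off a ha₁, B₂.off a fun h => ha₁ (hmem.2 h)]
  have ha₂ := hmem.1 ha₁
  -- the first time of a difference
  have hτ : ∃ τ : Src → ℝ, ∀ c s, s < t → c ∈ W₁ → c ∈ W₂ → (s < τ c ↔ c ∉ Y.D W₁ W₂ s) := by
    have h : ∀ c, ∃ τ : ℝ, ∀ s, s < t → c ∈ W₁ → c ∈ W₂ → (s < τ ↔ c ∉ Y.D W₁ W₂ s) := by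
      intro c
      by_cases hc : c ∈ Y.D W₁ W₂ t
      · by_cases hc₁ : c ∈ W₁
        swap
        · exact ⟨0, fun _ _ h => absurd h hc₁⟩
        by_cases hc₂ : c ∈ W₂
        swap
        · exact ⟨0, fun _ _ _ h => absurd h hc₂⟩
        have hlow : ∀ s ∈ {s | c ∈ Y.D W₁ W₂ s}, 0 ≤ s := by
          rintro s ⟨r, hr, hne⟩
          by_contra hcon
          refine hne ?_
          have hr0 : r < 0 := lt_of_le_of_lt hr (not_le.1 hcon)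
          change sta Φ ε L (W₁ : Set Src) c r = sta Φ ε L (W₂ : Set Src) c r
          have e1 : (c ∈ (W₁ : Set Src)) = (c ∈ (W₂ : Set Src)) :=
            propext (iff_of_true (Finset.mem_coe.2 hc₁) (Finset.mem_coe.2 hc₂))
          have e2 : stat Φ ε L (W₁ : Set Src) c r = stat Φ ε L (W₂ : Set Src) c r := by
            rw [stat_unborn hΦ hε (hr0.trans_le (hW₁ c hc₁)),
              stat_unborn hΦ hε (hr0.trans_le (hW₁ c hc₁))]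
          have e3 : badc Φ ε L (W₁ : Set Src) c r = badc Φ ε L (W₂ : Set Src) c r :=
            propext (iff_of_false (fun h => absurd h.nonneg (not_le.2 hr0))
              (fun h => absurd h.nonneg (not_le.2 hr0)))
          unfold sta
          rw [e1, e2, e3]
        obtain ⟨σ, h1, h2, h3⟩ := (FB.Sys.D_closed (Y := Y) W₁ W₂ c).first hlow hc
        refine ⟨σ, fun s _ _ _ => ⟨fun hs => h3 s hs, fun hs => ?_⟩⟩
        by_contra hcon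
        exact hs (FB.Sys.D_mono (not_lt.1 hcon) h2)
      · exact ⟨t, fun s hs _ _ => ⟨fun _ h' => hc (FB.Sys.D_mono hs.le h'), fun _ => hs⟩⟩
    choose τ hτ using h
    exact ⟨τ, hτ⟩
  obtain ⟨τ, hτ⟩ := hτ
  -- exchange the worlds
  have hDc : ∀ s, Y.D W₂ W₁ s = Y.D W₁ W₂ s := fun s => FB.Sys.D_comm
  have hn' : ∀ s < t, ¬Y.Touch W₂ W₁ s := fun s hs h => hn s hs h.symm
  have hmemD : ∀ s c, c ∉ W₁ ∩ W₂ → (c ∈ W₁ ∨ c ∈ W₂) → c ∈ Y.D W₁ W₂ s := by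
    intro s c hc hc'
    refine ⟨s, le_rfl, fun heq => ?_⟩
    have h1 := mem_of_sta (W₁ := (W₁ : Set Src)) (W₂ := (W₂ : Set Src)) heq
    simp only [Finset.mem_coe] at h1
    refine hc (Finset.mem_inter.2 ?_)
    rcases hc' with h2 | h2
    · exact ⟨h2, h1.1 h2⟩
    · exact ⟨h1.2 h2, h2⟩
  have main := B₁.cone (sm_trunc hΦ hk0) hε B₂ (I := W₁ ∩ W₂) Finset.inter_subset_left
    Finset.inter_subset_right (τ := τ) (T := t) ?_ ?_ a (Finset.mem_inter.2 ⟨ha₁, ha₂⟩) s hst ?_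
  · exact main
  · intro s hs c hc hcs hsc c' hc' hc's hne hfol
    obtain ⟨hc₁, hc₂⟩ := Finset.mem_inter.1 hc
    have h0 : 0 ≤ s := (hW₁ c hc₁).trans hcs
    have h1 : c ∉ Y.D W₁ W₂ s := (hτ c s hs hc₁ hc₂).1 hsc
    have h2 : c' ∈ Y.D W₁ W₂ s := by
      by_cases h3 : c' ∈ W₁ ∩ W₂
      · by_contra hcon
        obtain ⟨h4, h5⟩ := Finset.mem_inter.1 h3
        exact absurd ((hτ c' s hs h4 h5).2 hcon) (not_lt.2 (hfol h3))
      · exact hmemD s c' h3 (Or.inl hc')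
    exact dist_of_not_ctc (far_of_not_touch hW₁ ⟨k₁, hk₁⟩ h0 (hn s hs) h1 h2 hc₁ hc' hcs hc's)
  · intro s hs c hc hcs hsc c' hc' hc's hne hfol
    obtain ⟨hc₁, hc₂⟩ := Finset.mem_inter.1 hc
    have h0 : 0 ≤ s := (hW₁ c hc₁).trans hcs
    have h1 : c ∉ Y.D W₂ W₁ s := by rw [hDc]; exact (hτ c s hs hc₁ hc₂).1 hsc
    have h2 : c' ∈ Y.D W₂ W₁ s := by
      rw [hDc]
      by_cases h3 : c' ∈ W₁ ∩ W₂
      · by_contra hcon
        obtain ⟨h4, h5⟩ := Finset.mem_inter.1 h3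
        exact absurd ((hτ c' s hs h4 h5).2 hcon) (not_lt.2 (hfol h3))
      · exact hmemD s c' h3 (Or.inr hc')
    exact dist_of_not_ctc (far_of_not_touch hW₂ ⟨k₂, hk₂⟩ h0 (hn' s hs) h1 h2 hc₂ hc' hcs hc's)
  · by_contra hcon
    rw [not_le] at hcon
    obtain ⟨r, hr1, hr2⟩ := exists_between (lt_of_lt_of_le hcon hst)
    have h1 : a ∉ Y.D W₁ W₂ r := fun h => ha ⟨r, hr2, h⟩
    have := (hτ a r hr2 ha₁ ha₂).2 h1
    linarith

theorem sta_eq_of_not_mem_Dlt (ha : a ∉ (sys Φ ε L X hΦ hε hX).Dlt W₁ W₂ t) (hs : s < t) :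
    sta Φ ε L (W₁ : Set Src) a s = sta Φ ε L (W₂ : Set Src) a s :=
  sta_eq_of_not_mem_D (fun h => ha ⟨s, hs, h⟩) le_rfl

theorem con_transfer (hW₁ : ∀ a ∈ W₁, 0 ≤ a.1) (hW₂ : ∀ a ∈ W₂, 0 ≤ a.1)
    (hR₁ : IsReal Φ ε W₁ (X W₁)) (hR₂ : IsReal Φ ε W₂ (X W₂))
    (hn : ∀ s < t, ¬(sys Φ ε L X hΦ hε hX).Touch W₁ W₂ s)
    (ha : a ∉ (sys Φ ε L X hΦ hε hX).Dlt W₁ W₂ t) (hb : b ∉ (sys Φ ε L X hΦ hε hX).Dlt W₁ W₂ t)
    (h : con Φ ε L X W₁ t a b) : con Φ ε L X W₂ t a b := by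
  have ma := mem_of_sta (sta_eq_of_not_mem_Dlt ha (show t - 1 < t by linarith))
  have mb := mem_of_sta (sta_eq_of_not_mem_Dlt hb (show t - 1 < t by linarith))
  rcases h with h | h
  · exact Or.inl (mcon_congr hΦ hε W₁.finite_toSet W₂.finite_toSet ma.1 mb.1
      (fun r hr => stat_of_sta (sta_eq_of_not_mem_Dlt ha hr))
      (fun r hr => stat_of_sta (sta_eq_of_not_mem_Dlt hb hr)) h)
  · obtain ⟨h1, h2, h3, h4, h5, h6, h7⟩ := h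
    rw [real_eq hW₁ hW₂ hR₁ hR₂ hn ha le_rfl, real_eq hW₁ hW₂ hR₁ hR₂ hn hb le_rfl] at h7
    exact Or.inr ⟨h1, Finset.mem_coe.1 (ma.1 (Finset.mem_coe.2 h2)),
      Finset.mem_coe.1 (mb.1 (Finset.mem_coe.2 h3)), h4, h5, h6, h7⟩

/-- **The system of worlds is local.** -/
theorem sys_loc (hW₁ : ∀ a ∈ W₁, 0 ≤ a.1) (hW₂ : ∀ a ∈ W₂, 0 ≤ a.1)
    (hR₁ : IsReal Φ ε W₁ (X W₁)) (hR₂ : IsReal Φ ε W₂ (X W₂)) :
    FB.Sys.Loc (sys Φ ε L X hΦ hε hX) W₁ W₂ := by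
  have hD : ∀ t, (sys Φ ε L X hΦ hε hX).Dlt W₂ W₁ t = (sys Φ ε L X hΦ hε hX).Dlt W₁ W₂ t := by
    intro t
    ext a
    constructor
    · rintro ⟨s, hs, h⟩; exact ⟨s, hs, FB.Sys.D_comm (Y := sys Φ ε L X hΦ hε hX) ▸ h⟩
    · rintro ⟨s, hs, h⟩; exact ⟨s, hs, FB.Sys.D_comm (Y := sys Φ ε L X hΦ hε hX) ▸ h⟩
  refine ⟨fun t hn a ha b hb => ⟨con_transfer hW₁ hW₂ hR₁ hR₂ hn ha hb, ?_⟩, fun t a ha => ?_,
    fun t a ha₁ ha₂ haD haDlt => ?_⟩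
  · refine con_transfer hW₂ hW₁ hR₂ hR₁ (fun s hs h => hn s hs h.symm) ?_ ?_
    · rwa [hD]
    · rwa [hD]
  · exact badc_of_sta (sta_eq_of_not_mem_D ha le_rfl)
  · have hne : sta Φ ε L (W₁ : Set Src) a t ≠ sta Φ ε L (W₂ : Set Src) a t := by
      obtain ⟨s, hs, h⟩ := haD
      rcases hs.lt_or_eq with h1 | h1
      · exact absurd ⟨s, h1, s, le_rfl, h⟩ haDlt
      · rw [← h1]; exact h
    obtain ⟨b, z, h1, ⟨r, hr, h2⟩, h3⟩ := sta_new hΦ hε W₁.finite_toSet W₂.finite_toSet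
      (Finset.mem_coe.2 ha₁) (Finset.mem_coe.2 ha₂) hne
      fun s hs => sta_eq_of_not_mem_Dlt haDlt hs
    refine ⟨b, ?_, z, ⟨r, hr, r, le_rfl, h2⟩, ?_⟩
    · rintro ⟨s, hs, q, hq, h⟩
      exact h (h1 q (lt_of_le_of_lt hq hs))
    · rcases h3 with ⟨h3, h4⟩ | ⟨h3, h4⟩
      · exact Or.inl ⟨h3.imp id fun h => Or.inl h, Or.inl h4⟩
      · exact Or.inr ⟨h3.imp id fun h => Or.inl h, Or.inl h4⟩

end transfer

/-! ### The instance -/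

theorem XR_isReal (hΦ : IsPotential Φ) (hε : 0 < ε) (W : Finset Src) :
    IsReal Φ ε W (XR Φ ε W) := by
  obtain ⟨k₀, -, h⟩ := XR_spec hΦ hε W
  exact ⟨k₀, fun k hk => (h k hk).1⟩

/-- **The system of worlds.** -/
def Y (Φ : E3 → ℝ) (ε : ℝ) (L : ℕ) (hΦ : IsPotential Φ) (hε : 0 < ε) :
    FB.Sys Src (Prop × Option CTree × Prop) := sys Φ ε L (XR Φ ε) hΦ hε (XR_isFam hΦ hε)

section instance_

variable (hΦ : IsPotential Φ) (hε : 0 < ε)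

/-- **Lemma H.** -/
theorem Y_real (hW : ∀ a ∈ W, 0 ≤ a.1) (ha : a ∈ W) (h : ¬(Y Φ ε L hΦ hε).Exp W a t)
    (hst : s ≤ t) : XR Φ ε W s a = mpos Φ ε L (W : Set Src) a s :=
  real_eq_mpos hW (XR_isReal hΦ hε W) ha h hst

/-- **TRANSFER.** -/
theorem Y_loc (hW₁ : ∀ a ∈ W₁, 0 ≤ a.1) (hW₂ : ∀ a ∈ W₂, 0 ≤ a.1) :
    FB.Sys.Loc (Y Φ ε L hΦ hε) W₁ W₂ :=
  sys_loc hW₁ hW₂ (XR_isReal hΦ hε W₁) (XR_isReal hΦ hε W₂)

theorem Y_transfer (hW₁ : ∀ a ∈ W₁, 0 ≤ a.1) (hW₂ : ∀ a ∈ W₂, 0 ≤ a.1) :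
    (Y Φ ε L hΦ hε).Transfer W₁ W₂ := (Y_loc hΦ hε hW₁ hW₂).transfer

/-- The real paths of a particle with the same histories. -/
theorem Y_real_eq (hW₁ : ∀ a ∈ W₁, 0 ≤ a.1) (hW₂ : ∀ a ∈ W₂, 0 ≤ a.1)
    (hn : ∀ s < t, ¬(Y Φ ε L hΦ hε).Touch W₁ W₂ s) (ha : a ∉ (Y Φ ε L hΦ hε).Dlt W₁ W₂ t)
    (hst : s ≤ t) : XR Φ ε W₁ s a = XR Φ ε W₂ s a :=
  real_eq hW₁ hW₂ (XR_isReal hΦ hε W₁) (XR_isReal hΦ hε W₂) hn ha hst

end instance_

end Vale.Agent.P119.RB
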