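import Vale.Agent.P119.RB.Birth2

/-!
# P119: real worlds with births, energy and singular potentials (`helper178`)

* `IsBW.energy`: the energy is the kinetic energy of all the lines;
* `IsBW.trunc_near`: truncation;
* `RB`: the real world with births for every potential, `RB_spec`, `RB.cone`, `RB_eq_R`.
-/

open MeasureTheory Filter Topology Set
open scoped ENNReal NNReal

noncomputable section

namespace Vale.Agent.P119.RB

open KU

section energy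

variable {α : Type*} {Ψ : E3 → ℝ} {ε : ℝ} {β : α → ℝ} {ℓ : α → Ph} {W : Finset α}
  {x : ℝ → α → Ph}

open Classical in
/-- The pair energy. -/
def pe (Ψ : E3 → ℝ) (ε : ℝ) (β : α → ℝ) (x : ℝ → α → Ph) (a a' : α) (t : ℝ) : ℝ :=
  if On ε β x a a' then
    if max (β a) (β a') ≤ t then Ψ (ε⁻¹ • ((x t a).1 - (x t a').1)) else 0
  else 0

open Classical in
/-- The (negative) pair force, without the factor `ε⁻¹`. -/
def pf (Ψ : E3 → ℝ) (ε : ℝ) (β : α → ℝ) (x : ℝ → α → Ph) (a a' : α) (t : ℝ) : E3 :=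
  if max (β a) (β a') ≤ t ∧ On ε β x a a' then gradient Ψ (ε⁻¹ • ((x t a).1 - (x t a').1))
  else 0

/-- The energy of the world. -/
def En (Ψ : E3 → ℝ) (ε : ℝ) (β : α → ℝ) (W : Finset α) (x : ℝ → α → Ph) (t : ℝ) : ℝ :=
  ∑ a ∈ W, ‖(x t a).2‖ ^ 2 / 2 + (∑ a ∈ W, ∑ a' ∈ W, pe Ψ ε β x a a' t) / 2

theorem frc_nbr (t : ℝ) (a : α) : frc Ψ ε (nbr ε β W x t a) (x t) a =
    -(ε⁻¹ • ∑ a' ∈ W, pf Ψ ε β x a a' t) := by
  classical
  unfold frc nbr pf
  rw [Finset.sum_filter]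

theorem pf_comm (hΨ : Sm Ψ) (a a' : α) (t : ℝ) : pf Ψ ε β x a' a t = -pf Ψ ε β x a a' t := by
  unfold pf
  rw [max_comm (β a') (β a), on_comm (a := a') (a' := a)]
  split_ifs
  · rw [← gradient_odd hΨ.radial, ← smul_neg, neg_sub]
  · rw [neg_zero]

theorem IsBW.hasDeriv_pos (h : IsBW Ψ ε β ℓ W x) {a : α} (ha : a ∈ W) (t : ℝ) :
    HasDerivWithinAt (fun s => (x s a).1) (x t a).2 (Ici t) t := (h.deriv' ha t).fst

theorem IsBW.hasDeriv_vel (h : IsBW Ψ ε β ℓ W x) {a : α} (ha : a ∈ W) (t : ℝ) :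
    HasDerivWithinAt (fun s => (x s a).2) (frc Ψ ε (nbr ε β W x t a) (x t) a) (Ici t) t :=
  (h.deriv' ha t).snd

theorem pe_deriv (hΨ : Sm Ψ) (hx : IsBW Ψ ε β ℓ W x) {a a' : α} (ha : a ∈ W) (ha' : a' ∈ W)
    (t : ℝ) : HasDerivWithinAt (pe Ψ ε β x a a')
      (inner ℝ (pf Ψ ε β x a a' t) (ε⁻¹ • ((x t a).2 - (x t a').2))) (Ici t) t := by
  by_cases hon : On ε β x a a'
  · by_cases ht : max (β a) (β a') ≤ t
    · have e1 : pf Ψ ε β x a a' t = gradient Ψ (ε⁻¹ • ((x t a).1 - (x t a').1)) := by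
        unfold pf; rw [if_pos ⟨ht, hon⟩]
      have h1 : HasDerivWithinAt (fun s => ε⁻¹ • ((x s a).1 - (x s a').1))
          (ε⁻¹ • ((x t a).2 - (x t a').2)) (Ici t) t :=
        ((hx.hasDeriv_pos ha t).sub (hx.hasDeriv_pos ha' t)).const_smul ε⁻¹
      have h2 : HasFDerivAt Ψ (fderiv ℝ Ψ (ε⁻¹ • ((x t a).1 - (x t a').1)))
          (ε⁻¹ • ((x t a).1 - (x t a').1)) :=
        ((hΨ.smooth.differentiable (by norm_num)) _).hasFDerivAt
      have h3 := h2.comp_hasDerivWithinAt t h1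
      rw [e1, inner_gradient_eq]
      refine h3.congr ?_ ?_
      · intro s hs
        have hs' : t ≤ s := hs
        unfold pe
        rw [if_pos hon, if_pos (ht.trans hs')]
        rfl
      · unfold pe
        rw [if_pos hon, if_pos ht]
        rfl
    · have e1 : pf Ψ ε β x a a' t = 0 := by
        unfold pf; rw [if_neg (fun h => ht h.1)]
      rw [e1, inner_zero_left]
      refine (hasDerivWithinAt_const t (Ici t) (0 : ℝ)).congr_of_eventuallyEq ?_ ?_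
      · have h2 : ∀ᶠ r in 𝓝[Ici t] t, r < max (β a) (β a') :=
          nhdsWithin_le_nhds (Iio_mem_nhds (not_le.1 ht))
        filter_upwards [h2] with r hr
        unfold pe
        rw [if_pos hon, if_neg (not_le.2 hr)]
      · unfold pe
        rw [if_pos hon, if_neg ht]
  · have e1 : pf Ψ ε β x a a' t = 0 := by
      unfold pf; rw [if_neg (fun h => hon h.2)]
    have e2 : pe Ψ ε β x a a' = fun _ => 0 := by
      funext s; unfold pe; rw [if_neg hon]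
    rw [e1, inner_zero_left, e2]
    exact hasDerivWithinAt_const t (Ici t) (0 : ℝ)

theorem pe_continuous (hΨ : Sm Ψ) (hε : 0 < ε) (hx : IsBW Ψ ε β ℓ W x) (a a' : α) :
    Continuous (pe Ψ ε β x a a') := by
  by_cases hon : On ε β x a a'
  · have e2 : pe Ψ ε β x a a' = fun t => if max (β a) (β a') ≤ t then
        Ψ (ε⁻¹ • ((x t a).1 - (x t a').1)) else 0 := by
      funext s; unfold pe; rw [if_pos hon]
    rw [e2]
    refine Continuous.if_le ?_ continuous_const continuous_const continuous_id ?_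
    · have h1 := hx.cont a
      have h2 := hx.cont a'
      exact hΨ.smooth.continuous.comp (by fun_prop)
    · intro t ht
      apply hΨ.vanishing
      rw [← ht, norm_smul, norm_inv, Real.norm_eq_abs, abs_of_pos hε, inv_mul_eq_div,
        le_div_iff₀ hε, one_mul]
      exact hon
  · have e2 : pe Ψ ε β x a a' = fun _ => 0 := by
      funext s; unfold pe; rw [if_neg hon]
    rw [e2]
    exact continuous_const

/-- **Conservation of energy**: all pairs are born at distance `≥ ε`. -/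
theorem IsBW.energy (hΨ : Sm Ψ) (hε : 0 < ε) (hx : IsBW Ψ ε β ℓ W x) (t : ℝ) :
    En Ψ ε β W x t = ∑ a ∈ W, ‖(ℓ a).2‖ ^ 2 / 2 := by
  classical
  obtain ⟨c, hc⟩ := (W.image β).bddBelow
  have hc' : ∀ a ∈ W, c ≤ β a := fun a ha => hc (Finset.mem_coe.2 (Finset.mem_image_of_mem β ha))
  set t₀ := min (c - 1) t with ht₀
  have h0 : ∀ a ∈ W, t₀ < β a := fun a ha =>
    lt_of_le_of_lt (min_le_left _ _) (by linarith [hc' a ha])
  have hE0 : En Ψ ε β W x t₀ = ∑ a ∈ W, ‖(ℓ a).2‖ ^ 2 / 2 := by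
    unfold En
    have h1 : ∑ a ∈ W, ∑ a' ∈ W, pe Ψ ε β x a a' t₀ = 0 := by
      refine Finset.sum_eq_zero fun a ha => Finset.sum_eq_zero fun a' _ => ?_
      unfold pe
      have : ¬max (β a) (β a') ≤ t₀ := not_le.2 ((h0 a ha).trans_le (le_max_left _ _))
      rw [if_neg this, ite_self]
    rw [h1, zero_div, add_zero]
    refine Finset.sum_congr rfl fun a ha => ?_
    rw [hx.pre a t₀ (h0 a ha).le]
    rfl
  have hcont : Continuous (En Ψ ε β W x) := by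
    unfold En
    refine Continuous.add (continuous_finsetSum _ fun a _ => ?_) (Continuous.div_const
      (continuous_finsetSum _ fun a _ => continuous_finsetSum _ fun a' _ =>
        pe_continuous hΨ hε hx a a') _)
    have h1 := hx.cont a
    fun_prop
  have hder : ∀ s, HasDerivWithinAt (En Ψ ε β W x) 0 (Ici s) s := by
    intro s
    have h1 : ∀ a ∈ W, HasDerivWithinAt (fun s => ‖(x s a).2‖ ^ 2 / 2)
        (inner ℝ (x s a).2 (frc Ψ ε (nbr ε β W x s a) (x s) a)) (Ici s) s := by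
      intro a ha
      have h2 := ((hx.hasDeriv_vel ha s).norm_sq).div_const 2
      have e : 2 * inner ℝ (x s a).2 (frc Ψ ε (nbr ε β W x s a) (x s) a) / 2 =
        inner ℝ (x s a).2 (frc Ψ ε (nbr ε β W x s a) (x s) a) := by ring
      rw [e] at h2
      exact h2
    have h3 := (HasDerivWithinAt.fun_sum h1).add ((HasDerivWithinAt.fun_sum fun a ha =>
      HasDerivWithinAt.fun_sum fun a' ha' => pe_deriv hΨ hx ha ha' s).div_const 2)
    refine HasDerivWithinAt.congr_deriv h3 ?_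
    -- the two sums cancel
    have e1 : ∑ a ∈ W, inner ℝ (x s a).2 (frc Ψ ε (nbr ε β W x s a) (x s) a) =
        -∑ a ∈ W, ∑ a' ∈ W, ε⁻¹ * inner ℝ (pf Ψ ε β x a a' s) (x s a).2 := by
      rw [← Finset.sum_neg_distrib]
      refine Finset.sum_congr rfl fun a _ => ?_
      rw [frc_nbr, inner_neg_right, inner_smul_right, inner_sum, Finset.mul_sum]
      congr 1
      exact Finset.sum_congr rfl fun a' _ => by rw [real_inner_comm]
    have e2 : ∑ a ∈ W, ∑ a' ∈ W, inner ℝ (pf Ψ ε β x a a' s) (ε⁻¹ • ((x s a).2 - (x s a').2)) =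
        2 * ∑ a ∈ W, ∑ a' ∈ W, ε⁻¹ * inner ℝ (pf Ψ ε β x a a' s) (x s a).2 := by
      have e3 : ∑ a ∈ W, ∑ a' ∈ W, ε⁻¹ * inner ℝ (pf Ψ ε β x a a' s) (x s a').2 =
          -∑ a ∈ W, ∑ a' ∈ W, ε⁻¹ * inner ℝ (pf Ψ ε β x a a' s) (x s a).2 := by
        rw [Finset.sum_comm, ← Finset.sum_neg_distrib]
        refine Finset.sum_congr rfl fun a _ => ?_
        rw [← Finset.sum_neg_distrib]
        refine Finset.sum_congr rfl fun a' _ => ?_
        rw [pf_comm hΨ, inner_neg_left, mul_neg]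
      have e4 : ∀ a a', inner ℝ (pf Ψ ε β x a a' s) (ε⁻¹ • ((x s a).2 - (x s a').2)) =
          ε⁻¹ * inner ℝ (pf Ψ ε β x a a' s) (x s a).2 -
            ε⁻¹ * inner ℝ (pf Ψ ε β x a a' s) (x s a').2 := by
        intro a a'
        rw [inner_smul_right, inner_sub_right]
        ring
      simp_rw [e4, Finset.sum_sub_distrib]
      rw [e3]
      ring
    rw [e1, e2]
    ring
  have h5 := constant_of_has_deriv_right_zero (a := t₀) (b := t) hcont.continuousOn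
    (fun s _ => hder s) t ⟨min_le_right _ _, le_rfl⟩
  rw [h5, hE0]

/-- A single pair energy is bounded. -/
theorem IsBW.pair_le (hΨ : Sm Ψ) (hε : 0 < ε) (hx : IsBW Ψ ε β ℓ W x) {m : ℝ}
    (hΨm : ∀ y, -m ≤ Ψ y) {t : ℝ} {a a' : α} (ha : a ∈ W) (ha' : a' ∈ nbr ε β W x t a) :
    Ψ (ε⁻¹ • ((x t a).1 - (x t a').1)) ≤ ∑ a ∈ W, ‖(ℓ a).2‖ ^ 2 + (W.card : ℝ) ^ 2 * m := by
  classical
  have hm : 0 ≤ m := by
    obtain ⟨y, hy⟩ : ∃ y : E3, 1 ≤ ‖y‖ := by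
      obtain ⟨y, hy⟩ := exists_norm_eq E3 (zero_le_one (α := ℝ))
      exact ⟨y, hy.ge⟩
    have := hΨm y
    rw [hΨ.vanishing y hy] at this
    linarith
  obtain ⟨h1, h2, h3⟩ := mem_nbr.1 ha'
  have hE := hx.energy hΨ hε t
  unfold En at hE
  have hpe : ∀ b b', -m ≤ pe Ψ ε β x b b' t := by
    intro b b'
    unfold pe
    split_ifs
    · exact hΨm _
    · linarith
    · linarith
  have hkin : 0 ≤ ∑ a ∈ W, ‖(x t a).2‖ ^ 2 / 2 := Finset.sum_nonneg fun _ _ => by positivity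
  have h4 : pe Ψ ε β x a a' t + m ≤ ∑ b ∈ W, ∑ b' ∈ W, (pe Ψ ε β x b b' t + m) := by
    have h5 : ∀ b : α, 0 ≤ ∑ b' ∈ W, (pe Ψ ε β x b b' t + m) :=
      fun b => Finset.sum_nonneg fun b' _ => by linarith [hpe b b']
    refine le_trans ?_ (Finset.single_le_sum (fun b _ => h5 b) ha)
    exact Finset.single_le_sum (f := fun b' => pe Ψ ε β x a b' t + m)
      (fun b' _ => by linarith [hpe a b']) h1
  have h6 : ∑ b ∈ W, ∑ b' ∈ W, (pe Ψ ε β x b b' t + m) =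
      ∑ b ∈ W, ∑ b' ∈ W, pe Ψ ε β x b b' t + (W.card : ℝ) ^ 2 * m := by
    simp_rw [Finset.sum_add_distrib, Finset.sum_const, nsmul_eq_mul]
    ring
  have h7 : pe Ψ ε β x a a' t = Ψ (ε⁻¹ • ((x t a).1 - (x t a').1)) := by
    unfold pe
    rw [if_pos h3, if_pos h2]
  have h8 : ∑ a ∈ W, ‖(ℓ a).2‖ ^ 2 / 2 = (∑ a ∈ W, ‖(ℓ a).2‖ ^ 2) / 2 := by
    rw [Finset.sum_div]
  rw [h7] at h4
  rw [h8] at hE
  linarith

/-- The velocities are bounded. -/
theorem IsBW.vel_le (hΨ : Sm Ψ) (hε : 0 < ε) (hx : IsBW Ψ ε β ℓ W x) {m : ℝ} (hm : 0 ≤ m)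
    (hΨm : ∀ y, -m ≤ Ψ y) (t : ℝ) :
    ∑ a ∈ W, ‖(x t a).2‖ ^ 2 ≤ ∑ a ∈ W, ‖(ℓ a).2‖ ^ 2 + (W.card : ℝ) ^ 2 * m := by
  have hE := hx.energy hΨ hε t
  unfold En at hE
  have hpe : ∀ b b', -m ≤ pe Ψ ε β x b b' t := by
    intro b b'
    unfold pe
    split_ifs
    · exact hΨm _
    · linarith
    · linarith
  have h6 : -((W.card : ℝ) ^ 2 * m) ≤ ∑ b ∈ W, ∑ b' ∈ W, pe Ψ ε β x b b' t := by
    have h1 : ∑ b ∈ W, ∑ b' ∈ W, -m ≤ ∑ b ∈ W, ∑ b' ∈ W, pe Ψ ε β x b b' t :=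
      Finset.sum_le_sum fun b _ => Finset.sum_le_sum fun b' _ => hpe b b'
    simp_rw [Finset.sum_const, nsmul_eq_mul] at h1
    linarith
  have h8 : ∑ a ∈ W, ‖(ℓ a).2‖ ^ 2 / 2 = (∑ a ∈ W, ‖(ℓ a).2‖ ^ 2) / 2 := by
    rw [Finset.sum_div]
  have h9 : ∑ a ∈ W, ‖(x t a).2‖ ^ 2 / 2 = (∑ a ∈ W, ‖(x t a).2‖ ^ 2) / 2 := by
    rw [Finset.sum_div]
  rw [h8, h9] at hE
  linarith

end energy

section singular

variable {α : Type*} {Φ : E3 → ℝ} {ε : ℝ} {β : α → ℝ} {ℓ : α → Ph} {W : Finset α}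
  {x : ℝ → α → Ph}

theorem trunc_ge {m k : ℝ} (hm : 0 ≤ m) (hk : 0 ≤ k) (hΦm : ∀ x, x ≠ 0 → -m ≤ Φ x)
    (hs : ¬ContDiff ℝ 2 Φ) (y : E3) : -m ≤ trunc Φ k y := by
  unfold trunc
  rw [if_neg hs]
  split_ifs with hy
  · linarith
  · rcases le_total (Φ y) k with h3 | h3
    · rw [hcut_of_le h3]; exact hΦm y hy
    · have := le_hcut h3
      linarith

/-- The potential is used only where it coincides with the truncated potentials. -/
theorem IsBW.trunc_near (hΦ : IsPotential Φ) (hε : 0 < ε) {m : ℝ} (hm : 0 ≤ m)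
    (hΦm : ∀ x, x ≠ 0 → -m ≤ Φ x) {k : ℝ} (hk0 : 0 ≤ k)
    (hk : ∑ a ∈ W, ‖(ℓ a).2‖ ^ 2 + (W.card : ℝ) ^ 2 * m < k)
    (hx : IsBW (trunc Φ k) ε β ℓ W x) {t : ℝ} {a a' : α} (ha : a ∈ W)
    (ha' : a' ∈ nbr ε β W x t a) {k' : ℝ} (hk' : k ≤ k') :
    trunc Φ k' =ᶠ[𝓝 (ε⁻¹ • ((x t a).1 - (x t a').1))] Φ := by
  by_cases hs : ContDiff ℝ 2 Φ
  · have : trunc Φ k' = Φ := by unfold trunc; rw [if_pos hs]
    rw [this]
  · have h1 := hx.pair_le (sm_trunc hΦ hk0) hε (trunc_ge hm hk0 hΦm hs) ha ha'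
    obtain ⟨h2, h3⟩ := adm_of_trunc_lt (lt_of_le_of_lt h1 hk)
    exact trunc_eventuallyEq' hΦ h2 (h3.trans_le hk')

/-- Change of the potential. -/
theorem IsBW.congr_pot {Ψ Ψ' : E3 → ℝ} (hx : IsBW Ψ ε β ℓ W x)
    (h : ∀ t, ∀ a ∈ W, ∀ a' ∈ nbr ε β W x t a,
      gradient Ψ (ε⁻¹ • ((x t a).1 - (x t a').1)) = gradient Ψ' (ε⁻¹ • ((x t a).1 - (x t a').1))) :
    IsBW Ψ' ε β ℓ W x := by
  refine ⟨hx.off, hx.pre, hx.cont, fun a ha t ht => ?_⟩
  have h1 := hx.deriv a ha t ht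
  have h2 : frc Ψ ε (nbr ε β W x t a) (x t) a = frc Ψ' ε (nbr ε β W x t a) (x t) a := by
    unfold frc
    congr 2
    exact Finset.sum_congr rfl fun a' ha' => h t a ha a' ha'
  rwa [h2] at h1

theorem exists_isBW_trunc (hΦ : IsPotential Φ) (hε : 0 < ε) (β : α → ℝ) (ℓ : α → Ph)
    (W : Finset α) : ∃ x : ℝ → α → Ph, ∃ k₀ : ℝ, 0 ≤ k₀ ∧ ∀ k, k₀ ≤ k →
      IsBW (trunc Φ k) ε β ℓ W x := by
  obtain ⟨m, hm, hΦm⟩ := hΦ.bddBelow
  set k₀ : ℝ := ∑ a ∈ W, ‖(ℓ a).2‖ ^ 2 + (W.card : ℝ) ^ 2 * m + 1 with hk₀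
  have h0 : 0 ≤ k₀ := by positivity
  obtain ⟨x, hx⟩ := exists_isBW (ε := ε) (sm_trunc hΦ h0) β ℓ W
  refine ⟨x, k₀, h0, fun k hk => hx.congr_pot fun t a ha a' ha' => ?_⟩
  have h1 := hx.trunc_near hΦ hε hm hΦm h0 (by rw [hk₀]; linarith) ha ha' le_rfl
  have h2 := hx.trunc_near hΦ hε hm hΦm h0 (by rw [hk₀]; linarith) ha ha' hk
  exact (h1.trans h2.symm).gradient_eq

open Classical in
/-- **The real world with births**: `RB Φ ε β ℓ W t a` is the state at time `t` of the particle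
`a` of the world `W`, born at the time `β a` on the line `ℓ a`. -/
def RB (Φ : E3 → ℝ) (ε : ℝ) (β : α → ℝ) (ℓ : α → Ph) (W : Finset α) : ℝ → α → Ph :=
  if h : ∃ x : ℝ → α → Ph, ∃ k₀ : ℝ, 0 ≤ k₀ ∧ ∀ k, k₀ ≤ k → IsBW (trunc Φ k) ε β ℓ W x then
    h.choose
  else fun t a => free t (ℓ a)

/-- The real world solves the equations for all large truncations, and the potential is used only
where it coincides with the truncated potentials. -/
theorem RB_spec (hΦ : IsPotential Φ) (hε : 0 < ε) (β : α → ℝ) (ℓ : α → Ph) (W : Finset α) :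
    ∃ k₀ : ℝ, 0 ≤ k₀ ∧ ∀ k, k₀ ≤ k → IsBW (trunc Φ k) ε β ℓ W (RB Φ ε β ℓ W) ∧
      ∀ t, ∀ a ∈ W, ∀ a' ∈ nbr ε β W (RB Φ ε β ℓ W) t a,
        trunc Φ k =ᶠ[𝓝 (ε⁻¹ • ((RB Φ ε β ℓ W t a).1 - (RB Φ ε β ℓ W t a').1))] Φ := by
  have hex := exists_isBW_trunc hΦ hε β ℓ W
  have e : RB Φ ε β ℓ W = hex.choose := by unfold RB; rw [dif_pos hex]
  obtain ⟨k₁, hk₁, h1⟩ := hex.choose_spec
  rw [← e] at h1
  obtain ⟨m, hm, hΦm⟩ := hΦ.bddBelow
  set k₂ : ℝ := ∑ a ∈ W, ‖(ℓ a).2‖ ^ 2 + (W.card : ℝ) ^ 2 * m + 1 with hk₂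
  have h2 : 0 ≤ max k₁ k₂ := hk₁.trans (le_max_left _ _)
  refine ⟨max k₁ k₂, h2, fun k hk => ⟨h1 k ((le_max_left _ _).trans hk), fun t a ha a' ha' => ?_⟩⟩
  exact (h1 _ (le_max_left k₁ k₂)).trunc_near hΦ hε hm hΦm h2
    (lt_of_lt_of_le (by rw [hk₂]; linarith) (le_max_right k₁ k₂)) ha ha' hk

theorem RB_unique (hΦ : IsPotential Φ) (hε : 0 < ε) {k₀ : ℝ}
    (h : ∀ k, k₀ ≤ k → IsBW (trunc Φ k) ε β ℓ W x) : x = RB Φ ε β ℓ W := by
  obtain ⟨k₁, hk₁, h1⟩ := RB_spec hΦ hε β ℓ W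
  exact (h _ (le_max_right k₁ k₀)).unique (sm_trunc hΦ (hk₁.trans (le_max_left _ _))) hε
    (h1 _ (le_max_left k₁ k₀)).1

/-- The real world solves Newton's equations of the potential itself. -/
theorem RB_isBW (hΦ : IsPotential Φ) (hε : 0 < ε) (β : α → ℝ) (ℓ : α → Ph) (W : Finset α) :
    IsBW Φ ε β ℓ W (RB Φ ε β ℓ W) := by
  obtain ⟨k₀, hk₀, h⟩ := RB_spec hΦ hε β ℓ W
  obtain ⟨h1, h2⟩ := h k₀ le_rfl
  exact h1.congr_pot fun t a ha a' ha' => (h2 t a ha a' ha').gradient_eq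

/-- **Locality** of the real world with births. -/
theorem RB_cone (hΦ : IsPotential Φ) (hε : 0 < ε) {W₁ W₂ I : Finset α} (h₁ : I ⊆ W₁)
    (h₂ : I ⊆ W₂) {τ : α → ℝ} {T : ℝ}
    (H₁ : ∀ s < T, ∀ a ∈ I, β a ≤ s → s < τ a → ∀ a' ∈ W₁, β a' ≤ s → a' ≠ a →
      (a' ∈ I → τ a' ≤ s) → ε ≤ ‖(RB Φ ε β ℓ W₁ s a).1 - (RB Φ ε β ℓ W₁ s a').1‖)
    (H₂ : ∀ s < T, ∀ a ∈ I, β a ≤ s → s < τ a → ∀ a' ∈ W₂, β a' ≤ s → a' ≠ a →
      (a' ∈ I → τ a' ≤ s) → ε ≤ ‖(RB Φ ε β ℓ W₂ s a).1 - (RB Φ ε β ℓ W₂ s a').1‖) :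
    ∀ a ∈ I, ∀ s ≤ T, s ≤ τ a → RB Φ ε β ℓ W₁ s a = RB Φ ε β ℓ W₂ s a := by
  obtain ⟨k₁, hk₁, g1⟩ := RB_spec hΦ hε β ℓ W₁
  obtain ⟨k₂, hk₂, g2⟩ := RB_spec hΦ hε β ℓ W₂
  exact (g1 _ (le_max_left k₁ k₂)).1.cone (sm_trunc hΦ (hk₁.trans (le_max_left _ _))) hε
    (g2 _ (le_max_right k₁ k₂)).1 h₁ h₂ H₁ H₂

/-- Only the sources born before `T` matter until `T`. -/
theorem RB_born (hΦ : IsPotential Φ) (hε : 0 < ε) {W₁ W₂ : Finset α} {T : ℝ}
    (h : ∀ a, β a < T → (a ∈ W₁ ↔ a ∈ W₂)) {t : ℝ} (ht : t ≤ T) (a : α) :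
    RB Φ ε β ℓ W₁ t a = RB Φ ε β ℓ W₂ t a := by
  obtain ⟨k₁, hk₁, g1⟩ := RB_spec hΦ hε β ℓ W₁
  obtain ⟨k₂, hk₂, g2⟩ := RB_spec hΦ hε β ℓ W₂
  exact (g1 _ (le_max_left k₁ k₂)).1.born (sm_trunc hΦ (hk₁.trans (le_max_left _ _))) hε
    (g2 _ (le_max_right k₁ k₂)).1 h ht a

/-- Change of labels. -/
theorem RB_map {κ : Type*} (hΦ : IsPotential Φ) (hε : 0 < ε) (e : κ ↪ α) (β : α → ℝ)
    (ℓ : α → Ph) (V : Finset κ) (t : ℝ) (j : κ) :
    RB Φ ε β ℓ (V.map e) t (e j) = RB Φ ε (fun j => β (e j)) (fun j => ℓ (e j)) V t j := by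
  obtain ⟨k₀, hk₀, h⟩ := RB_spec hΦ hε β ℓ (V.map e)
  have := RB_unique hΦ hε (β := fun j => β (e j)) (ℓ := fun j => ℓ (e j)) (W := V)
    (x := fun t j => RB Φ ε β ℓ (V.map e) t (e j)) (k₀ := k₀) fun k hk => (h k hk).1.pull e
  exact congrFun (congrFun this t) j

/-- The world without births is the real world of `helper909`. -/
theorem RB_eq_R (hΦ : IsPotential Φ) (hε : 0 < ε) {w : Finset Ph} (hw : RW.Excl ε w) {t : ℝ}
    (ht : 0 ≤ t) {z : Ph} (hz : z ∈ w) :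
    RB Φ ε (fun _ => 0) (fun z => z) w t z = RW.R Φ ε w t z := by
  classical
  obtain ⟨k₀, hk₀, h⟩ := RW.R_trunc hΦ hε hw
  set y : ℝ → Ph → Ph := fun t z => if z ∈ w then if t ≤ 0 then free t z else RW.R Φ ε w t z
    else free t z with hy
  have hyz : ∀ t, 0 ≤ t → ∀ z ∈ w, y t z = RW.R Φ ε w t z := by
    intro t ht z hz
    simp only [hy, hz, if_true]
    split_ifs with h0
    · have : t = 0 := le_antisymm h0 ht
      rw [this, free_zero, (h k₀ le_rfl).1.init z hz]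
    · rfl
  have hfree : ∀ z : Ph, Continuous fun t : ℝ => free t z := fun z =>
    continuous_iff_continuousAt.2 fun t => (hasDerivAt_free z t).continuousAt
  have key := RB_unique hΦ hε (β := fun _ : Ph => (0 : ℝ)) (ℓ := fun z => z) (W := w) (x := y)
    (k₀ := k₀) fun k hk => ?_
  · rw [← key]
    exact hyz t ht z hz
  · obtain ⟨W1, -⟩ := h k hk
    refine ⟨fun z hz t => by simp only [hy, hz, if_false], fun z t ht => ?_, fun z => ?_,
      fun z hz t ht => ?_⟩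
    · simp only [hy]
      split_ifs <;> rfl
    · by_cases hz : z ∈ w
      · simp only [hy, hz, if_true]
        refine Continuous.if_le (hfree z) ?_ continuous_id continuous_const ?_
        · exact (W1.continuous_pos hz).prodMk (W1.continuous_vel hz)
        · intro t ht
          rw [ht, free_zero, W1.init z hz]
      · simp only [hy, hz, if_false]
        exact hfree z
    · have h1 : HasDerivAt (fun s => RW.R Φ ε w s z) ((RW.R Φ ε w t z).2,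
          RW.acc (trunc Φ k) ε w (fun z => (RW.R Φ ε w t z).1) z) t :=
        (W1.pos z hz t).prodMk (W1.vel z hz t)
      have hnb : nbr ε (fun _ : Ph => (0 : ℝ)) w y t z = w.erase z := by
        ext z'
        rw [mem_nbr, Finset.mem_erase]
        simp only [max_self]
        constructor
        · rintro ⟨h2, -, h4⟩
          refine ⟨fun hzz => ?_, h2⟩
          unfold On at h4
          rw [hzz, sub_self, norm_zero] at h4
          linarith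
        · rintro ⟨h2, h3⟩
          refine ⟨h3, ht, ?_⟩
          unfold On
          simp only [max_self]
          rw [hyz 0 le_rfl z hz, hyz 0 le_rfl z' h3, W1.init z hz, W1.init z' h3]
          exact (hw z hz z' h3 (Ne.symm h2)).le
      have h2 : frc (trunc Φ k) ε (nbr ε (fun _ : Ph => (0 : ℝ)) w y t z) (y t) z =
          RW.acc (trunc Φ k) ε w (fun z => (RW.R Φ ε w t z).1) z := by
        rw [hnb]
        unfold frc RW.acc
        congr 2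
        rw [← Finset.add_sum_erase w _ hz, sub_self, smul_zero,
          RW.gradient_zero (sm_trunc hΦ (hk₀.trans hk)).radial, zero_add]
        refine Finset.sum_congr rfl fun z' hz' => ?_
        rw [hyz t ht z hz, hyz t ht z' (Finset.mem_of_mem_erase hz')]
      rw [h2, hyz t ht z hz]
      refine h1.hasDerivWithinAt.congr ?_ (hyz t ht z hz)
      intro s hs
      have hs' : t ≤ s := hs
      exact hyz s (ht.trans hs') z hz

end singular

end Vale.Agent.P119.RB
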