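import Vale.Agent.P119.RB.Sys
import Vale.Agent.P119.KU.Scat3

/-!
# P119: the M-paths as trajectories (`helper909`)

* `isPair_pairLine`, `trunc_pairLine`, `trunc_trees`;
* `continuous_path`, `mpos_eq_path`: the M-path is continuous as long as the particle is alive;
* `mpos_deriv`: its right derivative (free flight or two-body force);
* `part_dist`: the distance of a colliding pair.
-/

open MeasureTheory Filter Topology Set

noncomputable section

namespace Vale.Agent.P119.RB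

open M CTree KU FB

variable {Φ : E3 → ℝ} {ε : ℝ} {L : ℕ} {W : Set Src} {a b : Src} {s t : ℝ}

/-! ### Pairs -/

theorem isPair_pairLine (hΦ : IsPotential Φ) (hε : 0 < ε) {q : Ph × Ph}
    (hq : q.1.2 - q.2.2 ≠ 0) (t : ℝ) (s : Set ℝ) : IsPair Φ ε (pairLine Φ ε q) t s := by
  have h1 : (fun t => pairEv Φ ε t (pairLine Φ ε q 0)) = pairLine Φ ε q := by
    funext t
    rw [pairEv_pairLine hΦ hε.ne', add_zero]
  have h2 : Adm Φ (rel ε (pairLine Φ ε q 0)).1 := by
    rw [rel_pairLine hε.ne']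
    exact adm_traj hΦ hq _
  have h3 := isPair_pairEv hΦ hε.ne' h2 t s
  rwa [h1] at h3

/-- Along a pair the truncated potential is the potential. -/
theorem trunc_pairLine (hΦ : IsPotential Φ) (hε : 0 < ε) {q : Ph × Ph}
    (hq : q.1.2 - q.2.2 ≠ 0) : ∃ k₀ : ℝ, ∀ k, k₀ ≤ k → ∀ t,
      trunc Φ k =ᶠ[𝓝 (ε⁻¹ • ((pairLine Φ ε q t).1.1 - (pairLine Φ ε q t).2.1))] Φ := by
  set z := traj Φ (rel ε q) with hz
  have hr : IsRed Φ z := traj_isRed hΦ hq
  refine ⟨max 0 (en Φ (z 0) / 2 + 1), fun k hk t => ?_⟩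
  have hk0 : 0 ≤ k := (le_max_left _ _).trans hk
  have hk1 : en Φ (z 0) < 2 * k := by
    have := (le_max_right _ _).trans hk
    linarith
  obtain ⟨-, -, h1⟩ := red_trunc hΦ hk0 hr (t₀ := 0) (adm_traj hΦ hq 0) hk1
  obtain ⟨h2, h3⟩ := h1 (t / ε)
  have h4 : Φ (z (t / ε)).1 < k := lt_of_en_lt (by rw [h3]; exact hk1)
  have h5 := trunc_eventuallyEq' hΦ h2 h4
  have h6 : (z (t / ε)).1 = ε⁻¹ • ((pairLine Φ ε q t).1.1 - (pairLine Φ ε q t).2.1) := by
    have := congrArg Prod.fst (rel_pairLine (Φ := Φ) hε.ne' q t)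
    exact this.symm
  rwa [h6] at h5

/-- The same for all the collisions in a world. -/
theorem trunc_trees (hΦ : IsPotential Φ) (hε : 0 < ε) (hW : W.Finite) (L : ℕ) :
    ∃ k₀ : ℝ, ∀ k, k₀ ≤ k → ∀ x y : CTree, (node x y).leaves ⊆ W → (node x y).depth ≤ L →
      ok Φ ε (node x y) → ∀ t, trunc Φ k =ᶠ[𝓝 (ε⁻¹ •
        ((pairLine Φ ε (ln Φ ε x, ln Φ ε y) t).1.1 -
          (pairLine Φ ε (ln Φ ε x, ln Φ ε y) t).2.1))] Φ := by
  classical
  have hfin := finite_depth hW L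
  have h : ∀ T : CTree, ∃ k₀ : ℝ, ∀ k, k₀ ≤ k → ∀ x y : CTree, T = node x y →
      ok Φ ε (node x y) → ∀ t, trunc Φ k =ᶠ[𝓝 (ε⁻¹ •
        ((pairLine Φ ε (ln Φ ε x, ln Φ ε y) t).1.1 -
          (pairLine Φ ε (ln Φ ε x, ln Φ ε y) t).2.1))] Φ := by
    intro T
    cases T with
    | leaf σ => exact ⟨0, fun k _ x y h => by cases h⟩
    | node x y =>
      by_cases hok : ok Φ ε (node x y)
      · obtain ⟨k₀, hk₀⟩ := trunc_pairLine hΦ hε (q := (ln Φ ε x, ln Φ ε y)) hok.2.2.2.1.1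
        refine ⟨k₀, fun k hk x' y' h _ t => ?_⟩
        cases h
        exact hk₀ k hk t
      · refine ⟨0, fun k _ x' y' h hok' => ?_⟩
        cases h
        exact absurd hok' hok
  choose κ hκ using h
  obtain ⟨k₀, hk₀⟩ := (hfin.toFinset.image κ).bddAbove
  refine ⟨k₀, fun k hk x y h1 h2 h3 t => hκ (node x y) k (le_trans ?_ hk) x y rfl h3 t⟩
  refine hk₀ ?_
  rw [Finset.mem_coe, Finset.mem_image]
  exact ⟨node x y, hfin.mem_toFinset.2 ⟨h1, h2⟩, rfl⟩

/-! ### Continuity -/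

theorem path_of_sig_le {T : CTree} (h : sig Φ ε T ≤ s) : path Φ ε T s = st Φ ε T s := by
  unfold path
  rw [cur_of_sig_le h]

theorem continuous_path (hΦ : IsPotential Φ) (hε : 0 < ε) {T : CTree} (h : ok Φ ε T) :
    Continuous (path Φ ε T) := by
  induction T with
  | leaf σ => exact continuous_free_time σ.2.1
  | node x y ihx _ =>
    have h1 : path Φ ε (node x y) = fun s =>
        if sig Φ ε (node x y) ≤ s then st Φ ε (node x y) s else path Φ ε x s := by
      funext s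
      unfold path
      by_cases hs : sig Φ ε (node x y) ≤ s
      · rw [if_pos hs, cur_of_sig_le hs]
      · rw [if_neg hs, cur_of_lt_sig (not_le.1 hs)]
    rw [h1]
    refine Continuous.if_le (continuous_st hΦ _) (ihx h.1) continuous_const continuous_id ?_
    rintro s rfl
    rw [st_sig hΦ hε h, path_of_sig_le]
    exact (sig_le_ext hΦ hε h.1).trans h.2.2.2.2.2.1.le

theorem cur_unborn (hΦ : IsPotential Φ) (hε : 0 < ε) {T : CTree} (h : ok Φ ε T)
    (hs : s < T.root.1) : cur Φ ε T s = leaf T.root := by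
  induction T with
  | leaf σ => rfl
  | node x y ihx _ =>
    have h1 := root_birth_le_sig hΦ hε h
    rw [cur_of_lt_sig (hs.trans_le h1)]
    exact ihx h.1 hs

/-- The M-path up to `t` of a particle which is alive at `t`. -/
theorem mpos_eq_path (hΦ : IsPotential Φ) (hε : 0 < ε) (hW : W.Finite) {T : CTree}
    (h : stat Φ ε L W a t = some T) (hst : s ≤ t) : mpos Φ ε L W a s = path Φ ε T s := by
  have h0 := (stat_eq_some_iff hΦ hε hW).1 h
  rcases le_or_gt a.1 s with h1 | h1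
  · rw [mpos_eq (stat_cur hΦ hε hW h hst h1)]
    rfl
  · unfold mpos
    rw [stat_unborn hΦ hε h1]
    unfold path
    rw [cur_unborn hΦ hε h0.2.ok (by rw [h0.1]; exact h1), h0.1]
    rfl

theorem mpos_unborn (hΦ : IsPotential Φ) (hε : 0 < ε) (h : t < a.1) :
    mpos Φ ε L W a t = free t a.2.1 := by
  unfold mpos
  rw [stat_unborn hΦ hε h]

/-- The M-path is continuous as long as the particle is alive. -/
theorem mpos_continuousAt (hΦ : IsPotential Φ) (hε : 0 < ε) (hW : W.Finite) (hst : s < t)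
    (h : a.1 ≤ t → ∃ T, stat Φ ε L W a t = some T) :
    ContinuousAt (mpos Φ ε L W a) s := by
  rcases le_or_gt a.1 t with h1 | h1
  · obtain ⟨T, hT⟩ := h h1
    have h2 := continuous_path hΦ hε ((stat_eq_some_iff hΦ hε hW).1 hT).2.ok
    refine h2.continuousAt.congr ?_
    filter_upwards [Iio_mem_nhds hst] with r hr
    exact (mpos_eq_path hΦ hε hW hT (le_of_lt hr)).symm
  · refine (continuous_free_time a.2.1).continuousAt.congr ?_
    filter_upwards [Iio_mem_nhds (hst.trans h1)] with r hr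
    exact (mpos_unborn hΦ hε hr).symm

/-! ### Right derivatives -/

theorem mpos_right_eq (hΦ : IsPotential Φ) (hε : 0 < ε) (hW : W.Finite) {T : CTree}
    (h : stat Φ ε L W a t = some T) : ∀ᶠ r in 𝓝[Ici t] t, mpos Φ ε L W a r = st Φ ε T r := by
  obtain ⟨δ, hδ, h1⟩ := stat_right' (L := L) hΦ hε hW a t
  have h2 : ∀ᶠ r in 𝓝[Ici t] t, r < t + δ := nhdsWithin_le_nhds (Iio_mem_nhds (by linarith))
  filter_upwards [h2, self_mem_nhdsWithin] with r hr hr'
  exact mpos_eq (by rw [h1 r hr' hr, h])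

theorem mpos_deriv_fst (hΦ : IsPotential Φ) (hε : 0 < ε) (hW : W.Finite)
    (h : a.1 ≤ t → ∃ T, stat Φ ε L W a t = some T) :
    HasDerivWithinAt (fun r => (mpos Φ ε L W a r).1) (mpos Φ ε L W a t).2 (Ici t) t := by
  rcases le_or_gt a.1 t with h1 | h1
  · obtain ⟨T, hT⟩ := h h1
    rw [mpos_eq hT]
    refine (st_hasDeriv hΦ hε ((stat_eq_some_iff hΦ hε hW).1 hT).2.ok t).hasDerivWithinAt
      |>.congr_of_eventuallyEq ?_ (by rw [mpos_eq hT])
    filter_upwards [mpos_right_eq hΦ hε hW hT] with r hr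
    rw [hr]
  · rw [mpos_unborn hΦ hε h1]
    refine (M.hasDerivAt_free a.2.1 t).hasDerivWithinAt.congr_of_eventuallyEq ?_
      (by rw [mpos_unborn hΦ hε h1])
    filter_upwards [nhdsWithin_le_nhds (Iio_mem_nhds h1)] with r hr
    rw [mpos_unborn hΦ hε hr]

/-- A particle which is not colliding has a constant velocity. -/
theorem mpos_deriv_snd_free (hΦ : IsPotential Φ) (hε : 0 < ε) (hW : W.Finite)
    (h : a.1 ≤ t → ∃ T, stat Φ ε L W a t = some T ∧ ext Φ ε T ≤ t) :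
    HasDerivWithinAt (fun r => (mpos Φ ε L W a r).2) 0 (Ici t) t := by
  rcases le_or_gt a.1 t with h1 | h1
  · obtain ⟨T, hT, he⟩ := h h1
    have hok := ((stat_eq_some_iff hΦ hε hW).1 hT).2.ok
    refine (hasDerivWithinAt_const t (Ici t) (ln Φ ε T).2).congr_of_eventuallyEq ?_ ?_
    · filter_upwards [mpos_right_eq hΦ hε hW hT, self_mem_nhdsWithin] with r hr hr'
      rw [hr, st_after hΦ hε hok (he.trans hr')]
      rfl
    · rw [mpos_eq hT, st_after hΦ hε hok he]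
      rfl
  · refine (hasDerivWithinAt_const t (Ici t) a.2.1.2).congr_of_eventuallyEq ?_ ?_
    · filter_upwards [nhdsWithin_le_nhds (Iio_mem_nhds h1)] with r hr
      rw [mpos_unborn hΦ hε hr]
      rfl
    · rw [mpos_unborn hΦ hε h1]
      rfl

/-- A colliding particle feels its partner. -/
theorem mpos_deriv_snd_node (hΦ : IsPotential Φ) (hε : 0 < ε) (hW : W.Finite) {x y : CTree}
    (h : stat Φ ε L W a t = some (node x y)) :
    HasDerivWithinAt (fun r => (mpos Φ ε L W a r).2)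
      (-(ε⁻¹ • gradient Φ (ε⁻¹ • ((pairLine Φ ε (ln Φ ε x, ln Φ ε y) t).1.1 -
        (pairLine Φ ε (ln Φ ε x, ln Φ ε y) t).2.1)))) (Ici t) t := by
  have hok := ((stat_eq_some_iff hΦ hε hW).1 h).2.ok
  refine (isPair_pairLine hΦ hε hok.2.2.2.1.1 t (Ici t)).vel₁.congr_of_eventuallyEq ?_ ?_
  · filter_upwards [mpos_right_eq hΦ hε hW h] with r hr
    rw [hr]
    rfl
  · rw [mpos_eq h]
    rfl

/-! ### Colliding pairs -/

/-- The positions of a colliding pair. -/
theorem part_mpos (hΦ : IsPotential Φ) {x y : CTree} (h : stat Φ ε L W a t = some (node x y))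
    (h' : stat Φ ε L W b t = some (node y x)) :
    (mpos Φ ε L W a t, mpos Φ ε L W b t) = pairLine Φ ε (ln Φ ε x, ln Φ ε y) t := by
  rw [mpos_eq h, mpos_eq h']
  exact Prod.ext rfl (st_swap hΦ x y t)

/-- The distance of a colliding pair is `< ε`, or `= ε` at the beginning, decreasing. -/
theorem part_dist (hΦ : IsPotential Φ) (hε : 0 < ε) (hW : W.Finite)
    (h : part Φ ε L W t a b) :
    ‖(mpos Φ ε L W a t).1 - (mpos Φ ε L W b t).1‖ < ε ∨
      (‖(mpos Φ ε L W a t).1 - (mpos Φ ε L W b t).1‖ = ε ∧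
        (inner ℝ ((mpos Φ ε L W a t).1 - (mpos Φ ε L W b t).1)
          ((mpos Φ ε L W a t).2 - (mpos Φ ε L W b t).2) : ℝ) < 0) := by
  obtain ⟨T, T', h1, h2, x, y, rfl, rfl, h3⟩ := h
  have hl := ((stat_eq_some_iff hΦ hε hW).1 h1).2
  have hok := hl.ok
  have h4 := part_mpos hΦ h1 h2
  have h5 : mpos Φ ε L W a t = (pairLine Φ ε (ln Φ ε x, ln Φ ε y) t).1 := by rw [← h4]
  have h6 : mpos Φ ε L W b t = (pairLine Φ ε (ln Φ ε x, ln Φ ε y) t).2 := by rw [← h4]
  rw [h5, h6]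
  have hm : Meets ε (ln Φ ε x, ln Φ ε y) := hok.2.2.2.1
  rcases hl.sig_le.lt_or_eq with h7 | h7
  · exact Or.inl ((dist_pairLine_lt_iff hΦ hε hok.2.2.2.2.1 hm.2 t).2 ⟨h7, h3⟩)
  · have h8 : t = hitT ε (ln Φ ε x, ln Φ ε y) := h7.symm
    rw [pairLine_before hΦ hε hm.1 hm.2.le h8.le, h8]
    exact Or.inr ⟨dist_hitT hε hm, inner_hitT hε hm⟩

theorem part_ctc (hΦ : IsPotential Φ) (hε : 0 < ε) (hW : W.Finite)
    (h : part Φ ε L W t a b) : Ctc ε (mpos Φ ε L W a t) (mpos Φ ε L W b t) := by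
  rcases part_dist hΦ hε hW h with h1 | ⟨h1, h2⟩
  · exact ctc_of_lt h1
  · exact ctc_of_inner_nonpos h1.le h2.le

theorem part_ne (hΦ : IsPotential Φ) (hε : 0 < ε) (hW : W.Finite)
    (h : part Φ ε L W t a b) : a ≠ b := by
  rintro rfl
  obtain ⟨T, T', h1, h2, x, y, rfl, rfl, h3⟩ := h
  rw [h1, Option.some_inj] at h2
  cases h2
  have hok := ((stat_eq_some_iff hΦ hε hW).1 h1).2.ok
  exact CTree.not_disjoint_self x hok.2.2.1

theorem part_mcon (hΦ : IsPotential Φ) (hε : 0 < ε) (hW : W.Finite)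
    (h : part Φ ε L W t a b) : mcon Φ ε L W t a b := by
  have h1 := part_ctc hΦ hε hW h
  have h2 := part_ne hΦ hε hW h
  obtain ⟨T, T', h3, h4, -⟩ := h
  rw [mpos_eq h3, mpos_eq h4] at h1
  exact mcon_of_stat hΦ hε hW h2 h3 h4 h1

/-- The contacts of living particles in terms of the M-paths. -/
theorem mcon_iff_mpos (hΦ : IsPotential Φ) (hε : 0 < ε) (hW : W.Finite)
    (ha : ∃ T, stat Φ ε L W a t = some T) (hb : ∃ T, stat Φ ε L W b t = some T) :
    mcon Φ ε L W t a b ↔ a ≠ b ∧ Ctc ε (mpos Φ ε L W a t) (mpos Φ ε L W b t) := by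
  obtain ⟨T, hT⟩ := ha
  obtain ⟨T', hT'⟩ := hb
  rw [mcon_iff_stat hΦ hε hW hT hT', mpos_eq hT, mpos_eq hT']

/-- At the birth of one of them, two particles are not a colliding pair. -/
theorem not_part_birth (hΦ : IsPotential Φ) (hε : 0 < ε) (hW : W.Finite) (h : a.1 = t) :
    ¬part Φ ε L W t a b := by
  rintro ⟨T, T', h1, h2, x, y, rfl, rfl, h3⟩
  obtain ⟨h4, h5⟩ := (stat_eq_some_iff hΦ hε hW).1 h1
  have h6 : (node x y).root.1 < sig Φ ε (node x y) := by
    have h7 := root_birth_le_sig hΦ hε h5.ok.1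
    exact (h7.trans (sig_le_ext hΦ hε h5.ok.1)).trans_lt h5.ok.2.2.2.2.2.1
  rw [h4, h] at h6
  exact absurd h5.sig_le (not_le.2 h6)

theorem dist_of_not_ctc {p q : Ph} (h : ¬Ctc ε p q) : ε ≤ ‖p.1 - q.1‖ := by
  by_contra hcon
  exact h (ctc_of_lt (not_le.1 hcon))

end Vale.Agent.P119.RB
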