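import Vale.Agent.P119.RB.Transfer

/-!
# P119: Lemma H at the first time of exposure, PART (`helper909`)

* `real_eq_st`, `Y_real_st`: if `a` is not exposed before `t` then its real position at `t` is the
  position of any of its live trees;
* `stat_of_not_badc`, `mcon_of_con`: contacts of particles not exposed before are M-contacts;
* `part_iff`, `Y_part`: two particles in contact, not exposed before, not bad: both or none have
  different histories.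
-/

open MeasureTheory Filter Topology Set
open scoped NNReal

noncomputable section

namespace Vale.Agent.P119.RB

open M CTree KU FB

variable {Φ : E3 → ℝ} {ε : ℝ} {L : ℕ} {X : Finset Src → ℝ → Src → Ph} {W W₁ W₂ : Finset Src}
  {a b : Src} {s t : ℝ}

section part

variable {hΦ : IsPotential Φ} {hε : 0 < ε} {hX : IsFam X}

/-- **Lemma H at the first time of exposure.** -/
theorem real_eq_st (hW : ∀ a ∈ W, 0 ≤ a.1) (hR : IsReal Φ ε W (X W)) {T : CTree}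
    (h : ∀ r < t, ¬(sys Φ ε L X hΦ hε hX).Exp W T.root r)
    (hl : live Φ ε L (W : Set Src) T t) : X W t T.root = st Φ ε T t := by
  have hWf := W.finite_toSet
  have ha : T.root ∈ W := Finset.mem_coe.1 (live.mem hl)
  have hR' := hR
  obtain ⟨k₀, hk₀⟩ := hR'
  have hBW := hk₀ k₀ le_rfl
  rcases live_sig hΦ hε hWf hl with ⟨h1, h2⟩ | ⟨T₀, h1, h2, h3, h4⟩
  · rw [hBW.pre T.root t h2.ge]
    conv_rhs => rw [h1]
    rfl
  · rw [← h4]
    have hc : Continuous (fun r => X W r T.root) := hBW.cont T.root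
    have hc' : Continuous (st Φ ε T₀) := continuous_st hΦ T₀
    have h5 : Tendsto (fun r => X W r T.root) (𝓝[<] t) (𝓝 (X W t T.root)) :=
      hc.continuousAt.tendsto.mono_left nhdsWithin_le_nhds
    have h6 : Tendsto (st Φ ε T₀) (𝓝[<] t) (𝓝 (st Φ ε T₀ t)) :=
      hc'.continuousAt.tendsto.mono_left nhdsWithin_le_nhds
    refine tendsto_nhds_unique_of_eventuallyEq h5 h6 ?_
    filter_upwards [Ioo_mem_nhdsLT h3] with r hr
    have h7 : stat Φ ε L (W : Set Src) T.root r = some T₀ :=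
      (stat_eq_some_iff hΦ hε hWf).2 ⟨h1, h2.lives_of_lt hr.2 hr.1.le⟩
    rw [real_eq_mpos (hΦ := hΦ) (hε := hε) (hX := hX) hW hR ha (h r hr.2) le_rfl, mpos_eq h7]

theorem stat_of_not_badc (h : ¬badc Φ ε L (W : Set Src) a t) (ha : a ∈ W) (h0 : 0 ≤ t)
    (hb : a.1 ≤ t) : ∃ T, stat Φ ε L (W : Set Src) a t = some T := by
  rw [← Option.ne_none_iff_exists']
  intro hn
  exact h ⟨t, le_rfl, Finset.mem_coe.2 ha, h0, hb, Or.inl hn⟩

/-- The contacts of two living particles which were not exposed before are M-contacts. -/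
theorem mcon_of_con (hW : ∀ a ∈ W, 0 ≤ a.1) (hR : IsReal Φ ε W (X W))
    (ha : ∀ r < t, ¬(sys Φ ε L X hΦ hε hX).Exp W a r)
    (hb : ∀ r < t, ¬(sys Φ ε L X hΦ hε hX).Exp W b r)
    (ba : ¬badc Φ ε L (W : Set Src) a t) (bb : ¬badc Φ ε L (W : Set Src) b t)
    (h : con Φ ε L X W t a b) : mcon Φ ε L (W : Set Src) t a b := by
  rcases h with h | h
  · exact h
  · obtain ⟨h1, h2, h3, h4, h5, h6, h7⟩ := h
    obtain ⟨T, hT⟩ := stat_of_not_badc ba h2 h4 h5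
    obtain ⟨T', hT'⟩ := stat_of_not_badc bb h3 h4 h6
    obtain ⟨e1, e2⟩ := (stat_eq_some_iff hΦ hε W.finite_toSet).1 hT
    obtain ⟨e3, e4⟩ := (stat_eq_some_iff hΦ hε W.finite_toSet).1 hT'
    have k1 := real_eq_st (hΦ := hΦ) (hε := hε) (hX := hX) hW hR (T := T) (by rw [e1]; exact ha)
      e2.live
    have k2 := real_eq_st (hΦ := hΦ) (hε := hε) (hX := hX) hW hR (T := T') (by rw [e3]; exact hb)
      e4.live
    rw [e1] at k1
    rw [e3] at k2
    rw [k1, k2] at h7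
    exact mcon_of_stat hΦ hε W.finite_toSet h1 hT hT' h7

theorem part_of_con (hW : ∀ a ∈ W, 0 ≤ a.1) (hR : IsReal Φ ε W (X W))
    (ha : ∀ r < t, ¬(sys Φ ε L X hΦ hε hX).Exp W a r)
    (hb : ∀ r < t, ¬(sys Φ ε L X hΦ hε hX).Exp W b r)
    (ba : ¬badc Φ ε L (W : Set Src) a t) (bb : ¬badc Φ ε L (W : Set Src) b t)
    (h : con Φ ε L X W t a b) : part Φ ε L (W : Set Src) t a b := by
  have h1 := mcon_of_con hW hR ha hb ba bb h
  by_contra hcon
  exact ba ⟨t, le_rfl, h1.mem.1, h1.nonneg hΦ hε, (h1.birth_le hΦ hε).1, Or.inr ⟨b, h1, hcon⟩⟩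

/-- Two partners which are not bad have both the same or both different histories. -/
theorem part_not_mem_D (bb₁ : ¬badc Φ ε L (W₁ : Set Src) b t)
    (bb₂ : ¬badc Φ ε L (W₂ : Set Src) b t) (hp : part Φ ε L (W₁ : Set Src) t a b)
    (ha : a ∉ (sys Φ ε L X hΦ hε hX).D W₁ W₂ t) : b ∉ (sys Φ ε L X hΦ hε hX).D W₁ W₂ t := by
  have h₁ := W₁.finite_toSet
  have h₂ := W₂.finite_toSet
  have hst := stat_of_sta (sta_eq_of_not_mem_D ha le_rfl)
  obtain ⟨T, T', h1, h2, x, y, rfl, rfl, h3⟩ := hp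
  have hby : y.root = b := ((stat_eq_some_iff hΦ hε h₁).1 h2).1
  have h4 : stat Φ ε L (W₂ : Set Src) b t = some (node y x) := by
    rw [← hby]
    exact stat_partner hΦ hε h₂ (hst ▸ h1) h3
  have hb₁ : b ∈ (W₁ : Set Src) := by
    have := live.mem ((stat_eq_some_iff hΦ hε h₁).1 h2).2.live
    rwa [((stat_eq_some_iff hΦ hε h₁).1 h2).1] at this
  have hb₂ : b ∈ (W₂ : Set Src) := by
    have := live.mem ((stat_eq_some_iff hΦ hε h₂).1 h4).2.live
    rwa [((stat_eq_some_iff hΦ hε h₂).1 h4).1] at this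
  rintro ⟨r, hr, hne⟩
  refine hne ?_
  change sta Φ ε L (W₁ : Set Src) b r = sta Φ ε L (W₂ : Set Src) b r
  have e1 : (b ∈ (W₁ : Set Src)) = (b ∈ (W₂ : Set Src)) := propext (iff_of_true hb₁ hb₂)
  have e2 : stat Φ ε L (W₁ : Set Src) b r = stat Φ ε L (W₂ : Set Src) b r := by
    rcases le_or_gt b.1 r with h5 | h5
    · rw [stat_cur hΦ hε h₁ h2 hr h5, stat_cur hΦ hε h₂ h4 hr h5]
    · rw [stat_unborn hΦ hε h5, stat_unborn hΦ hε h5]
  have e3 : badc Φ ε L (W₁ : Set Src) b r = badc Φ ε L (W₂ : Set Src) b r :=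
    propext (iff_of_false (fun h => bb₁ (h.mono hr)) (fun h => bb₂ (h.mono hr)))
  unfold sta
  rw [e1, e2, e3]

/-- **PART.** -/
theorem part_iff (hW : ∀ a ∈ W₁, 0 ≤ a.1) (hR : IsReal Φ ε W₁ (X W₁))
    (ha : ∀ r < t, ¬(sys Φ ε L X hΦ hε hX).Exp W₁ a r)
    (hb : ∀ r < t, ¬(sys Φ ε L X hΦ hε hX).Exp W₁ b r)
    (ba₁ : ¬badc Φ ε L (W₁ : Set Src) a t) (bb₁ : ¬badc Φ ε L (W₁ : Set Src) b t)
    (ba₂ : ¬badc Φ ε L (W₂ : Set Src) a t) (bb₂ : ¬badc Φ ε L (W₂ : Set Src) b t)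
    (h : con Φ ε L X W₁ t a b) :
    a ∈ (sys Φ ε L X hΦ hε hX).D W₁ W₂ t ↔ b ∈ (sys Φ ε L X hΦ hε hX).D W₁ W₂ t := by
  have hp := part_of_con hW hR ha hb ba₁ bb₁ h
  constructor
  · intro h1
    by_contra hcon
    exact part_not_mem_D ba₁ ba₂ ((part_comm hΦ).1 hp) hcon h1
  · intro h1
    by_contra hcon
    exact part_not_mem_D bb₁ bb₂ hp hcon h1

end part

section instance_

variable (hΦ : IsPotential Φ) (hε : 0 < ε)

/-- **Lemma H at the first time of exposure**: the real state is the state of any live tree. -/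
theorem Y_real_st (hW : ∀ a ∈ W, 0 ≤ a.1) {T : CTree}
    (h : ∀ r < t, ¬(Y Φ ε L hΦ hε).Exp W T.root r) (hl : live Φ ε L (W : Set Src) T t) :
    XR Φ ε W t T.root = st Φ ε T t :=
  real_eq_st hW (XR_isReal hΦ hε W) h hl

/-- **PART.** -/
theorem Y_part (hW : ∀ a ∈ W₁, 0 ≤ a.1) (ha : ∀ r < t, ¬(Y Φ ε L hΦ hε).Exp W₁ a r)
    (hb : ∀ r < t, ¬(Y Φ ε L hΦ hε).Exp W₁ b r)
    (ba₁ : ¬(Y Φ ε L hΦ hε).bad W₁ a t) (bb₁ : ¬(Y Φ ε L hΦ hε).bad W₁ b t)
    (ba₂ : ¬(Y Φ ε L hΦ hε).bad W₂ a t) (bb₂ : ¬(Y Φ ε L hΦ hε).bad W₂ b t)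
    (h : (Y Φ ε L hΦ hε).con W₁ t a b) :
    a ∈ (Y Φ ε L hΦ hε).D W₁ W₂ t ↔ b ∈ (Y Φ ε L hΦ hε).D W₁ W₂ t :=
  part_iff hW (XR_isReal hΦ hε W₁) ha hb ba₁ bb₁ ba₂ bb₂ h

theorem Y_con_symm (h : (Y Φ ε L hΦ hε).con W t a b) : (Y Φ ε L hΦ hε).con W t b a :=
  con.symm h

end instance_

end Vale.Agent.P119.RB
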