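import Vale.Agent.P119.RB.Birth1
import Vale.Agent.P119.KU.Scat3

/-!
# P119: real worlds with births, existence and measurability (`helper178`)

* `NF`: Newton flow with prescribed neighbours, `NF_deriv`, `measurable_NF`;
* `bw`: the world with births, constructed birth after birth, `isBW_bw`, `measurable_bw`;
* `exists_isBW`: existence for every finite set of labels;
* `IsBW.pull`: change of labels.
-/

open MeasureTheory Filter Topology Set
open scoped ENNReal NNReal

noncomputable section

namespace Vale.Agent.P119.RB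

open KU

/-! ### The Newton flow with prescribed neighbours -/

section flow

variable {ι : Type*} [Fintype ι] {Ψ : E3 → ℝ} {ε : ℝ}

/-- The vector field: the particle `i` feels the particles `N i`. -/
def nfield (Ψ : E3 → ℝ) (ε : ℝ) (N : ι → Finset ι) (Z : ι → Ph) : ι → Ph :=
  fun i => ((Z i).2, frc Ψ ε (N i) Z i)

theorem frc_lip (hΨ : Sm Ψ) (N : ι → Finset ι) : ∃ K' : ℝ≥0, ∀ (Z W : ι → Ph) (D : ℝ), 0 ≤ D →
    (∀ i, ‖(Z i).1 - (W i).1‖ ≤ D) → ∀ i, ‖frc Ψ ε (N i) Z i - frc Ψ ε (N i) W i‖ ≤ K' * D := by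
  obtain ⟨K, M, hK, hM⟩ := gradient_lipschitz_bounded hΨ.smooth hΨ.vanishing
  refine ⟨⟨|ε⁻¹| * (Fintype.card ι * (K * (|ε⁻¹| * 2))), by positivity⟩,
    fun Z W D hD h i => ?_⟩
  refine (frc_diff hK ε (Finset.card_le_univ _) hD (h i) fun j _ => h j).trans (le_of_eq ?_)
  change _ = |ε⁻¹| * (Fintype.card ι * (K * (|ε⁻¹| * 2))) * D
  ring

theorem nfield_lipschitz (hΨ : Sm Ψ) (N : ι → Finset ι) :
    ∃ K' : ℝ≥0, LipschitzWith K' (nfield Ψ ε N) := by
  obtain ⟨K', hK'⟩ := frc_lip (ε := ε) hΨ N
  refine ⟨max 1 K', LipschitzWith.of_dist_le_mul fun Z W => ?_⟩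
  rw [dist_pi_le_iff (by positivity)]
  intro i
  have h0 : ∀ j, dist (Z j) (W j) ≤ dist Z W := fun j => dist_le_pi_dist Z W j
  rw [Prod.dist_eq]
  apply max_le
  · have h1 : dist (Z i).2 (W i).2 ≤ dist Z W := (le_max_right _ _).trans (h0 i)
    calc dist (Z i).2 (W i).2 ≤ 1 * dist Z W := by rw [one_mul]; exact h1
      _ ≤ _ := by
        apply mul_le_mul_of_nonneg_right _ dist_nonneg
        exact_mod_cast le_max_left 1 K'
  · have h2 := hK' Z W (dist Z W) dist_nonneg (fun j => by
      rw [← dist_eq_norm]; exact (le_max_left _ _).trans (h0 j)) i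
    rw [← dist_eq_norm] at h2
    refine h2.trans ?_
    apply mul_le_mul_of_nonneg_right _ dist_nonneg
    exact_mod_cast le_max_right 1 K'

theorem exists_nflow (hΨ : Sm Ψ) (N : ι → Finset ι) (Z : ι → Ph) :
    ∃ γ : ℝ → ι → Ph, γ 0 = Z ∧ ∀ t, HasDerivAt γ (nfield Ψ ε N (γ t)) t := by
  obtain ⟨K, M, hK, hM⟩ := gradient_lipschitz_bounded hΨ.smooth hΨ.vanishing
  set G : (ι → E3) → (ι → E3) := fun x i => frc Ψ ε (N i) (fun j => ((x j, 0) : Ph)) i with hG
  obtain ⟨K', hK'⟩ := frc_lip (ε := ε) hΨ N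
  have hGL : LipschitzWith K' G := by
    refine LipschitzWith.of_dist_le_mul fun x y => ?_
    rw [dist_pi_le_iff (by positivity)]
    intro i
    have := hK' (fun j => ((x j, 0) : Ph)) (fun j => ((y j, 0) : Ph)) (dist x y) dist_nonneg
      (fun j => by rw [← dist_eq_norm]; exact dist_le_pi_dist x y j) i
    rw [← dist_eq_norm] at this
    exact this
  have hGM : ∀ x, ‖G x‖ ≤ ((‖ε⁻¹‖₊ * (Fintype.card ι * M) : ℝ≥0) : ℝ) := by
    intro x
    rw [pi_norm_le_iff_of_nonneg (by positivity)]
    intro i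
    simp only [hG]
    unfold frc
    rw [norm_neg, norm_smul, NNReal.coe_mul, coe_nnnorm]
    refine mul_le_mul_of_nonneg_left ?_ (norm_nonneg _)
    refine (norm_sum_le_of_le _ (fun j _ => hM _)).trans ?_
    rw [Finset.sum_const, nsmul_eq_mul]
    have h2 : ((N i).card : ℝ) ≤ Fintype.card ι := by exact_mod_cast Finset.card_le_univ (N i)
    push_cast
    exact mul_le_mul_of_nonneg_right h2 M.2
  obtain ⟨β, hβ0, hβ⟩ := exists_global hGL hGM ((fun i => (Z i).1), fun i => (Z i).2)
  refine ⟨fun t i => ((β t).1 i, (β t).2 i), ?_, fun t => ?_⟩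
  · funext i
    change ((β 0).1 i, (β 0).2 i) = Z i
    rw [hβ0]
  · rw [hasDerivAt_pi]
    intro i
    have hd1 : HasDerivAt (fun τ => (β τ).1) (β t).2 t := (hβ t).fst
    have hd2 : HasDerivAt (fun τ => (β τ).2) (G (β t).1) t := (hβ t).snd
    exact (hasDerivAt_pi.1 hd1 i).prodMk (hasDerivAt_pi.1 hd2 i)

open Classical in
/-- The Newton flow with neighbours `N`. -/
def NF (Ψ : E3 → ℝ) (ε : ℝ) (N : ι → Finset ι) (t : ℝ) (Z : ι → Ph) : ι → Ph :=
  if h : ∃ γ : ℝ → ι → Ph, γ 0 = Z ∧ ∀ t, HasDerivAt γ (nfield Ψ ε N (γ t)) t then h.choose t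
  else Z

theorem NF_spec (hΨ : Sm Ψ) (N : ι → Finset ι) (Z : ι → Ph) : NF Ψ ε N 0 Z = Z ∧
    ∀ t, HasDerivAt (fun s => NF Ψ ε N s Z) (nfield Ψ ε N (NF Ψ ε N t Z)) t := by
  have h := exists_nflow (ε := ε) hΨ N Z
  have e : (fun s => NF Ψ ε N s Z) = h.choose := by
    funext s
    unfold NF
    rw [dif_pos h]
  have h' := h.choose_spec
  rw [← e] at h'
  exact h'

theorem NF_zero (hΨ : Sm Ψ) (N : ι → Finset ι) (Z : ι → Ph) : NF Ψ ε N 0 Z = Z :=
  (NF_spec hΨ N Z).1

theorem NF_deriv (hΨ : Sm Ψ) (N : ι → Finset ι) (Z : ι → Ph) (t : ℝ) (i : ι) :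
    HasDerivAt (fun s => NF Ψ ε N s Z i)
      ((NF Ψ ε N t Z i).2, frc Ψ ε (N i) (NF Ψ ε N t Z) i) t :=
  hasDerivAt_pi.1 ((NF_spec hΨ N Z).2 t) i

theorem NF_continuous (hΨ : Sm Ψ) (N : ι → Finset ι) (Z : ι → Ph) :
    Continuous fun t => NF Ψ ε N t Z :=
  continuous_iff_continuousAt.2 fun t => ((NF_spec hΨ N Z).2 t).continuousAt

/-- A particle without neighbours flies freely. -/
theorem NF_free (hΨ : Sm Ψ) (N : ι → Finset ι) (Z : ι → Ph) {i : ι} (hi : N i = ∅) (t : ℝ) :
    NF Ψ ε N t Z i = free t (Z i) := by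
  have hd : ∀ t, HasDerivAt (fun s => NF Ψ ε N s Z i) ((NF Ψ ε N t Z i).2, (0 : E3)) t := by
    intro t
    have := NF_deriv (ε := ε) hΨ N Z t i
    rwa [hi, frc_empty] at this
  have hd1 : ∀ t, HasDerivAt (fun s => (NF Ψ ε N s Z i).1) (NF Ψ ε N t Z i).2 t :=
    fun t => (hd t).fst
  have hd2 : ∀ t, HasDerivAt (fun s => (NF Ψ ε N s Z i).2) (0 : E3) t := fun t => (hd t).snd
  have hv : ∀ t, (NF Ψ ε N t Z i).2 = (Z i).2 := by
    intro t
    have h1 := is_const_of_deriv_eq_zero (f := fun s => (NF Ψ ε N s Z i).2)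
      (fun s => (hd2 s).differentiableAt) (fun s => (hd2 s).deriv) t 0
    simp only [NF_zero hΨ] at h1
    exact h1
  have hx : ∀ t, (NF Ψ ε N t Z i).1 - t • (Z i).2 = (Z i).1 := by
    intro t
    have h2 : ∀ s, HasDerivAt (fun s => (NF Ψ ε N s Z i).1 - s • (Z i).2) 0 s := by
      intro s
      have h3 : HasDerivAt (fun s => (NF Ψ ε N s Z i).1 - s • (Z i).2)
          ((NF Ψ ε N s Z i).2 - (1 : ℝ) • (Z i).2) s :=
        (hd1 s).sub ((hasDerivAt_id s).smul_const (Z i).2)
      rwa [hv, one_smul, sub_self] at h3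
    have h1 := is_const_of_deriv_eq_zero (f := fun s => (NF Ψ ε N s Z i).1 - s • (Z i).2)
      (fun s => (h2 s).differentiableAt) (fun s => (h2 s).deriv) t 0
    simp only [NF_zero hΨ, zero_smul, sub_zero] at h1
    exact h1
  refine Prod.ext ?_ (hv t)
  change (NF Ψ ε N t Z i).1 = (Z i).1 + t • (Z i).2
  rw [← hx t]
  exact (sub_add_cancel _ _).symm

theorem measurable_NF (hΨ : Sm Ψ) (N : ι → Finset ι) :
    Measurable fun p : ℝ × (ι → Ph) => NF Ψ ε N (max p.1 0) p.2 := by
  obtain ⟨K, hK⟩ := nfield_lipschitz (ε := ε) hΨ N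
  refine measurable_uncurry_of_continuous_of_measurable
    (u := fun t (Z : ι → Ph) => NF Ψ ε N (max t 0) Z) (fun Z => ?_) (fun t => ?_)
  · exact (NF_continuous hΨ N Z).comp (continuous_id.max continuous_const)
  · have h0 : 0 ≤ max t 0 := le_max_right _ _
    have h2 : LipschitzWith (Real.toNNReal (Real.exp (K * max t 0)))
        (fun Z => NF Ψ ε N (max t 0) Z) := by
      refine LipschitzWith.of_dist_le_mul fun Z W => ?_
      have h3 := dist_le_of_trajectories_ODE (v := fun _ => nfield Ψ ε N) (K := K)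
        (f := fun s => NF Ψ ε N s Z) (g := fun s => NF Ψ ε N s W) (a := 0) (b := max t 0)
        (δ := dist Z W) (fun _ => hK)
        (fun s _ => ((NF_spec hΨ N Z).2 s).continuousAt.continuousWithinAt)
        (fun s _ => ((NF_spec hΨ N Z).2 s).hasDerivWithinAt)
        (fun s _ => ((NF_spec hΨ N W).2 s).continuousAt.continuousWithinAt)
        (fun s _ => ((NF_spec hΨ N W).2 s).hasDerivWithinAt)
        (by rw [NF_zero hΨ, NF_zero hΨ]) (max t 0) ⟨h0, le_rfl⟩
      rw [Real.coe_toNNReal _ (Real.exp_pos _).le, mul_comm]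
      simpa using h3
    exact h2.continuous.measurable

end flow

/-! ### Construction of the world with births -/

section construction

variable {ι : Type*} {ε : ℝ}

open Classical in
/-- The neighbours at the time of the last birth. -/
def nb (ε : ℝ) (β : ι → ℝ) (W : Finset ι) (x : ℝ → ι → Ph) (i : ι) : Finset ι :=
  if i ∈ W then W.filter fun j => On ε β x i j else ∅

variable [Fintype ι] {Ψ : E3 → ℝ}

open Classical in
/-- The world with births, constructed birth after birth (in at most `n` steps). -/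
def bw (Ψ : E3 → ℝ) (ε : ℝ) (β : ι → ℝ) (ℓ : ι → Ph) : ℕ → Finset ι → ℝ → ι → Ph
  | 0, _, t => fun i => free t (ℓ i)
  | n + 1, W, t =>
    if h : W.Nonempty then
      if t ≤ W.sup' h β then bw Ψ ε β ℓ n (W.filter fun i => β i < W.sup' h β) t
      else NF Ψ ε (nb ε β W (bw Ψ ε β ℓ n (W.filter fun i => β i < W.sup' h β)))
        (t - W.sup' h β) (bw Ψ ε β ℓ n (W.filter fun i => β i < W.sup' h β) (W.sup' h β))
    else fun i => free t (ℓ i)

omit [Fintype ι] in
theorem isBW_free (β : ι → ℝ) (ℓ : ι → Ph) : IsBW Ψ ε β ℓ ∅ (fun t i => free t (ℓ i)) :=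
  ⟨fun _ _ _ => rfl, fun _ _ _ => rfl, fun a => continuous_iff_continuousAt.2 fun t =>
    (hasDerivAt_free (ℓ a) t).continuousAt, fun _ h => absurd h (Finset.notMem_empty _)⟩

/-- The step of the construction. -/
theorem isBW_step (hΨ : Sm Ψ) {β : ι → ℝ} {ℓ : ι → Ph} {W V : Finset ι} {b : ℝ}
    (hb : ∀ i ∈ W, β i ≤ b) (hV : ∀ i, i ∈ V ↔ i ∈ W ∧ β i < b) {x : ℝ → ι → Ph}
    (hx : IsBW Ψ ε β ℓ V x) {y : ℝ → ι → Ph} (hy : ∀ t ≤ b, y t = x t)
    (hy' : ∀ t, b < t → y t = NF Ψ ε (nb ε β W x) (t - b) (x b)) : IsBW Ψ ε β ℓ W y := by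
  classical
  have hyb : ∀ t, b ≤ t → y t = NF Ψ ε (nb ε β W x) (t - b) (x b) := by
    intro t ht
    rcases eq_or_lt_of_le ht with h | h
    · rw [← h, hy b le_rfl, sub_self, NF_zero hΨ]
    · exact hy' t h
  have hon : ∀ i ∈ W, ∀ j ∈ W, (On ε β y i j ↔ On ε β x i j) := by
    intro i hi j hj
    have h1 := hy (max (β i) (β j)) (max_le (hb i hi) (hb j hj))
    exact On.congr (by rw [h1]) (by rw [h1])
  refine ⟨fun i hi t => ?_, fun i t ht => ?_, fun i => ?_, fun i hi t ht => ?_⟩
  · have hiV : i ∉ V := fun h => hi ((hV i).1 h).1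
    rcases le_total t b with h | h
    · rw [hy t h, hx.off i hiV]
    · have hn : nb ε β W x i = ∅ := by unfold nb; rw [if_neg hi]
      rw [hyb t h, NF_free hΨ _ _ hn, hx.off i hiV, ← free_add]
      congr 1
      ring
  · by_cases hi : i ∈ W
    · rw [hy t (ht.trans (hb i hi)), hx.pre i t ht]
    · have hiV : i ∉ V := fun h => hi ((hV i).1 h).1
      rcases le_total t b with h | h
      · rw [hy t h, hx.off i hiV]
      · have hn : nb ε β W x i = ∅ := by unfold nb; rw [if_neg hi]
        rw [hyb t h, NF_free hΨ _ _ hn, hx.off i hiV, ← free_add]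
        congr 1
        ring
  · have h1 : (fun t => y t i) = fun t => if t ≤ b then x t i else
        NF Ψ ε (nb ε β W x) (t - b) (x b) i := by
      funext t
      split_ifs with h
      · rw [hy t h]
      · rw [hy' t (not_le.1 h)]
    rw [h1]
    refine Continuous.if_le (hx.cont i) ?_ continuous_id continuous_const ?_
    · exact (continuous_apply i).comp ((NF_continuous hΨ _ _).comp (continuous_id.sub
        continuous_const))
    · intro t ht
      rw [ht, sub_self, NF_zero hΨ]
  · rcases lt_or_ge t b with h | h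
    · -- before the last birth
      have hiV : i ∈ V := (hV i).2 ⟨hi, lt_of_le_of_lt ht h⟩
      have h1 := hx.deriv i hiV t ht
      have h2 : nbr ε β W y t i = nbr ε β V x t i := by
        ext j
        simp only [mem_nbr]
        constructor
        · rintro ⟨h3, h4, h5⟩
          exact ⟨(hV j).2 ⟨h3, lt_of_le_of_lt ((le_max_right _ _).trans h4) h⟩, h4,
            (hon i hi j h3).1 h5⟩
        · rintro ⟨h3, h4, h5⟩
          have h6 := ((hV j).1 h3).1
          exact ⟨h6, h4, (hon i hi j h6).2 h5⟩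
      rw [h2, hy t h.le]
      refine h1.congr_of_eventuallyEq ?_ (by rw [hy t h.le])
      have h3 : ∀ᶠ r in 𝓝[Ici t] t, r < b := nhdsWithin_le_nhds (Iio_mem_nhds h)
      filter_upwards [h3] with r hr
      rw [hy r hr.le]
    · -- after the last birth
      have h1 := (NF_deriv (ε := ε) hΨ (nb ε β W x) (x b) (t - b) i).comp_sub_const t b
      have h2 : nbr ε β W y t i = nb ε β W x i := by
        ext j
        unfold nb
        rw [if_pos hi, Finset.mem_filter, mem_nbr]
        constructor
        · rintro ⟨h3, -, h5⟩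
          exact ⟨h3, (hon i hi j h3).1 h5⟩
        · rintro ⟨h3, h5⟩
          exact ⟨h3, (max_le (hb i hi) (hb j h3)).trans h, (hon i hi j h3).2 h5⟩
      rw [h2, hyb t h]
      refine h1.hasDerivWithinAt.congr ?_ (by rw [hyb t h])
      intro r hr
      have hr' : t ≤ r := hr
      rw [hyb r (h.trans hr')]

theorem isBW_bw (hΨ : Sm Ψ) (β : ι → ℝ) (ℓ : ι → Ph) (n : ℕ) (W : Finset ι) (hn : W.card ≤ n) :
    IsBW Ψ ε β ℓ W (bw Ψ ε β ℓ n W) := by
  classical
  induction n generalizing W with
  | zero =>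
    have : W = ∅ := Finset.card_eq_zero.1 (Nat.le_zero.1 hn)
    rw [this]
    exact isBW_free β ℓ
  | succ n ih =>
    by_cases hW : W.Nonempty
    · obtain ⟨j, hj, hjb⟩ := W.exists_mem_eq_sup' hW β
      set b := W.sup' hW β with hb
      set V := W.filter fun i => β i < b with hV
      have hcard : V.card ≤ n := by
        have h1 : V ⊂ W := by
          refine ⟨Finset.filter_subset _ _, fun h => ?_⟩
          have h2 := h hj
          rw [hV, Finset.mem_filter] at h2
          rw [← hjb] at h2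
          exact lt_irrefl _ h2.2
        have := Finset.card_lt_card h1
        omega
      refine isBW_step hΨ (b := b) (V := V) (fun i hi => Finset.le_sup' β hi)
        (fun i => by rw [hV, Finset.mem_filter]) (ih V hcard) (fun t ht => ?_) (fun t ht => ?_)
      · simp only [bw]
        rw [dif_pos hW, if_pos ht]
      · simp only [bw]
        rw [dif_pos hW, if_neg (not_le.2 ht)]
    · rw [Finset.not_nonempty_iff_eq_empty] at hW
      subst hW
      have : bw Ψ ε β ℓ (n + 1) ∅ = fun t i => free t (ℓ i) := by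
        funext t
        simp only [bw]
        rw [dif_neg Finset.not_nonempty_empty]
      rw [this]
      exact isBW_free β ℓ

end construction

/-! ### Measurability -/

section measurability

theorem measurable_cases {X D E : Type*} [MeasurableSpace X] [MeasurableSpace E] [Finite D]
    {g : X → D} (hg : ∀ d, MeasurableSet {x | g x = d}) {F : D → X → E}
    (hF : ∀ d, Measurable (F d)) : Measurable fun x => F (g x) x := by
  intro s hs
  have : (fun x => F (g x) x) ⁻¹' s = ⋃ d, ({x | g x = d} ∩ F d ⁻¹' s) := by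
    ext x
    simp
  rw [this]
  exact MeasurableSet.iUnion fun d => (hg d).inter (hF d hs)

theorem measurableSet_iff_const {X : Type*} [MeasurableSpace X] {p : X → Prop}
    (hp : MeasurableSet {x | p x}) (q : Prop) : MeasurableSet {x | p x ↔ q} := by
  by_cases hq : q
  · simpa only [hq, iff_true] using hp
  · simp only [hq, iff_false]
    exact hp.compl

theorem measurableSet_finset_eq {X ι : Type*} [MeasurableSpace X] [Countable ι]
    {g : X → Finset ι} (h : ∀ i, MeasurableSet {x | i ∈ g x}) (V : Finset ι) :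
    MeasurableSet {x | g x = V} := by
  have : {x | g x = V} = ⋂ i, {x | i ∈ g x ↔ i ∈ V} := by
    ext x
    simp only [Set.mem_ofPred_eq, mem_iInter, Finset.ext_iff]
  rw [this]
  exact MeasurableSet.iInter fun i => measurableSet_iff_const (h i) _

theorem measurable_free_comp {X : Type*} [MeasurableSpace X] {t : X → ℝ} {p : X → Ph}
    (ht : Measurable t) (hp : Measurable p) : Measurable fun x => free (t x) (p x) :=
  continuous_free.measurable.comp (ht.prodMk hp)

variable {ι : Type*} [Fintype ι] {Ψ : E3 → ℝ} {ε : ℝ}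

/-- **Joint measurability** in the births, the lines and the time. -/
theorem measurable_bw {X : Type*} [MeasurableSpace X] (hΨ : Sm Ψ) {β : X → ι → ℝ}
    {ℓ : X → ι → Ph} (hβ : Measurable β) (hℓ : Measurable ℓ) (n : ℕ) (W : Finset ι) {t : X → ℝ}
    (ht : Measurable t) : Measurable fun x => bw Ψ ε (β x) (ℓ x) n W (t x) := by
  classical
  have hβi : ∀ i, Measurable fun x => β x i := fun i => (measurable_pi_apply i).comp hβ
  have hℓi : ∀ i, Measurable fun x => ℓ x i := fun i => (measurable_pi_apply i).comp hℓ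
  induction n generalizing W t with
  | zero => exact measurable_pi_lambda _ fun i => measurable_free_comp ht (hℓi i)
  | succ n ih =>
    by_cases hW : W.Nonempty
    swap
    · have : (fun x => bw Ψ ε (β x) (ℓ x) (n + 1) W (t x)) =
          fun x i => free (t x) (ℓ x i) := by
        funext x
        simp only [bw]
        rw [dif_neg hW]
      rw [this]
      exact measurable_pi_lambda _ fun i => measurable_free_comp ht (hℓi i)
    set b : X → ℝ := fun x => W.sup' hW (β x) with hb
    have hbm : Measurable b := by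
      have h1 := Finset.measurable_sup' hW (f := fun i x => β x i) fun i _ => hβi i
      convert h1 using 1
      funext x
      rw [Finset.sup'_apply]
    have hon : ∀ V i j, MeasurableSet {x | On ε (β x) (bw Ψ ε (β x) (ℓ x) n V) i j} := by
      intro V i j
      have h1 := ih V ((hβi i).max (hβi j))
      have h2 : ∀ k, Measurable fun x =>
          (bw Ψ ε (β x) (ℓ x) n V (max (β x i) (β x j)) k).1 := fun k =>
        measurable_fst.comp ((measurable_pi_apply k).comp h1)
      exact measurableSet_le measurable_const ((h2 i).sub (h2 j)).norm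
    have hnb : ∀ V (N : ι → Finset ι),
        MeasurableSet {x | nb ε (β x) W (bw Ψ ε (β x) (ℓ x) n V) = N} := by
      intro V N
      have h1 : {x | nb ε (β x) W (bw Ψ ε (β x) (ℓ x) n V) = N} =
          ⋂ i, {x | nb ε (β x) W (bw Ψ ε (β x) (ℓ x) n V) i = N i} := by
        ext x
        simp only [Set.mem_ofPred_eq, mem_iInter, funext_iff]
      rw [h1]
      refine MeasurableSet.iInter fun i => measurableSet_finset_eq (fun j => ?_) _
      by_cases hi : i ∈ W
      · by_cases hj : j ∈ W
        · have : {x | j ∈ nb ε (β x) W (bw Ψ ε (β x) (ℓ x) n V) i} =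
              {x | On ε (β x) (bw Ψ ε (β x) (ℓ x) n V) i j} := by
            ext x
            simp only [Set.mem_ofPred_eq, nb, if_pos hi, Finset.mem_filter, hj, true_and]
          rw [this]
          exact hon V i j
        · have : {x | j ∈ nb ε (β x) W (bw Ψ ε (β x) (ℓ x) n V) i} = ∅ := by
            ext x
            simp only [Set.mem_ofPred_eq, nb, if_pos hi, Finset.mem_filter, hj, false_and,
              mem_empty_iff_false]
          rw [this]
          exact MeasurableSet.empty
      · have : {x | j ∈ nb ε (β x) W (bw Ψ ε (β x) (ℓ x) n V) i} = ∅ := by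
          ext x
          simp only [Set.mem_ofPred_eq, nb, if_neg hi, Finset.notMem_empty, mem_empty_iff_false]
        rw [this]
        exact MeasurableSet.empty
    -- the function, for a fixed set of earlier particles
    set F : Finset ι → X → (ι → Ph) := fun V x =>
      if t x ≤ b x then bw Ψ ε (β x) (ℓ x) n V (t x)
      else NF Ψ ε (nb ε (β x) W (bw Ψ ε (β x) (ℓ x) n V)) (max (t x - b x) 0)
        (bw Ψ ε (β x) (ℓ x) n V (b x)) with hF
    have hFm : ∀ V, Measurable (F V) := by
      intro V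
      refine Measurable.ite (measurableSet_le ht hbm) (ih V ht) ?_
      refine measurable_cases (g := fun x => nb ε (β x) W (bw Ψ ε (β x) (ℓ x) n V))
        (F := fun N x => NF Ψ ε N (max (t x - b x) 0) (bw Ψ ε (β x) (ℓ x) n V (b x)))
        (hnb V) fun N => ?_
      exact (measurable_NF hΨ N).comp ((ht.sub hbm).prodMk (ih V hbm))
    have hVm : ∀ V, MeasurableSet {x | (W.filter fun i => β x i < b x) = V} := by
      refine measurableSet_finset_eq fun i => ?_
      by_cases hi : i ∈ W
      · simp only [Finset.mem_filter, hi, true_and]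
        exact measurableSet_lt (hβi i) hbm
      · simp only [Finset.mem_filter, hi, false_and, Set.ofPred_false]
        exact MeasurableSet.empty
    have h1 : (fun x => bw Ψ ε (β x) (ℓ x) (n + 1) W (t x)) =
        fun x => F (W.filter fun i => β x i < b x) x := by
      funext x
      simp only [bw, hF]
      rw [dif_pos hW]
      by_cases h : t x ≤ W.sup' hW (β x)
      · rw [if_pos h, if_pos h]
      · rw [if_neg h, if_neg h, max_eq_left (by rw [not_le] at h; linarith)]
    rw [h1]
    exact measurable_cases hVm hFm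

end measurability

/-! ### Change of labels, existence -/

section labels

variable {α κ : Type*} {Ψ : E3 → ℝ} {ε : ℝ}

theorem frc_map (e : κ ↪ α) (S : Finset κ) (y : α → Ph) (i : κ) :
    frc Ψ ε (S.map e) y (e i) = frc Ψ ε S (fun j => y (e j)) i := by
  unfold frc
  rw [Finset.sum_map]

theorem nbr_map (e : κ ↪ α) {β : α → ℝ} {W : Finset κ} {y : ℝ → α → Ph} {t : ℝ} {i : κ} :
    nbr ε β (W.map e) y t (e i) = (nbr ε (fun j => β (e j)) W (fun t j => y t (e j)) t i).map e := by
  ext a
  simp only [mem_nbr, Finset.mem_map]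
  constructor
  · rintro ⟨⟨j, hj, rfl⟩, h1, h2⟩
    exact ⟨j, ⟨hj, h1, h2⟩, rfl⟩
  · rintro ⟨j, ⟨hj, h1, h2⟩, rfl⟩
    exact ⟨⟨j, hj, rfl⟩, h1, h2⟩

/-- Restriction to other labels. -/
theorem IsBW.pull (e : κ ↪ α) {β : α → ℝ} {ℓ : α → Ph} {W : Finset κ} {y : ℝ → α → Ph}
    (hy : IsBW Ψ ε β ℓ (W.map e) y) :
    IsBW Ψ ε (fun j => β (e j)) (fun j => ℓ (e j)) W (fun t j => y t (e j)) := by
  refine ⟨fun i hi t => hy.off _ (fun h => hi ?_) t, fun i t ht => hy.pre _ t ht,
    fun i => hy.cont _, fun i hi t ht => ?_⟩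
  · obtain ⟨j, hj, he⟩ := Finset.mem_map.1 h
    rwa [← e.injective he]
  · have h1 := hy.deriv (e i) (Finset.mem_map_of_mem e hi) t ht
    rwa [nbr_map, frc_map] at h1

/-- **Existence** for every finite set of labels. -/
theorem exists_isBW (hΨ : Sm Ψ) (β : α → ℝ) (ℓ : α → Ph) (W : Finset α) :
    ∃ x, IsBW Ψ ε β ℓ W x := by
  classical
  set e : W ↪ α := Function.Embedding.subtype _ with he
  have hx := isBW_bw (ε := ε) hΨ (fun j : W => β (e j)) (fun j : W => ℓ (e j)) W.card
    Finset.univ (by rw [Finset.card_univ, Fintype.card_coe])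
  set x := bw Ψ ε (fun j : W => β (e j)) (fun j : W => ℓ (e j)) W.card Finset.univ
  set y : ℝ → α → Ph := fun t a => if h : a ∈ W then x t ⟨a, h⟩ else free t (ℓ a) with hy
  have hyx : ∀ t (i : W), y t (e i) = x t i := by
    intro t i
    have : e i ∈ W := i.2
    simp only [hy, this, dif_pos]
    rfl
  have hyx' : (fun t (j : W) => y t (e j)) = x := by
    funext t j
    exact hyx t j
  have hWm : (Finset.univ : Finset W).map e = W := by
    ext a
    simp [he]
  refine ⟨y, fun a ha t => ?_, fun a t ht => ?_, fun a => ?_, fun a ha t ht => ?_⟩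
  · simp only [hy, ha, dif_neg, not_false_eq_true]
  · by_cases ha : a ∈ W
    · have := hyx t ⟨a, ha⟩
      rw [hx.pre ⟨a, ha⟩ t ht] at this
      exact this
    · simp only [hy, ha, dif_neg, not_false_eq_true]
  · by_cases ha : a ∈ W
    · have h1 : (fun t => y t a) = fun t => x t ⟨a, ha⟩ := by
        funext t
        exact hyx t ⟨a, ha⟩
      rw [h1]
      exact hx.cont _
    · have h1 : (fun t => y t a) = fun t => free t (ℓ a) := by
        funext t
        simp only [hy, ha, dif_neg, not_false_eq_true]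
      rw [h1]
      exact continuous_iff_continuousAt.2 fun t => (hasDerivAt_free (ℓ a) t).continuousAt
  · have h1 := hx.deriv ⟨a, ha⟩ (Finset.mem_univ _) t ht
    have h2 : (fun s => y s a) = fun s => x s ⟨a, ha⟩ := by
      funext t
      exact hyx t ⟨a, ha⟩
    have h3 := nbr_map (ε := ε) e (β := β) (W := Finset.univ) (y := y) (t := t) (i := ⟨a, ha⟩)
    rw [hWm, hyx'] at h3
    have h4 : frc Ψ ε (nbr ε β W y t a) (y t) a = frc Ψ ε
        (nbr ε (fun j => β (e j)) Finset.univ x t ⟨a, ha⟩) (x t) ⟨a, ha⟩ := by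
      rw [show nbr ε β W y t a = _ from h3]
      have h5 := frc_map (Ψ := Ψ) (ε := ε) e
        (nbr ε (fun j => β (e j)) Finset.univ x t ⟨a, ha⟩) (y t) ⟨a, ha⟩
      rw [show (fun j => y t (e j)) = x t from funext fun j => hyx t j] at h5
      exact h5
    rw [h2, h4, show y t a = x t ⟨a, ha⟩ from hyx t ⟨a, ha⟩]
    exact h1

end labels

end Vale.Agent.P119.RB
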