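import Vale.Agent.P119.RB.Birth3
import Vale.Agent.P119.KU.Scat10
import Vale.Agent.P119.M.Near

/-!
# P119: real worlds with births, free flight and isolated pairs (`helper178`)

* `IsBW.free_on`, `RB_free_on`: a particle without contact flies freely;
* `RB_pair_on`: an isolated pair follows `pairEv`;
* `RB_adm`: in the singular case interacting particles are never at the same place;
* `RB_ctc_of_frequently`, `RB_far_right`: contact times are closed under decreasing limits;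
* `RB_hasDerivAt_pos`: the positions are differentiable.
-/

open MeasureTheory Filter Topology Set
open scoped ENNReal NNReal

noncomputable section

namespace Vale.Agent.P119.RB

open KU

section local_motion

variable {α : Type*} {Ψ Φ : E3 → ℝ} {ε : ℝ} {β : α → ℝ} {ℓ : α → Ph} {W : Finset α}
  {x : ℝ → α → Ph}

theorem ge_left {f : ℝ → ℝ} (hf : Continuous f) {c s t : ℝ} (hst : s < t)
    (h : ∀ r ∈ Ioo s t, c ≤ f r) : c ≤ f s := by
  have h1 : Tendsto f (𝓝[>] s) (𝓝 (f s)) := hf.continuousAt.tendsto.mono_left nhdsWithin_le_nhds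
  refine ge_of_tendsto h1 ?_
  filter_upwards [Ioo_mem_nhdsGT hst] with r hr using h r hr

theorem IsBW.continuous_dist (hx : IsBW Ψ ε β ℓ W x) (a b : α) :
    Continuous fun r => ‖(x r a).1 - (x r b).1‖ := by
  have h1 := hx.cont a
  have h2 := hx.cont b
  fun_prop

/-- All paths have right derivatives, also outside the world. -/
theorem IsBW.hasDeriv_pos' (hx : IsBW Ψ ε β ℓ W x) (a : α) (t : ℝ) :
    HasDerivWithinAt (fun s => (x s a).1) (x t a).2 (Ici t) t := by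
  by_cases ha : a ∈ W
  · exact hx.hasDeriv_pos ha t
  · have h1 : (fun s => x s a) = fun s => free s (ℓ a) := by
      funext s
      exact hx.off a ha s
    have h2 : HasDerivWithinAt (fun s => (free s (ℓ a)).1) (ℓ a).2 (Ici t) t :=
      (hasDerivWithinAt_free (ℓ a) t (Ici t)).fst
    rw [hx.off a ha t]
    have h3 : (fun s => (x s a).1) = fun s => (free s (ℓ a)).1 := by
      funext s
      rw [hx.off a ha s]
    rw [h3]
    exact h2

/-- Motion without force. -/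
theorem free_of_frc {x : ℝ → Ph} (hc : Continuous x) {s t : ℝ}
    (hd : ∀ r ∈ Ico s t, HasDerivWithinAt x ((x r).2, (0 : E3)) (Ici r) r) :
    ∀ r ∈ Icc s t, x r = free (r - s) (x s) := by
  have hv : ∀ r ∈ Icc s t, (x r).2 = (x s).2 := by
    have h1 : Continuous fun r => (x r).2 := by fun_prop
    exact constant_of_has_deriv_right_zero h1.continuousOn fun r hr => (hd r hr).snd
  have hp : ∀ r ∈ Icc s t, (x r).1 - (r - s) • (x s).2 = (x s).1 - (s - s) • (x s).2 := by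
    have h1 : Continuous fun r => (x r).1 - (r - s) • (x s).2 := by fun_prop
    refine constant_of_has_deriv_right_zero h1.continuousOn fun r hr => ?_
    have h2 : HasDerivWithinAt (fun r => (x r).1) (x r).2 (Ici r) r := (hd r hr).fst
    have h3 : HasDerivWithinAt (fun r => (r - s) • (x s).2) ((1 : ℝ) • (x s).2) (Ici r) r :=
      (((hasDerivAt_id r).sub_const s).smul_const (x s).2).hasDerivWithinAt
    have h4 := h2.sub h3
    rw [hv r ⟨hr.1, hr.2.le⟩, one_smul, sub_self] at h4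
    exact h4
  intro r hr
  refine Prod.ext ?_ (hv r hr)
  have h5 := hp r hr
  rw [sub_self, zero_smul, sub_zero] at h5
  change (x r).1 = (x s).1 + (r - s) • (x s).2
  rw [← h5]
  exact (sub_add_cancel _ _).symm

theorem IsBW.frc_zero (hΨ : Sm Ψ) (hε : 0 < ε) {a : α} {r : ℝ}
    (H : β a ≤ r → ∀ a' ∈ W, a' ≠ a → β a' ≤ r → ε ≤ ‖(x r a).1 - (x r a').1‖) :
    frc Ψ ε (nbr ε β W x r a) (x r) a = 0 := by
  rw [frc_subset hΨ hε (Finset.empty_subset _), frc_empty]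
  intro a' ha' _ hne
  obtain ⟨h1, h2, -⟩ := mem_nbr.1 ha'
  exact H ((le_max_left _ _).trans h2) a' h1 hne ((le_max_right _ _).trans h2)

/-- **Free flight.** -/
theorem IsBW.free_on (hΨ : Sm Ψ) (hε : 0 < ε) (hx : IsBW Ψ ε β ℓ W x) {a : α} {s t : ℝ}
    (H : ∀ r ∈ Ioo s t, β a ≤ r → ∀ a' ∈ W, a' ≠ a → β a' ≤ r →
      ε ≤ ‖(x r a).1 - (x r a').1‖) :
    ∀ r ∈ Icc s t, x r a = free (r - s) (x s a) := by
  by_cases ha : a ∈ W
  · refine free_of_frc (x := fun r => x r a) (hx.cont a) fun r hr => ?_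
    have h1 := hx.deriv' ha r
    rwa [IsBW.frc_zero hΨ hε] at h1
    intro hb a' ha' hne hb'
    rcases eq_or_lt_of_le hr.1 with h | h
    · subst h
      exact ge_left (hx.continuous_dist a a') hr.2 fun u hu =>
        H u hu (hb.trans hu.1.le) a' ha' hne (hb'.trans hu.1.le)
    · exact H r ⟨h, hr.2⟩ hb a' ha' hne hb'
  · intro r _
    rw [hx.off a ha, hx.off a ha, ← free_add]
    congr 1
    ring

theorem RB_free_on (hΦ : IsPotential Φ) (hε : 0 < ε) {a : α} {s t : ℝ}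
    (H : ∀ r ∈ Ioo s t, β a ≤ r → ∀ a' ∈ W, a' ≠ a → β a' ≤ r →
      ε ≤ ‖(RB Φ ε β ℓ W r a).1 - (RB Φ ε β ℓ W r a').1‖) :
    ∀ r ∈ Icc s t, RB Φ ε β ℓ W r a = free (r - s) (RB Φ ε β ℓ W s a) := by
  obtain ⟨k, hk, h⟩ := RB_spec hΦ hε β ℓ W
  exact (h k le_rfl).1.free_on (sm_trunc hΦ hk) hε H

theorem adm_of_near {y : E3} {k : ℝ} (h1 : trunc Φ k =ᶠ[𝓝 y] Φ)
    (h2 : trunc Φ (k + 1) =ᶠ[𝓝 y] Φ) : Adm Φ y := by
  by_cases hs : ContDiff ℝ 2 Φ
  · exact Or.inl hs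
  · refine Or.inr fun hy => ?_
    have e1 := h1.eq_of_nhds
    have e2 := h2.eq_of_nhds
    unfold trunc at e1 e2
    rw [if_neg hs] at e1 e2
    simp only [hy, if_true] at e1 e2
    linarith

/-- Interacting particles are never at the same place if the potential is singular. -/
theorem RB_adm (hΦ : IsPotential Φ) (hε : 0 < ε) {t : ℝ} {a a' : α} (ha : a ∈ W)
    (ha' : a' ∈ nbr ε β W (RB Φ ε β ℓ W) t a) :
    Adm Φ (ε⁻¹ • ((RB Φ ε β ℓ W t a).1 - (RB Φ ε β ℓ W t a').1)) := by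
  obtain ⟨k, hk, h⟩ := RB_spec hΦ hε β ℓ W
  exact adm_of_near ((h k le_rfl).2 t a ha a' ha') ((h (k + 1) (by linarith)).2 t a ha a' ha')

/-- The force in the isolated pair. -/
theorem RB_frc_pair (hΦ : IsPotential Φ) (hε : 0 < ε) {a b : α} (ha : a ∈ W) (hb : b ∈ W)
    {r : ℝ} (hr : max (β a) (β b) ≤ r) (hon : On ε β (RB Φ ε β ℓ W) a b)
    (H : ∀ c ∈ W, c ≠ a → c ≠ b → β c ≤ r →
      ε ≤ ‖(RB Φ ε β ℓ W r a).1 - (RB Φ ε β ℓ W r c).1‖) :
    HasDerivWithinAt (fun s => (RB Φ ε β ℓ W s a).2)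
      (-(ε⁻¹ • gradient Φ (ε⁻¹ • ((RB Φ ε β ℓ W r a).1 - (RB Φ ε β ℓ W r b).1)))) (Ici r) r := by
  classical
  obtain ⟨k, hk, h⟩ := RB_spec hΦ hε β ℓ W
  obtain ⟨hx, hn⟩ := h k le_rfl
  have hbn : b ∈ nbr ε β W (RB Φ ε β ℓ W) r a := mem_nbr.2 ⟨hb, hr, hon⟩
  have h1 := hx.hasDeriv_vel ha r
  have h2 : frc (trunc Φ k) ε (nbr ε β W (RB Φ ε β ℓ W) r a) (RB Φ ε β ℓ W r) a =
      -(ε⁻¹ • gradient Φ (ε⁻¹ • ((RB Φ ε β ℓ W r a).1 - (RB Φ ε β ℓ W r b).1))) := by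
    rw [frc_subset (sm_trunc hΦ hk) hε (Finset.singleton_subset_iff.2 hbn)]
    · unfold frc
      rw [Finset.sum_singleton, (hn r a ha b hbn).gradient_eq]
    · intro c hc hcb hca
      obtain ⟨h3, h4, -⟩ := mem_nbr.1 hc
      exact H c h3 hca (fun h => hcb (Finset.mem_singleton.2 h)) ((le_max_right _ _).trans h4)
  rwa [h2] at h1

/-- **An isolated pair** follows the two-body evolution. -/
theorem RB_pair_on (hΦ : IsPotential Φ) (hε : 0 < ε) {a b : α} (ha : a ∈ W) (hb : b ∈ W)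
    {s t : ℝ} (hs : max (β a) (β b) ≤ s) (hon : On ε β (RB Φ ε β ℓ W) a b)
    (H : ∀ r ∈ Ioo s t, ∀ c ∈ W, c ≠ a → c ≠ b → β c ≤ r →
      ε ≤ ‖(RB Φ ε β ℓ W r a).1 - (RB Φ ε β ℓ W r c).1‖ ∧
      ε ≤ ‖(RB Φ ε β ℓ W r b).1 - (RB Φ ε β ℓ W r c).1‖) :
    ∀ r ∈ Icc s t, (RB Φ ε β ℓ W r a, RB Φ ε β ℓ W r b) =
      pairEv Φ ε (r - s) (RB Φ ε β ℓ W s a, RB Φ ε β ℓ W s b) := by
  obtain ⟨k, hk, h⟩ := RB_spec hΦ hε β ℓ W
  obtain ⟨hx, hn⟩ := h k le_rfl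
  have hbn : b ∈ nbr ε β W (RB Φ ε β ℓ W) s a := mem_nbr.2 ⟨hb, hs, hon⟩
  have H' : ∀ r ∈ Ico s t, ∀ c ∈ W, c ≠ a → c ≠ b → β c ≤ r →
      ε ≤ ‖(RB Φ ε β ℓ W r a).1 - (RB Φ ε β ℓ W r c).1‖ ∧
      ε ≤ ‖(RB Φ ε β ℓ W r b).1 - (RB Φ ε β ℓ W r c).1‖ := by
    intro r hr c hc hca hcb hcr
    rcases eq_or_lt_of_le hr.1 with h | h
    · subst h
      exact ⟨ge_left (hx.continuous_dist a c) hr.2 fun u hu =>
          (H u hu c hc hca hcb (hcr.trans hu.1.le)).1,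
        ge_left (hx.continuous_dist b c) hr.2 fun u hu =>
          (H u hu c hc hca hcb (hcr.trans hu.1.le)).2⟩
    · exact H r ⟨h, hr.2⟩ c hc hca hcb hcr
  intro r hr
  refine pair_unique_on hΦ hε (γ := fun r => (RB Φ ε β ℓ W r a, RB Φ ε β ℓ W r b)) (a := s)
    (b := t) ((hx.cont a).prodMk (hx.cont b)).continuousOn (fun u hu => ?_) ?_ hr
  · refine ⟨hx.hasDeriv_pos ha u, ?_, hx.hasDeriv_pos hb u, ?_⟩
    · exact RB_frc_pair hΦ hε ha hb (hs.trans hu.1) hon fun c hc hca hcb hcr =>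
        (H' u hu c hc hca hcb hcr).1
    · exact RB_frc_pair hΦ hε hb ha (by rw [max_comm]; exact hs.trans hu.1) (on_comm.1 hon)
        fun c hc hcb hca hcr => (H' u hu c hc hca hcb hcr).2
  · exact RB_adm hΦ hε ha hbn

/-! ### Contact times -/

theorem le_of_not_ctc {ε : ℝ} {p q : Ph} (h : ¬Ctc ε p q) : ε ≤ ‖p.1 - q.1‖ := by
  by_contra hcon
  exact h (ctc_of_lt (not_le.1 hcon))

theorem RB_hasDeriv_pos (hΦ : IsPotential Φ) (hε : 0 < ε) (a : α) (t : ℝ) :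
    HasDerivWithinAt (fun s => (RB Φ ε β ℓ W s a).1) (RB Φ ε β ℓ W t a).2 (Ici t) t :=
  (RB_isBW hΦ hε β ℓ W).hasDeriv_pos' a t

theorem RB_continuous (hΦ : IsPotential Φ) (hε : 0 < ε) (a : α) :
    Continuous fun t => RB Φ ε β ℓ W t a := (RB_isBW hΦ hε β ℓ W).cont a

/-- Contact times are closed under decreasing limits. -/
theorem RB_ctc_of_frequently (hΦ : IsPotential Φ) (hε : 0 < ε) {a b : α} {s : ℝ}
    (h : ∃ᶠ r in 𝓝[>] s, Ctc ε (RB Φ ε β ℓ W r a) (RB Φ ε β ℓ W r b)) :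
    Ctc ε (RB Φ ε β ℓ W s a) (RB Φ ε β ℓ W s b) := by
  have h1 : HasDerivWithinAt (fun s => (RB Φ ε β ℓ W s a).1) (RB Φ ε β ℓ W s a).2 (Ioi s) s :=
    (RB_hasDeriv_pos hΦ hε a s).mono Ioi_subset_Ici_self
  have h2 : HasDerivWithinAt (fun s => (RB Φ ε β ℓ W s b).1) (RB Φ ε β ℓ W s b).2 (Ioi s) s :=
    (RB_hasDeriv_pos hΦ hε b s).mono Ioi_subset_Ici_self
  exact ctc_of_frequently (X := fun r => RB Φ ε β ℓ W r a) (Y := fun r => RB Φ ε β ℓ W r b)
    hε.le h1 h2 h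

/-- Without contact at `s` the distance is `≥ ε` on a right neighbourhood. -/
theorem RB_far_right (hΦ : IsPotential Φ) (hε : 0 < ε) {a b : α} {s : ℝ}
    (h : ¬Ctc ε (RB Φ ε β ℓ W s a) (RB Φ ε β ℓ W s b)) :
    ∀ᶠ r in 𝓝[>] s, ¬Ctc ε (RB Φ ε β ℓ W r a) (RB Φ ε β ℓ W r b) ∧
      ε ≤ ‖(RB Φ ε β ℓ W r a).1 - (RB Φ ε β ℓ W r b).1‖ := by
  have h1 : ∀ᶠ r in 𝓝[>] s, ¬Ctc ε (RB Φ ε β ℓ W r a) (RB Φ ε β ℓ W r b) := by
    by_contra hcon
    exact h (RB_ctc_of_frequently hΦ hε hcon)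
  filter_upwards [h1] with r hr using ⟨hr, le_of_not_ctc hr⟩

/-- The positions are differentiable. -/
theorem RB_hasDerivAt_pos (hΦ : IsPotential Φ) (hε : 0 < ε) (a : α) (t : ℝ) :
    HasDerivAt (fun s => (RB Φ ε β ℓ W s a).1) (RB Φ ε β ℓ W t a).2 t := by
  have hc := RB_continuous (β := β) (ℓ := ℓ) (W := W) hΦ hε a
  have hc1 : Continuous fun t => (RB Φ ε β ℓ W t a).1 := by fun_prop
  have hc2 : Continuous fun t => (RB Φ ε β ℓ W t a).2 := by fun_prop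
  have h1 : ∀ s, (RB Φ ε β ℓ W s a).1 =
      (∫ r in (0 : ℝ)..s, (RB Φ ε β ℓ W r a).2) + (RB Φ ε β ℓ W 0 a).1 := by
    intro s
    have h2 := intervalIntegral.integral_eq_sub_of_hasDeriv_right (a := 0) (b := s)
      (f := fun s => (RB Φ ε β ℓ W s a).1) (f' := fun s => (RB Φ ε β ℓ W s a).2)
      hc1.continuousOn (fun r _ => (RB_hasDeriv_pos hΦ hε a r).mono Ioi_subset_Ici_self)
      (hc2.intervalIntegrable _ _)
    rw [h2]
    exact (sub_add_cancel _ _).symm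
  have h3 : HasDerivAt (fun s => (∫ r in (0 : ℝ)..s, (RB Φ ε β ℓ W r a).2) +
      (RB Φ ε β ℓ W 0 a).1) (RB Φ ε β ℓ W t a).2 t :=
    (intervalIntegral.integral_hasDerivAt_right (hc2.intervalIntegrable _ _)
      (hc2.stronglyMeasurableAtFilter _ _) hc2.continuousAt).add_const _
  exact h3.congr_of_eventuallyEq (Eventually.of_forall h1)

end local_motion

end Vale.Agent.P119.RB
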